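import Mathlib

namespace Vale.Agent.P026.H142

open ArithmeticFunction Finset

/-- the Möbius function restricted to integers coprime to `f`. -/
noncomputable def muC (f : ℕ) : ArithmeticFunction ℤ :=
  ⟨fun m => if m.Coprime f then moebius m else 0, by simp⟩

theorem muC_apply (f m : ℕ) : muC f m = if m.Coprime f then moebius m else 0 := rfl

theorem muC_mult (f : ℕ) : (muC f).IsMultiplicative := by
  refine ⟨by simp [muC_apply], ?_⟩
  intro m n hmn
  rw [muC_apply, muC_apply, muC_apply,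
    isMultiplicative_moebius.map_mul_of_coprime hmn]
  have h0 : (m * n).Coprime f ↔ m.Coprime f ∧ n.Coprime f := Nat.coprime_mul_iff_left
  by_cases h1 : m.Coprime f
  · by_cases h2 : n.Coprime f
    · rw [if_pos (h0.mpr ⟨h1, h2⟩), if_pos h1, if_pos h2]
    · rw [if_neg (fun h => h2 (h0.mp h).2), if_neg h2, mul_zero]
  · rw [if_neg (fun h => h1 (h0.mp h).1), if_neg h1, zero_mul]

/-- `g = muC f * ζ`; indicator of integers all of whose prime factors divide `f`. -/
noncomputable def gC (f : ℕ) : ArithmeticFunction ℤ := muC f * (zeta : ArithmeticFunction ℤ)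

theorem gC_apply (f n : ℕ) : gC f n = ∑ d ∈ n.divisors, muC f d := by
  unfold gC
  exact coe_mul_zeta_apply

theorem gC_mult (f : ℕ) : (gC f).IsMultiplicative :=
  (muC_mult f).mul isMultiplicative_zeta.natCast

theorem gC_prime_pow (f p k : ℕ) (hp : p.Prime) (hk : k ≠ 0) :
    gC f (p ^ k) = if p ∣ f then 1 else 0 := by
  rw [gC_apply, Nat.sum_divisors_prime_pow hp]
  obtain ⟨j, rfl⟩ := Nat.exists_eq_succ_of_ne_zero hk
  rw [Finset.sum_range_succ', Finset.sum_range_succ']
  have h0 : ∑ i ∈ range j, muC f (p ^ (i + 1 + 1)) = 0 := by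
    apply Finset.sum_eq_zero
    intro i _
    rw [muC_apply]
    have : moebius (p ^ (i + 1 + 1)) = 0 := by
      rw [moebius_apply_prime_pow hp (by omega)]
      simp
    simp [this]
  rw [h0]
  have h1 : muC f (p ^ (0 + 1)) = if p ∣ f then 0 else -1 := by
    rw [muC_apply]
    simp only [zero_add, pow_one]
    by_cases h : p ∣ f
    · have : ¬ p.Coprime f := by
        rw [Nat.Prime.coprime_iff_not_dvd hp]; simpa using h
      simp [h, this]
    · have : p.Coprime f := by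
        rw [Nat.Prime.coprime_iff_not_dvd hp]; exact h
      simp [h, this, moebius_apply_prime hp]
  rw [h1]
  have h2 : muC f (p ^ 0) = 1 := by simp [muC_apply]
  rw [h2]
  split_ifs <;> norm_num

theorem gC_nonneg_le_one (f n : ℕ) : 0 ≤ gC f n ∧ gC f n ≤ 1 := by
  rcases eq_or_ne n 0 with rfl | hn
  · simp
  rw [(gC_mult f).multiplicative_factorization _ hn]
  unfold Finsupp.prod
  have key : ∀ p ∈ n.factorization.support, 0 ≤ gC f (p ^ n.factorization p) ∧
      gC f (p ^ n.factorization p) ≤ 1 := by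
    intro p hp
    have hpp : p.Prime := Nat.prime_of_mem_primeFactors (by simpa using hp)
    rw [gC_prime_pow f p _ hpp (Finsupp.mem_support_iff.mp hp)]
    split_ifs <;> norm_num
  exact ⟨Finset.prod_nonneg fun p hp => (key p hp).1,
    Finset.prod_le_one (fun p hp => (key p hp).1) (fun p hp => (key p hp).2)⟩

theorem gC_coprime (f n : ℕ) (hn : n ≠ 1) (h : n.Coprime f) : gC f n = 0 := by
  rcases eq_or_ne n 0 with rfl | hn0
  · simp
  rw [(gC_mult f).multiplicative_factorization _ hn0]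
  unfold Finsupp.prod
  obtain ⟨p, hp, hpn⟩ := Nat.exists_prime_and_dvd hn
  apply Finset.prod_eq_zero (i := p)
  · simp [Nat.support_factorization, hp, hpn, hn0]
  · have : ¬ p ∣ f := by
      intro hpf
      have := Nat.dvd_gcd hpn hpf
      rw [h] at this
      exact hp.one_lt.ne' (Nat.dvd_one.mp this)
    show gC f (p ^ n.factorization p) = 0
    rw [gC_prime_pow f p _ hp]
    · simp [this]
    · have := (hp.dvd_iff_one_le_factorization hn0).mp hpn
      omega

/-- `∑_{n ≤ N} gC n = ∑_{m ≤ N} muC m * ⌊N/m⌋` -/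
theorem sum_gC (f N : ℕ) :
    ∑ n ∈ Icc 1 N, gC f n = ∑ m ∈ Icc 1 N, muC f m * ((N / m : ℕ) : ℤ) := by
  simp_rw [gC_apply]
  have h1 : ∀ n ∈ Icc 1 N, ∑ d ∈ n.divisors, muC f d
      = ∑ d ∈ Icc 1 N, if d ∣ n then muC f d else 0 := by
    intro n hn
    rw [Finset.mem_Icc] at hn
    rw [← Finset.sum_filter]
    apply Finset.sum_congr _ (fun _ _ => rfl)
    ext d
    simp only [Nat.mem_divisors, Finset.mem_filter, Finset.mem_Icc]
    constructor
    · rintro ⟨h1, h2⟩
      exact ⟨⟨Nat.pos_of_dvd_of_pos h1 (by omega), (Nat.le_of_dvd (by omega) h1).trans hn.2⟩, h1⟩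
    · rintro ⟨_, h2⟩
      exact ⟨h2, by omega⟩
  rw [Finset.sum_congr rfl h1, Finset.sum_comm]
  apply Finset.sum_congr rfl
  intro m hm
  rw [Finset.mem_Icc] at hm
  rw [← Finset.sum_filter, Finset.sum_const, nsmul_eq_mul, mul_comm]
  congr 2
  rw [← Nat.Ioc_filter_dvd_card_eq_div N m]
  congr 1

theorem abs_sum_muC_div_le_one (f N : ℕ) :
    |∑ m ∈ Icc 1 N, (muC f m : ℝ) / m| ≤ 1 := by
  rcases Nat.eq_zero_or_pos N with rfl | hN
  · simp
  have hN' : (0 : ℝ) < N := by exact_mod_cast hN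
  -- N * sum = sum gC + sum muC * frac
  have hsplit : (N : ℝ) * ∑ m ∈ Icc 1 N, (muC f m : ℝ) / m
      = ∑ n ∈ Icc 1 N, (gC f n : ℝ) + ∑ m ∈ Icc 1 N, (muC f m : ℝ) * ((N : ℝ) / m - (N / m : ℕ)) := by
    have := sum_gC f N
    have h2 : ∑ n ∈ Icc 1 N, (gC f n : ℝ) = ∑ m ∈ Icc 1 N, (muC f m : ℝ) * ((N / m : ℕ) : ℝ) := by
      have h3 := congrArg (Int.cast : ℤ → ℝ) this
      rw [Int.cast_sum, Int.cast_sum] at h3
      simpa only [Int.cast_mul, Int.cast_natCast] using h3
    rw [h2, Finset.mul_sum, ← Finset.sum_add_distrib]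
    apply Finset.sum_congr rfl
    intro m hm
    have : (m : ℝ) ≠ 0 := by
      rw [Finset.mem_Icc] at hm
      exact_mod_cast (by omega : m ≠ 0)
    field_simp
    ring
  have hbound : |(N : ℝ) * ∑ m ∈ Icc 1 N, (muC f m : ℝ) / m| ≤ N := by
    rw [hsplit]
    have e1 : |∑ n ∈ Icc 1 N, (gC f n : ℝ)| ≤ ∑ n ∈ Icc 1 N, |(gC f n : ℝ)| :=
      Finset.abs_sum_le_sum_abs _ _
    have e2 : |∑ m ∈ Icc 1 N, (muC f m : ℝ) * ((N : ℝ) / m - (N / m : ℕ))| ≤
        ∑ m ∈ Icc 1 N, |(muC f m : ℝ) * ((N : ℝ) / m - (N / m : ℕ))| :=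
      Finset.abs_sum_le_sum_abs _ _
    have e3 : ∑ n ∈ Icc 1 N, |(gC f n : ℝ)| + ∑ m ∈ Icc 1 N, |(muC f m : ℝ) * ((N : ℝ) / m - (N / m : ℕ))|
        ≤ ∑ n ∈ Icc 1 N, (1 : ℝ) := by
      rw [← Finset.sum_add_distrib]
      apply Finset.sum_le_sum
      intro m hm
      rw [Finset.mem_Icc] at hm
      have hm0 : (0 : ℝ) < m := by exact_mod_cast (by omega : 0 < m)
      have hfrac0 : 0 ≤ (N : ℝ) / m - (N / m : ℕ) := by
        rw [sub_nonneg]; exact Nat.cast_div_le
      have hfrac1 : (N : ℝ) / m - (N / m : ℕ) ≤ 1 := by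
        rw [sub_le_iff_le_add, div_le_iff₀ hm0]
        have := Nat.lt_div_mul_add (a := N) (b := m) (by omega)
        have h3 : (N : ℝ) < ((N / m : ℕ) : ℝ) * m + m := by exact_mod_cast this
        nlinarith
      have hg := gC_nonneg_le_one f m
      have hg0 : (0 : ℝ) ≤ gC f m := by exact_mod_cast hg.1
      have hg1 : (gC f m : ℝ) ≤ 1 := by exact_mod_cast hg.2
      rw [abs_of_nonneg hg0]
      rcases eq_or_ne m 1 with rfl | hm1
      · simp only [Nat.cast_one, div_one, Nat.div_one, sub_self, mul_zero, abs_zero, add_zero]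
        exact hg1
      by_cases hc : m.Coprime f
      · rw [gC_coprime f m hm1 hc]
        rw [abs_mul, abs_of_nonneg hfrac0, muC_apply, if_pos hc]
        have : |((moebius m : ℤ) : ℝ)| ≤ 1 := by exact_mod_cast abs_moebius_le_one
        have h4 : |((moebius m : ℤ) : ℝ)| * ((N : ℝ) / m - (N / m : ℕ)) ≤ 1 * 1 :=
          mul_le_mul this hfrac1 hfrac0 zero_le_one
        simpa using h4
      · rw [muC_apply, if_neg hc]
        simpa using hg1
    calc |∑ n ∈ Icc 1 N, (gC f n : ℝ) + ∑ m ∈ Icc 1 N, (muC f m : ℝ) * ((N : ℝ) / m - (N / m : ℕ))|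
        ≤ _ := abs_add_le _ _
      _ ≤ _ := add_le_add e1 e2
      _ ≤ _ := e3
      _ = N := by simp
  rw [abs_mul, abs_of_pos hN'] at hbound
  exact le_of_mul_le_mul_left (by simpa using hbound) hN'

end Vale.Agent.P026.H142
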