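import Mathlib
import Vale.Agent.P026.H142.Mu

namespace Vale.Agent.P026.H142

open ArithmeticFunction Finset

/-- harmonic sum up to a real number -/
noncomputable def Hs (v : ℝ) : ℝ := ∑ m ∈ Ioc 0 ⌊v⌋₊, 1 / (m : ℝ)

theorem Hs_eq_harmonic (v : ℝ) : Hs v = ((harmonic ⌊v⌋₊ : ℚ) : ℝ) := by
  unfold Hs
  rw [harmonic_eq_sum_Icc]
  push_cast
  apply Finset.sum_congr
  · ext; simp [Nat.one_le_iff_ne_zero, Nat.pos_iff_ne_zero]
  · intro x _; rw [one_div]

theorem abs_Hs_sub_le {v : ℝ} (hv : 0 < v) :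
    |Hs v - Real.log v - Real.eulerMascheroniConstant| ≤ 2 / √v := by
  have hs : 0 < √v := Real.sqrt_pos.mpr hv
  rcases le_or_gt 1 v with h1 | h1
  · -- v ≥ 1
    set n := ⌊v⌋₊ with hn
    have hn1 : 1 ≤ n := Nat.le_floor (by simpa using h1)
    have hnpos : (0 : ℝ) < n := by exact_mod_cast hn1
    have hnv : (n : ℝ) ≤ v := Nat.floor_le hv.le
    have hvn : v < n + 1 := Nat.lt_floor_add_one v
    have a1 := Real.eulerMascheroniSeq_lt_eulerMascheroniConstant n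
    have a2 := Real.eulerMascheroniConstant_lt_eulerMascheroniSeq' n
    unfold Real.eulerMascheroniSeq at a1
    rw [Real.eulerMascheroniSeq', if_neg (by omega)] at a2
    have b1 : Real.log n ≤ Real.log v := Real.log_le_log hnpos hnv
    have b2 : Real.log v ≤ Real.log (n + 1) := Real.log_le_log hv hvn.le
    have b3 : Real.log (n + 1) - Real.log n ≤ 1 / n := by
      rw [← Real.log_div (by positivity) (by positivity)]
      have : (n + 1 : ℝ) / n = 1 / n + 1 := by field_simp; ring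
      rw [this]
      have := Real.log_le_sub_one_of_pos (x := 1 / (n:ℝ) + 1) (by positivity)
      linarith
    have b4 : 1 / (n : ℝ) ≤ 2 / √v := by
      rw [div_le_div_iff₀ hnpos hs]
      have : √v ≤ v := by
        rw [Real.sqrt_le_left (by linarith)]
        nlinarith
      have : (1 : ℝ) ≤ n := by exact_mod_cast hn1
      linarith
    rw [Hs_eq_harmonic, abs_le]
    constructor <;> linarith
  · -- v < 1
    have hfl : ⌊v⌋₊ = 0 := Nat.floor_eq_zero.mpr h1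
    have : Hs v = 0 := by simp [Hs, hfl]
    rw [this]
    have c1 : Real.eulerMascheroniConstant < 2 / 3 := Real.eulerMascheroniConstant_lt_two_thirds
    have c2 : 1 / 2 < Real.eulerMascheroniConstant := Real.one_half_lt_eulerMascheroniConstant
    have c3 : -Real.log v ≤ 2 * (1 / √v - 1) := by
      have h3 := Real.log_le_sub_one_of_pos (x := 1 / √v) (by positivity)
      have h4 : Real.log (1 / √v) = - (Real.log v / 2) := by
        rw [one_div, Real.log_inv, Real.log_sqrt hv.le]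
      rw [h4] at h3
      linarith
    have c4 : Real.log v ≤ 0 := Real.log_nonpos hv.le h1.le
    have c5 : 1 ≤ 1 / √v := by
      rw [le_div_iff₀ hs, one_mul]
      exact Real.sqrt_le_one.mpr h1.le
    have c6 : 2 / √v = 2 * (1 / √v) := by ring
    rw [abs_le, c6]
    constructor <;> linarith

/-- real valued `μ(m) [ (m,f) = 1 ] / m` -/
noncomputable def muD (f : ℕ) : ArithmeticFunction ℝ :=
  ⟨fun m => (muC f m : ℝ) / m, by simp⟩

theorem muD_apply (f m : ℕ) : muD f m = (muC f m : ℝ) / m := rfl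

/-- `[ (n,f) = 1 ] / n` -/
noncomputable def invC (f : ℕ) : ArithmeticFunction ℝ :=
  ⟨fun m => if m.Coprime f then 1 / (m : ℝ) else 0, by simp⟩

theorem invC_apply (f m : ℕ) : invC f m = if m.Coprime f then 1 / (m : ℝ) else 0 := rfl

/-- `[d ∣ f] μ(d) / d` -/
noncomputable def dvD (f : ℕ) : ArithmeticFunction ℝ :=
  ⟨fun d => if d ∣ f then (moebius d : ℝ) / d else 0, by simp⟩

theorem dvD_apply (f m : ℕ) : dvD f m = if m ∣ f then (moebius m : ℝ) / m else 0 := rfl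

noncomputable def invA : ArithmeticFunction ℝ :=
  ⟨fun m => 1 / (m : ℝ), by simp⟩

theorem invA_apply (m : ℕ) : invA m = 1 / (m : ℝ) := rfl

theorem muD_mul_invC (f : ℕ) : muD f * invC f = 1 := by
  ext k
  rcases eq_or_ne k 0 with rfl | hk
  · simp
  rw [mul_apply]
  by_cases hc : k.Coprime f
  · have h1 : ∀ x ∈ k.divisorsAntidiagonal, muD f x.1 * invC f x.2 = (1 / (k : ℝ)) * (moebius x.1 : ℝ) := by
      intro x hx
      rw [Nat.mem_divisorsAntidiagonal] at hx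
      obtain ⟨hx, _⟩ := hx
      have e1 : x.1.Coprime f := Nat.Coprime.coprime_dvd_left ⟨x.2, hx.symm⟩ hc
      have e2 : x.2.Coprime f := Nat.Coprime.coprime_dvd_left ⟨x.1, by rw [mul_comm]; exact hx.symm⟩ hc
      have e3 : (k : ℝ) = x.1 * x.2 := by exact_mod_cast hx.symm
      have hk' : (k : ℝ) ≠ 0 := by exact_mod_cast hk
      have e4 : (x.1 : ℝ) ≠ 0 := by intro h; rw [e3, h, zero_mul] at hk'; exact hk' rfl
      have e5 : (x.2 : ℝ) ≠ 0 := by intro h; rw [e3, h, mul_zero] at hk'; exact hk' rfl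
      rw [muD_apply, invC_apply, muC_apply, if_pos e1, if_pos e2, e3]
      field_simp
    rw [Finset.sum_congr rfl h1, ← Finset.mul_sum]
    have h2 : ∑ x ∈ k.divisorsAntidiagonal, (moebius x.1 : ℝ) = if k = 1 then 1 else 0 := by
      rw [Nat.sum_divisorsAntidiagonal (f := fun d _ => (moebius d : ℝ))]
      have h3 : ((∑ d ∈ k.divisors, moebius d : ℤ) : ℝ) = if k = 1 then 1 else 0 := by
        rw [← coe_mul_zeta_apply, moebius_mul_coe_zeta, one_apply]
        split_ifs <;> simp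
      rw [← h3]; push_cast; rfl
    rw [h2, one_apply]
    split_ifs with h
    · subst h; simp
    · simp
  · rw [one_apply, if_neg (by rintro rfl; exact hc (Nat.coprime_one_left f))]
    apply Finset.sum_eq_zero
    intro x hx
    rw [Nat.mem_divisorsAntidiagonal] at hx
    obtain ⟨hx, _⟩ := hx
    rw [muD_apply, invC_apply, muC_apply]
    by_cases h1 : x.1.Coprime f
    · by_cases h2 : x.2.Coprime f
      · exact absurd (hx ▸ Nat.Coprime.mul_left h1 h2) hc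
      · rw [if_neg h2, mul_zero]
    · rw [if_neg h1]; simp

theorem dvD_mul_invA (f : ℕ) : dvD f * invA = invC f := by
  ext k
  rcases eq_or_ne k 0 with rfl | hk
  · simp
  rw [mul_apply]
  have h1 : ∀ x ∈ k.divisorsAntidiagonal, dvD f x.1 * invA x.2
      = (1 / (k : ℝ)) * (if x.1 ∣ f then (moebius x.1 : ℝ) else 0) := by
    intro x hx
    rw [Nat.mem_divisorsAntidiagonal] at hx
    obtain ⟨hx, _⟩ := hx
    have e3 : (k : ℝ) = x.1 * x.2 := by exact_mod_cast hx.symm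
    have hk' : (k : ℝ) ≠ 0 := by exact_mod_cast hk
    have e4 : (x.1 : ℝ) ≠ 0 := by intro h; rw [e3, h, zero_mul] at hk'; exact hk' rfl
    have e5 : (x.2 : ℝ) ≠ 0 := by intro h; rw [e3, h, mul_zero] at hk'; exact hk' rfl
    rw [dvD_apply, invA_apply, e3]
    split_ifs
    · field_simp
    · simp
  rw [Finset.sum_congr rfl h1, ← Finset.mul_sum,
    Nat.sum_divisorsAntidiagonal (f := fun d _ => if d ∣ f then (moebius d : ℝ) else 0),
    ← Finset.sum_filter]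
  have h2 : k.divisors.filter (· ∣ f) = (k.gcd f).divisors := by
    ext d
    simp only [Finset.mem_filter, Nat.mem_divisors, Nat.dvd_gcd_iff]
    constructor
    · rintro ⟨⟨a, _⟩, b⟩
      exact ⟨⟨a, b⟩, Nat.gcd_ne_zero_left hk⟩
    · rintro ⟨⟨a, b⟩, _⟩
      exact ⟨⟨a, hk⟩, b⟩
  rw [h2]
  have h3 : ((∑ d ∈ (k.gcd f).divisors, moebius d : ℤ) : ℝ) = if k.gcd f = 1 then 1 else 0 := by
    rw [← coe_mul_zeta_apply, moebius_mul_coe_zeta, one_apply]
    split_ifs <;> simp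
  have h4 : ∑ d ∈ (k.gcd f).divisors, (moebius d : ℝ) = if k.gcd f = 1 then 1 else 0 := by
    rw [← h3]; push_cast; rfl
  rw [h4, invC_apply]
  by_cases h : k.gcd f = 1
  · rw [if_pos h, if_pos (show k.Coprime f from h), mul_one]
  · rw [if_neg h, if_neg (show ¬ k.Coprime f from h), mul_zero]


/-- `∑_{n ≤ v, (n,f)=1} 1/n` -/
noncomputable def Tf (f : ℕ) (v : ℝ) : ℝ := ∑ n ∈ Ioc 0 ⌊v⌋₊, invC f n

theorem floor_div_nat' (v : ℝ) (d : ℕ) : ⌊v / d⌋₊ = ⌊v⌋₊ / d := Nat.floor_div_natCast v d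

theorem Tf_eq (f : ℕ) (v : ℝ) :
    Tf f v = ∑ d ∈ Ioc 0 ⌊v⌋₊, dvD f d * Hs (v / d) := by
  unfold Tf
  rw [← dvD_mul_invA f, sum_Ioc_mul_eq_sum_sum]
  apply Finset.sum_congr rfl
  intro d _
  unfold Hs
  rw [floor_div_nat']
  rfl

theorem Tf_eq' (f : ℕ) (hf : f ≠ 0) (v : ℝ) :
    Tf f v = ∑ d ∈ f.divisors, (moebius d : ℝ) / d * Hs (v / d) := by
  rw [Tf_eq]
  have h1 : ∑ d ∈ Ioc 0 ⌊v⌋₊, dvD f d * Hs (v / d)
      = ∑ d ∈ (Ioc 0 ⌊v⌋₊) ∩ f.divisors, (moebius d : ℝ) / d * Hs (v / d) := by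
    symm
    rw [← Finset.filter_mem_eq_inter, Finset.sum_filter]
    apply Finset.sum_congr rfl
    intro d _
    rw [dvD_apply]
    by_cases h : d ∣ f
    · rw [if_pos h, if_pos (Nat.mem_divisors.mpr ⟨h, hf⟩)]
    · rw [if_neg h, if_neg (fun h' => h (Nat.dvd_of_mem_divisors h')), zero_mul]
  rw [h1]
  apply Finset.sum_subset Finset.inter_subset_right
  intro d hd hd'
  have hd0 : 0 < d := Nat.pos_of_mem_divisors hd
  have : ⌊v⌋₊ < d := by
    by_contra hcon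
    push Not at hcon
    exact hd' (Finset.mem_inter.mpr ⟨Finset.mem_Ioc.mpr ⟨hd0, hcon⟩, hd⟩)
  have h2 : Hs (v / d) = 0 := by
    unfold Hs
    rw [floor_div_nat', Nat.div_eq_of_lt this]
    simp
  rw [h2, mul_zero]

noncomputable def Af (f : ℕ) : ℝ := ∑ d ∈ f.divisors, (moebius d : ℝ) / d
noncomputable def Bf (f : ℕ) : ℝ :=
  ∑ d ∈ f.divisors, (moebius d : ℝ) / d * (Real.eulerMascheroniConstant - Real.log d)
noncomputable def kap (f : ℕ) : ℝ := ∑ d ∈ f.divisors, 1 / √(d : ℝ)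
noncomputable def Rf (f : ℕ) (v : ℝ) : ℝ := Tf f v - Af f * Real.log v - Bf f

theorem one_le_kap {f : ℕ} (hf : f ≠ 0) : 1 ≤ kap f := by
  unfold kap
  have : (1 : ℝ) / √((1 : ℕ) : ℝ) ≤ ∑ d ∈ f.divisors, 1 / √(d : ℝ) :=
    Finset.single_le_sum (f := fun d : ℕ => 1 / √(d : ℝ)) (fun i _ => by positivity)
      (Nat.one_mem_divisors.mpr hf)
  simpa using this

theorem abs_moebius_le_one' (d : ℕ) : |(moebius d : ℝ)| ≤ 1 := by
  exact_mod_cast abs_moebius_le_one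

theorem abs_Rf_le (f : ℕ) (hf : f ≠ 0) {v : ℝ} (hv : 0 < v) :
    |Rf f v| ≤ 2 * kap f / √v := by
  unfold Rf
  rw [Tf_eq' f hf v, Af, Bf, Finset.sum_mul, ← Finset.sum_sub_distrib, ← Finset.sum_sub_distrib]
  have h1 : 2 * kap f / √v = ∑ d ∈ f.divisors, 1 / (d : ℝ) * (2 / √(v / d)) := by
    unfold kap
    rw [Finset.mul_sum, Finset.sum_div]
    apply Finset.sum_congr rfl
    intro d hd
    have hd0 : (0 : ℝ) < d := by exact_mod_cast Nat.pos_of_mem_divisors hd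
    have hsd : 0 < √(d : ℝ) := Real.sqrt_pos.mpr hd0
    have hsv : 0 < √v := Real.sqrt_pos.mpr hv
    rw [Real.sqrt_div hv.le]
    have : (d : ℝ) = √(d : ℝ) * √(d : ℝ) := (Real.mul_self_sqrt hd0.le).symm
    field_simp
    nlinarith [this]
  rw [h1]
  refine (Finset.abs_sum_le_sum_abs _ _).trans (Finset.sum_le_sum ?_)
  intro d hd
  have hd0 : (0 : ℝ) < d := by exact_mod_cast Nat.pos_of_mem_divisors hd
  have hvd : 0 < v / d := by positivity
  have h2 := abs_Hs_sub_le hvd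
  have h3 : (moebius d : ℝ) / d * Hs (v / d) - (moebius d : ℝ) / d * Real.log v
      - (moebius d : ℝ) / d * (Real.eulerMascheroniConstant - Real.log d)
      = (moebius d : ℝ) / d * (Hs (v / d) - Real.log (v / d) - Real.eulerMascheroniConstant) := by
    rw [Real.log_div hv.ne' hd0.ne']
    ring
  rw [h3, abs_mul]
  apply mul_le_mul _ h2 (abs_nonneg _) (by positivity)
  rw [abs_div, abs_of_pos hd0]
  exact div_le_div_of_nonneg_right (abs_moebius_le_one' d) hd0.le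

theorem Tf_one (f : ℕ) : Tf f 1 = 1 := by
  simp [Tf, invC_apply]

theorem abs_Bf_le (f : ℕ) (hf : f ≠ 0) : |Bf f| ≤ 1 + 2 * kap f := by
  have h := abs_Rf_le f hf (v := 1) one_pos
  unfold Rf at h
  rw [Tf_one, Real.log_one, mul_zero, sub_zero, Real.sqrt_one, div_one] at h
  rw [abs_le] at h ⊢
  constructor <;> linarith

theorem sum_inv_sqrt_le (N : ℕ) : ∑ m ∈ Ioc 0 N, 1 / √(m : ℝ) ≤ 2 * √(N : ℝ) := by
  induction N with
  | zero => simp
  | succ n ih =>
    rw [Finset.sum_Ioc_succ_top (by omega)]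
    have hn : (0 : ℝ) ≤ n := Nat.cast_nonneg n
    have h1 : √(n : ℝ) ≤ √((n : ℝ) + 1) := Real.sqrt_le_sqrt (by linarith)
    have h2 : 0 < √((n : ℝ) + 1) := Real.sqrt_pos.mpr (by linarith)
    have h3 : √((n : ℝ) + 1) * √((n : ℝ) + 1) = n + 1 := Real.mul_self_sqrt (by linarith)
    have h4 : √(n : ℝ) * √(n : ℝ) = n := Real.mul_self_sqrt hn
    have h5 : 0 ≤ √(n : ℝ) := Real.sqrt_nonneg _
    have h6 : 1 / √((n : ℝ) + 1) ≤ 2 * √((n : ℝ) + 1) - 2 * √(n : ℝ) := by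
      rw [div_le_iff₀ h2]
      nlinarith
    push_cast
    linarith

/-- `M_f(x) = ∑_{m ≤ x, (m,f)=1} μ(m)/m log(x/m)` -/
noncomputable def Mf (f : ℕ) (v : ℝ) : ℝ := ∑ m ∈ Ioc 0 ⌊v⌋₊, muD f m * Real.log (v / m)

theorem abs_sum_muD_le (f N : ℕ) : |∑ m ∈ Ioc 0 N, muD f m| ≤ 1 := by
  have := abs_sum_muC_div_le_one f N
  exact this

theorem abs_muD_le (f m : ℕ) : |muD f m| ≤ 1 / (m : ℝ) := by
  rw [muD_apply, abs_div, Nat.abs_cast]
  apply div_le_div_of_nonneg_right _ (Nat.cast_nonneg m)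
  rw [muC_apply]
  split_ifs
  · exact abs_moebius_le_one' m
  · simp

theorem sum_muD_Tf (f : ℕ) {x : ℝ} (hx : 1 ≤ x) :
    ∑ m ∈ Ioc 0 ⌊x⌋₊, muD f m * Tf f (x / m) = 1 := by
  have h1 : ∑ m ∈ Ioc 0 ⌊x⌋₊, muD f m * Tf f (x / m)
      = ∑ n ∈ Ioc 0 ⌊x⌋₊, (muD f * invC f) n := by
    rw [sum_Ioc_mul_eq_sum_sum]
    apply Finset.sum_congr rfl
    intro d _
    unfold Tf
    rw [floor_div_nat']
  rw [h1, muD_mul_invC]
  have h2 : 1 ≤ ⌊x⌋₊ := Nat.le_floor (by simpa using hx)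
  simp only [one_apply]
  rw [Finset.sum_ite_eq' (Ioc 0 ⌊x⌋₊) 1]
  simp
  linarith

theorem Af_mul_Mf_le (f : ℕ) (hf : f ≠ 0) {x : ℝ} (hx : 0 < x) :
    |Af f * Mf f x| ≤ 8 * kap f := by
  have hk := one_le_kap hf
  rcases lt_or_ge x 1 with h1 | h1
  · have : ⌊x⌋₊ = 0 := Nat.floor_eq_zero.mpr h1
    simp only [Mf, this, Ioc_self, sum_empty, mul_zero, abs_zero]
    linarith
  have e1 := sum_muD_Tf f h1
  have e2 : ∑ m ∈ Ioc 0 ⌊x⌋₊, muD f m * Tf f (x / m)
      = Af f * Mf f x + Bf f * ∑ m ∈ Ioc 0 ⌊x⌋₊, muD f m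
        + ∑ m ∈ Ioc 0 ⌊x⌋₊, muD f m * Rf f (x / m) := by
    unfold Mf
    rw [Finset.mul_sum, Finset.mul_sum, ← Finset.sum_add_distrib, ← Finset.sum_add_distrib]
    apply Finset.sum_congr rfl
    intro m _
    unfold Rf
    ring
  have e3 : |∑ m ∈ Ioc 0 ⌊x⌋₊, muD f m * Rf f (x / m)| ≤ 4 * kap f := by
    have h2 : ∀ m ∈ Ioc 0 ⌊x⌋₊, |muD f m * Rf f (x / m)| ≤ 2 * kap f / √x * (1 / √(m : ℝ)) := by
      intro m hm
      rw [Finset.mem_Ioc] at hm
      have hm0 : (0 : ℝ) < m := by exact_mod_cast hm.1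
      have hsm : 0 < √(m : ℝ) := Real.sqrt_pos.mpr hm0
      have hsx : 0 < √x := Real.sqrt_pos.mpr hx
      rw [abs_mul]
      calc |muD f m| * |Rf f (x / m)| ≤ (1 / (m : ℝ)) * (2 * kap f / √(x / m)) :=
            mul_le_mul (abs_muD_le f m) (abs_Rf_le f hf (by positivity)) (abs_nonneg _) (by positivity)
        _ = 2 * kap f / √x * (1 / √(m : ℝ)) := by
            rw [Real.sqrt_div hx.le]
            have : (m : ℝ) = √(m : ℝ) * √(m : ℝ) := (Real.mul_self_sqrt hm0.le).symm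
            field_simp
            nlinarith [this]
    refine (Finset.abs_sum_le_sum_abs _ _).trans ((Finset.sum_le_sum h2).trans ?_)
    rw [← Finset.mul_sum]
    have h3 := sum_inv_sqrt_le ⌊x⌋₊
    have h4 : √((⌊x⌋₊ : ℕ) : ℝ) ≤ √x := Real.sqrt_le_sqrt (Nat.floor_le hx.le)
    have hsx : 0 < √x := Real.sqrt_pos.mpr hx
    calc 2 * kap f / √x * ∑ m ∈ Ioc 0 ⌊x⌋₊, 1 / √(m : ℝ) ≤ 2 * kap f / √x * (2 * √x) := by
          apply mul_le_mul_of_nonneg_left (h3.trans (by linarith)) (by positivity)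
      _ = 4 * kap f := by field_simp; ring
  have e4 := abs_sum_muD_le f ⌊x⌋₊
  have e5 := abs_Bf_le f hf
  have e6 : |Bf f * ∑ m ∈ Ioc 0 ⌊x⌋₊, muD f m| ≤ 1 + 2 * kap f := by
    rw [abs_mul]
    calc _ ≤ (1 + 2 * kap f) * 1 := mul_le_mul e5 e4 (abs_nonneg _) (by positivity)
      _ = _ := by ring
  rw [e1] at e2
  have e7 : Af f * Mf f x = 1 - Bf f * ∑ m ∈ Ioc 0 ⌊x⌋₊, muD f m
        - ∑ m ∈ Ioc 0 ⌊x⌋₊, muD f m * Rf f (x / m) := by linarith
  rw [e7]
  rw [abs_le] at e3 e6 ⊢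
  constructor <;> linarith

end Vale.Agent.P026.H142
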