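import Mathlib
import Vale.Agent.P026.H142.LemmaM

namespace Vale.Agent.P026.H142

open ArithmeticFunction Finset MeasureTheory intervalIntegral

/-- second derivative weight -/
noncomputable def W2 (ε L v : ℝ) : ℝ := ε ^ 2 * Real.exp (-ε * v) * (L - v) + 2 * ε * Real.exp (-ε * v)

theorem W2_cont (ε L : ℝ) : Continuous (W2 ε L) := by unfold W2; fun_prop

theorem W2_nonneg {ε L v : ℝ} (hε : 0 ≤ ε) (hv : v ≤ L) : 0 ≤ W2 ε L v := by
  unfold W2
  have := sub_nonneg.mpr hv
  positivity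

theorem hasDerivAt_G (ε L t v : ℝ) :
    HasDerivAt (fun v => (-ε * Real.exp (-ε * v) * (L - v) - Real.exp (-ε * v)) * (v - t)
      - Real.exp (-ε * v) * (L - v)) (W2 ε L v * (v - t)) v := by
  have h1 : HasDerivAt (fun v => Real.exp (-ε * v)) (Real.exp (-ε * v) * (-ε)) v := by
    have := ((hasDerivAt_id v).const_mul (-ε)).exp
    simpa using this
  have h2 : HasDerivAt (fun v => L - v) (-1) v := by
    simpa using (hasDerivAt_id v).const_sub L
  have h3 : HasDerivAt (fun v => v - t) 1 v := by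
    simpa using (hasDerivAt_id v).sub_const t
  have h4 := (((h1.const_mul (-ε)).mul h2).sub h1).mul h3
  have h5 := h4.sub (h1.mul h2)
  refine h5.congr_deriv ?_
  simp only [W2, Pi.mul_apply, Pi.sub_apply]
  ring

theorem integral_W2_sub (ε L t : ℝ) :
    ∫ v in t..L, W2 ε L v * (v - t) = Real.exp (-ε * t) * (L - t) - Real.exp (-ε * L) * (L - t) := by
  rw [integral_eq_sub_of_hasDerivAt (fun x _ => hasDerivAt_G ε L t x)]
  · ring
  · apply Continuous.intervalIntegrable
    exact (W2_cont ε L).mul (by fun_prop)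

theorem integral_W2 (ε L : ℝ) :
    ∫ v in (0:ℝ)..L, W2 ε L v = ε * L + 1 - Real.exp (-ε * L) := by
  have h : ∀ v, HasDerivAt (fun v => -ε * Real.exp (-ε * v) * (L - v) - Real.exp (-ε * v)) (W2 ε L v) v := by
    intro v
    have h1 : HasDerivAt (fun v => Real.exp (-ε * v)) (Real.exp (-ε * v) * (-ε)) v := by
      have := ((hasDerivAt_id v).const_mul (-ε)).exp
      simpa using this
    have h2 : HasDerivAt (fun v => L - v) (-1) v := by
      simpa using (hasDerivAt_id v).const_sub L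
    have h4 := (((h1.const_mul (-ε)).mul h2).sub h1)
    refine h4.congr_deriv ?_
    simp only [W2]
    ring
  rw [integral_eq_sub_of_hasDerivAt (fun x _ => h x) ((W2_cont ε L).intervalIntegrable _ _)]
  simp
  ring

/-- `e^{-εt}(L-t)` as a positive mixture of hinge functions. -/
theorem mixture {ε L t : ℝ} (ht0 : 0 ≤ t) (htL : t ≤ L) :
    Real.exp (-ε * t) * (L - t) = Real.exp (-ε * L) * (L - t)
      + ∫ v in (0:ℝ)..L, W2 ε L v * max (v - t) 0 := by
  have hI : ∀ a b : ℝ, IntervalIntegrable (fun v => W2 ε L v * max (v - t) 0) volume a b := by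
    intro a b
    apply Continuous.intervalIntegrable
    exact (W2_cont ε L).mul (by fun_prop)
  rw [← integral_add_adjacent_intervals (hI 0 t) (hI t L)]
  have h1 : ∫ v in (0:ℝ)..t, W2 ε L v * max (v - t) 0 = 0 := by
    rw [integral_congr (g := fun _ => (0:ℝ))]
    · simp
    · intro v hv
      rw [Set.uIcc_of_le ht0] at hv
      have : max (v - t) 0 = 0 := max_eq_right (by linarith [hv.2])
      simp [this]
  have h2 : ∫ v in t..L, W2 ε L v * max (v - t) 0 = ∫ v in t..L, W2 ε L v * (v - t) := by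
    apply integral_congr
    intro v hv
    rw [Set.uIcc_of_le htL] at hv
    have : max (v - t) 0 = v - t := max_eq_left (by linarith [hv.1])
    simp [this]
  rw [h1, h2, integral_W2_sub]
  ring

/-- `∑_{m ≤ x, (m,f)=1} μ(m) m^{-1-ε} log(x/m)` -/
noncomputable def Me (f : ℕ) (ε v : ℝ) : ℝ :=
  ∑ m ∈ Ioc 0 ⌊v⌋₊, muD f m * (Real.exp (-ε * Real.log m) * Real.log (v / m))

theorem Mf_exp_eq (f : ℕ) {x v : ℝ} (hx : 1 ≤ x) (hv : v ≤ Real.log x) :
    Mf f (Real.exp v) = ∑ m ∈ Ioc 0 ⌊x⌋₊, muD f m * max (v - Real.log m) 0 := by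
  unfold Mf
  have hle : ⌊Real.exp v⌋₊ ≤ ⌊x⌋₊ := by
    apply Nat.floor_le_floor
    rw [← Real.exp_log (by linarith : 0 < x)]
    exact Real.exp_le_exp.mpr hv
  have h1 : Ioc 0 ⌊Real.exp v⌋₊ ⊆ Ioc 0 ⌊x⌋₊ := Finset.Ioc_subset_Ioc_right hle
  rw [← Finset.sum_subset h1 (f := fun m => muD f m * max (v - Real.log m) 0)]
  · apply Finset.sum_congr rfl
    intro m hm
    rw [Finset.mem_Ioc] at hm
    have hm0 : (0 : ℝ) < m := by exact_mod_cast hm.1
    have hm1 : (m : ℝ) ≤ Real.exp v := (Nat.le_floor_iff (Real.exp_pos v).le).mp hm.2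
    rw [Real.log_div (Real.exp_pos v).ne' hm0.ne', Real.log_exp]
    have : Real.log m ≤ v := by
      rw [Real.log_le_iff_le_exp hm0]; exact hm1
    rw [max_eq_left (by linarith)]
  · intro m hm hm'
    rw [Finset.mem_Ioc] at hm
    have hm0 : (0 : ℝ) < m := by exact_mod_cast hm.1
    have : ¬ m ≤ ⌊Real.exp v⌋₊ := fun h => hm' (Finset.mem_Ioc.mpr ⟨hm.1, h⟩)
    rw [Nat.le_floor_iff (Real.exp_pos v).le] at this
    push Not at this
    have : v < Real.log m := by rw [Real.lt_log_iff_exp_lt hm0]; exact this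
    rw [max_eq_right (by linarith), mul_zero]

theorem abs_Me_le (f : ℕ) {ε x K : ℝ} (hε : 0 ≤ ε) (hx : 1 ≤ x)
    (hK : ∀ y : ℝ, 0 < y → |Mf f y| ≤ K) :
    |Me f ε x| ≤ (1 + ε * Real.log x) * K := by
  set L := Real.log x with hL
  have hL0 : 0 ≤ L := Real.log_nonneg hx
  have hx0 : 0 < x := by linarith
  have hMI : ∀ m ∈ Ioc 0 ⌊x⌋₊, IntervalIntegrable
      (fun v => muD f m * (W2 ε L v * max (v - Real.log m) 0)) volume 0 L := by
    intro m _
    apply Continuous.intervalIntegrable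
    exact continuous_const.mul ((W2_cont ε L).mul (by fun_prop))
  have e1 : Me f ε x = Real.exp (-ε * L) * Mf f x
      + ∫ v in (0:ℝ)..L, W2 ε L v * Mf f (Real.exp v) := by
    have h1 : ∫ v in (0:ℝ)..L, W2 ε L v * Mf f (Real.exp v)
        = ∑ m ∈ Ioc 0 ⌊x⌋₊, ∫ v in (0:ℝ)..L, muD f m * (W2 ε L v * max (v - Real.log m) 0) := by
      rw [← integral_finsetSum hMI]
      apply integral_congr
      intro v hv
      rw [Set.uIcc_of_le hL0] at hv
      simp only
      rw [Mf_exp_eq f hx hv.2, Finset.mul_sum]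
      apply Finset.sum_congr rfl
      intro m _
      ring
    rw [h1]
    unfold Me Mf
    rw [Finset.mul_sum, ← Finset.sum_add_distrib]
    apply Finset.sum_congr rfl
    intro m hm
    rw [Finset.mem_Ioc] at hm
    have hm0 : (0 : ℝ) < m := by exact_mod_cast hm.1
    have hm1 : (m : ℝ) ≤ x := (Nat.le_floor_iff hx0.le).mp hm.2
    have hl0 : 0 ≤ Real.log m := Real.log_nonneg (by exact_mod_cast hm.1)
    have hl1 : Real.log m ≤ L := Real.log_le_log hm0 hm1
    rw [intervalIntegral.integral_const_mul, Real.log_div hx0.ne' hm0.ne', mixture hl0 hl1]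
    ring
  have e2 : |∫ v in (0:ℝ)..L, W2 ε L v * Mf f (Real.exp v)| ≤ ∫ v in (0:ℝ)..L, W2 ε L v * K := by
    rw [← Real.norm_eq_abs]
    apply norm_integral_le_of_norm_le hL0
    · apply Filter.Eventually.of_forall
      intro v hv
      rw [Real.norm_eq_abs, abs_mul, abs_of_nonneg (W2_nonneg hε hv.2)]
      exact mul_le_mul_of_nonneg_left (hK _ (Real.exp_pos v)) (W2_nonneg hε hv.2)
    · apply Continuous.intervalIntegrable
      exact (W2_cont ε L).mul continuous_const
  rw [intervalIntegral.integral_mul_const, integral_W2] at e2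
  have e3 : |Real.exp (-ε * L) * Mf f x| ≤ Real.exp (-ε * L) * K := by
    rw [abs_mul, abs_of_pos (Real.exp_pos _)]
    exact mul_le_mul_of_nonneg_left (hK x hx0) (Real.exp_pos _).le
  rw [e1]
  refine (abs_add_le _ _).trans ((add_le_add e3 e2).trans (le_of_eq ?_))
  ring

end Vale.Agent.P026.H142
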