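import Mathlib
import Vale.Agent.P026.H142.LemmaE

namespace Vale.Agent.P026.H142

open ArithmeticFunction Finset

/-! ### multiplicative facts at squarefree integers -/

/-- `J_s(h) = ∏_{p ∣ h} (p^s - 1)` -/
noncomputable def Jf (s : ℝ) : ArithmeticFunction ℝ :=
  prodPrimeFactors (fun p => (p : ℝ) ^ s - 1)

theorem Jf_apply (s : ℝ) {h : ℕ} (hh : h ≠ 0) :
    Jf s h = ∏ p ∈ h.primeFactors, ((p : ℝ) ^ s - 1) := by
  unfold Jf
  rw [prodPrimeFactors_apply hh]

theorem prod_rpow_primeFactors (s : ℝ) {h : ℕ} (hh : Squarefree h) :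
    ∏ p ∈ h.primeFactors, ((p : ℝ) ^ s) = (h : ℝ) ^ s := by
  rw [Real.finsetProd_rpow _ _ (fun i _ => Nat.cast_nonneg i)]
  congr 1
  rw [← Nat.cast_prod, Nat.prod_primeFactors_of_squarefree hh]

theorem Jf_nonneg {s : ℝ} (hs : 0 ≤ s) (h : ℕ) : 0 ≤ Jf s h := by
  rcases eq_or_ne h 0 with rfl | hh
  · simp
  rw [Jf_apply s hh]
  apply Finset.prod_nonneg
  intro p hp
  have : (1 : ℝ) ≤ p := by exact_mod_cast (Nat.prime_of_mem_primeFactors hp).one_lt.le
  linarith [Real.one_le_rpow this hs]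

theorem Jf_le {s : ℝ} (hs : 0 ≤ s) {h : ℕ} (hh : Squarefree h) : Jf s h ≤ (h : ℝ) ^ s := by
  rw [Jf_apply s hh.ne_zero, ← prod_rpow_primeFactors s hh]
  apply Finset.prod_le_prod
  · intro p hp
    have : (1 : ℝ) ≤ p := by exact_mod_cast (Nat.prime_of_mem_primeFactors hp).one_lt.le
    linarith [Real.one_le_rpow this hs]
  · intro p _
    linarith

theorem sum_Jf (s : ℝ) {g : ℕ} (hg : Squarefree g) :
    ∑ h ∈ g.divisors, Jf s h = (g : ℝ) ^ s := by
  have hm : (Jf s).IsMultiplicative := IsMultiplicative.prodPrimeFactors _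
  rw [← hm.prodPrimeFactors_one_add_of_squarefree hg, ← prod_rpow_primeFactors s hg]
  apply Finset.prod_congr rfl
  intro p hp
  have hpp := Nat.prime_of_mem_primeFactors hp
  rw [Jf_apply s hpp.ne_zero, hpp.primeFactors, Finset.prod_singleton]
  ring

theorem kap_sqfree {h : ℕ} (hh : Squarefree h) :
    kap h = ∏ p ∈ h.primeFactors, (1 + 1 / √(p : ℝ)) := by
  let g : ArithmeticFunction ℝ := ⟨fun d => 1 / √(d : ℝ), by simp⟩
  have hg : g.IsMultiplicative := by
    refine ⟨by simp [g], ?_⟩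
    intro m n _
    simp only [g, coe_mk]
    push_cast
    rw [Real.sqrt_mul (Nat.cast_nonneg m)]
    rw [one_div_mul_one_div]
  have := hg.prodPrimeFactors_one_add_of_squarefree hh
  unfold kap
  exact this.symm

theorem Af_sqfree {h : ℕ} (hh : Squarefree h) :
    Af h = ∏ p ∈ h.primeFactors, (1 - 1 / (p : ℝ)) := by
  let g : ArithmeticFunction ℝ := ⟨fun d => (moebius d : ℝ) / d, by simp⟩
  have hg : g.IsMultiplicative := by
    refine ⟨by simp [g], ?_⟩
    intro m n hmn
    simp only [g, coe_mk]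
    rw [isMultiplicative_moebius.map_mul_of_coprime hmn]
    push_cast
    rw [mul_div_mul_comm]
  have h1 := hg.prodPrimeFactors_one_add_of_squarefree hh
  unfold Af
  rw [show ∑ d ∈ h.divisors, (moebius d : ℝ) / d = ∑ d ∈ h.divisors, g d from rfl, ← h1]
  apply Finset.prod_congr rfl
  intro p hp
  have hpp := Nat.prime_of_mem_primeFactors hp
  show 1 + (moebius p : ℝ) / p = 1 - 1 / p
  rw [moebius_apply_prime hpp]
  push_cast
  ring

theorem Af_pos {h : ℕ} (hh : Squarefree h) : 0 < Af h := by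
  rw [Af_sqfree hh]
  apply Finset.prod_pos
  intro p hp
  have : (1 : ℝ) < p := by exact_mod_cast (Nat.prime_of_mem_primeFactors hp).one_lt
  rw [sub_pos, div_lt_one (by linarith)]
  exact this

noncomputable def eP (p : ℕ) : ℝ := ((1 + 1 / √(p : ℝ)) / (1 - 1 / (p : ℝ))) ^ 2 - 1

theorem eP_bounds {p : ℕ} (hp : p.Prime) : 0 ≤ eP p ∧ eP p ≤ 24 / √(p : ℝ) := by
  have h2 : (2 : ℝ) ≤ p := by exact_mod_cast hp.two_le
  have hs : 0 < √(p : ℝ) := Real.sqrt_pos.mpr (by linarith)
  have hss : √(p : ℝ) * √(p : ℝ) = p := Real.mul_self_sqrt (by linarith)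
  set u := 1 / √(p : ℝ) with hu
  have hu0 : 0 < u := by positivity
  have hsq : (1.414 : ℝ) ≤ √(p : ℝ) := by
    apply Real.le_sqrt_of_sq_le
    norm_num
    linarith
  have hu1 : u ≤ 0.7073 := by
    rw [hu, div_le_iff₀ hs]
    nlinarith
  have huu : 1 / (p : ℝ) = u * u := by
    rw [hu, div_mul_div_comm, one_mul, hss]
  have h3 : (1 + u) / (1 - u * u) = 1 / (1 - u) := by
    have a : 1 - u ≠ 0 := by linarith
    have c : 1 + u ≠ 0 := by linarith
    have b : 1 - u * u = (1 - u) * (1 + u) := by ring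
    rw [b]
    field_simp
  have h4 : eP p = (2 * u - u ^ 2) / (1 - u) ^ 2 := by
    unfold eP
    rw [← hu, huu, h3]
    have a : 1 - u ≠ 0 := by linarith
    field_simp
    ring
  have h5 : 24 / √(p : ℝ) = 24 * u := by rw [hu]; ring
  rw [h4, h5]
  constructor
  · apply div_nonneg _ (by positivity)
    nlinarith
  · rw [div_le_iff₀ (by nlinarith)]
    have : 0.0856 ≤ (1 - u) ^ 2 := by nlinarith
    nlinarith

theorem kap_div_Af_sq {h : ℕ} (hh : Squarefree h) :
    (kap h / Af h) ^ 2 = ∏ p ∈ h.primeFactors, (1 + eP p) := by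
  rw [kap_sqfree hh, Af_sqfree hh, ← Finset.prod_div_distrib, ← Finset.prod_pow]
  apply Finset.prod_congr rfl
  intro p _
  unfold eP
  ring

noncomputable def EP : ArithmeticFunction ℝ := prodPrimeFactors eP

theorem EP_nonneg (d : ℕ) : 0 ≤ EP d := by
  rcases eq_or_ne d 0 with rfl | hd
  · simp
  unfold EP
  rw [prodPrimeFactors_apply hd]
  exact Finset.prod_nonneg fun p hp => (eP_bounds (Nat.prime_of_mem_primeFactors hp)).1

theorem kap_div_Af_sq' {h : ℕ} (hh : Squarefree h) :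
    (kap h / Af h) ^ 2 = ∑ d ∈ h.divisors, EP d := by
  rw [kap_div_Af_sq hh]
  have hm : EP.IsMultiplicative := IsMultiplicative.prodPrimeFactors _
  rw [← hm.prodPrimeFactors_one_add_of_squarefree hh]
  apply Finset.prod_congr rfl
  intro p hp
  have hpp := Nat.prime_of_mem_primeFactors hp
  unfold EP
  rw [prodPrimeFactors_apply hpp.ne_zero, hpp.primeFactors, Finset.prod_singleton]

/-- `∑_{n ≥ 1} n^{-3/2}` style constant -/
noncomputable def CE : ℝ := Real.exp (24 * ∑' n : ℕ, 1 / (n : ℝ) ^ (3 / 2 : ℝ))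

theorem CE_pos : 0 < CE := Real.exp_pos _

theorem sum_EP_div_le (N : ℕ) :
    ∑ d ∈ (Ioc 0 N).filter Squarefree, EP d / d ≤ CE := by
  have hsum : Summable (fun n : ℕ => 1 / (n : ℝ) ^ (3 / 2 : ℝ)) :=
    Real.summable_one_div_nat_rpow.mpr (by norm_num)
  set S := (Ioc 0 N).filter Squarefree with hS
  set P := (Ioc 0 N).filter Nat.Prime with hP
  have h1 : ∀ d ∈ S, EP d / d = ∏ p ∈ d.primeFactors, (eP p / p) := by
    intro d hd
    have hd' : Squarefree d := (Finset.mem_filter.mp hd).2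
    unfold EP
    rw [prodPrimeFactors_apply hd'.ne_zero, Finset.prod_div_distrib]
    congr 1
    rw [← Nat.cast_prod, Nat.prod_primeFactors_of_squarefree hd']
  rw [Finset.sum_congr rfl h1]
  have hinj : Set.InjOn Nat.primeFactors (S : Set ℕ) := by
    intro a ha b hb hab
    have ha' : Squarefree a := (Finset.mem_filter.mp ha).2
    have hb' : Squarefree b := (Finset.mem_filter.mp hb).2
    rw [← Nat.prod_primeFactors_of_squarefree ha', ← Nat.prod_primeFactors_of_squarefree hb', hab]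
  rw [← Finset.sum_image (f := fun t : Finset ℕ => ∏ p ∈ t, (eP p / p)) hinj]
  have hsub : S.image Nat.primeFactors ⊆ P.powerset := by
    intro t ht
    rw [Finset.mem_image] at ht
    obtain ⟨d, hd, rfl⟩ := ht
    rw [Finset.mem_powerset]
    intro p hp
    have hpp := Nat.prime_of_mem_primeFactors hp
    rw [hS, Finset.mem_filter, Finset.mem_Ioc] at hd
    rw [hP, Finset.mem_filter, Finset.mem_Ioc]
    exact ⟨⟨hpp.pos, (Nat.le_of_dvd hd.1.1 (Nat.dvd_of_mem_primeFactors hp)).trans hd.1.2⟩, hpp⟩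
  have hge : ∀ t ∈ P.powerset, 0 ≤ ∏ p ∈ t, (eP p / p) := by
    intro t ht
    rw [Finset.mem_powerset] at ht
    apply Finset.prod_nonneg
    intro p hp
    exact div_nonneg (eP_bounds (Finset.mem_filter.mp (ht hp)).2).1 (Nat.cast_nonneg p)
  calc ∑ t ∈ S.image Nat.primeFactors, ∏ p ∈ t, (eP p / p)
      ≤ ∑ t ∈ P.powerset, ∏ p ∈ t, (eP p / p) :=
        Finset.sum_le_sum_of_subset_of_nonneg hsub (fun t ht _ => hge t ht)
    _ = ∏ p ∈ P, (1 + eP p / p) := (Finset.prod_one_add P).symm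
    _ ≤ ∏ p ∈ P, Real.exp (24 * (1 / (p : ℝ) ^ (3 / 2 : ℝ))) := by
        apply Finset.prod_le_prod
        · intro p hp
          have := (eP_bounds (Finset.mem_filter.mp hp).2).1
          positivity
        · intro p hp
          have hpp := (Finset.mem_filter.mp hp).2
          have h2 := (eP_bounds hpp).2
          have hp0 : (0 : ℝ) < p := by exact_mod_cast hpp.pos
          have h3 : eP p / p ≤ 24 * (1 / (p : ℝ) ^ (3 / 2 : ℝ)) := by
            have h4 : (p : ℝ) ^ (3 / 2 : ℝ) = √(p : ℝ) * p := by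
              rw [Real.sqrt_eq_rpow]
              nth_rewrite 3 [← Real.rpow_one (p : ℝ)]
              rw [← Real.rpow_add hp0]
              norm_num
            rw [h4]
            calc eP p / p ≤ 24 / √(p : ℝ) / p := div_le_div_of_nonneg_right h2 hp0.le
              _ = _ := by field_simp
          linarith [Real.add_one_le_exp (24 * (1 / (p : ℝ) ^ (3 / 2 : ℝ)))]
    _ = Real.exp (∑ p ∈ P, 24 * (1 / (p : ℝ) ^ (3 / 2 : ℝ))) := (Real.exp_sum _ _).symm
    _ ≤ CE := by
        unfold CE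
        apply Real.exp_le_exp.mpr
        rw [← Finset.mul_sum]
        apply mul_le_mul_of_nonneg_left _ (by norm_num)
        exact hsum.sum_le_tsum P (fun i _ => by positivity)

theorem sum_inv_le (N : ℕ) : ∑ m ∈ Ioc 0 N, 1 / (m : ℝ) ≤ 1 + Real.log N := by
  have := harmonic_le_one_add_log N
  rw [harmonic_eq_sum_Icc] at this
  push_cast at this
  refine le_trans (le_of_eq ?_) this
  apply Finset.sum_congr
  · ext; simp [Nat.one_le_iff_ne_zero, Nat.pos_iff_ne_zero]
  · intro x _; rw [one_div]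

/-- sum over multiples of `d` up to `N`. -/
theorem sum_multiples (F : ℕ → ℝ) (N d : ℕ) (hd : 0 < d) :
    ∑ n ∈ Ioc 0 N, (if d ∣ n then F n else 0) = ∑ m ∈ Ioc 0 (N / d), F (d * m) := by
  rw [← Finset.sum_filter]
  symm
  apply Finset.sum_bij (fun m _ => d * m)
  · intro m hm
    rw [Finset.mem_Ioc] at hm
    rw [Finset.mem_filter, Finset.mem_Ioc]
    refine ⟨⟨Nat.mul_pos hd hm.1, ?_⟩, Dvd.intro m rfl⟩
    rw [mul_comm]
    exact (Nat.le_div_iff_mul_le hd).mp hm.2
  · intro a _ b _ hab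
    exact Nat.eq_of_mul_eq_mul_left hd hab
  · intro n hn
    rw [Finset.mem_filter, Finset.mem_Ioc] at hn
    obtain ⟨⟨h0, h1⟩, ⟨m, rfl⟩⟩ := hn
    refine ⟨m, ?_, rfl⟩
    rw [Finset.mem_Ioc]
    refine ⟨Nat.pos_of_mul_pos_left h0 , ?_⟩
    rw [Nat.le_div_iff_mul_le hd, mul_comm]
    exact h1
  · intro m _
    rfl

theorem sum_kapA_le (N : ℕ) :
    ∑ h ∈ (Ioc 0 N).filter Squarefree, (kap h / Af h) ^ 2 / h ≤ CE * (1 + Real.log N) := by
  rcases Nat.eq_zero_or_pos N with rfl | hN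
  · simp [CE_pos.le]
  have hlog : 0 ≤ Real.log N := Real.log_nonneg (by exact_mod_cast hN)
  have h1 : ∑ h ∈ (Ioc 0 N).filter Squarefree, (kap h / Af h) ^ 2 / h
      ≤ ∑ h ∈ (Ioc 0 N), ∑ d ∈ (Ioc 0 N).filter Squarefree, (if d ∣ h then EP d / h else 0) := by
    rw [Finset.sum_filter]
    apply Finset.sum_le_sum
    intro h hh
    rw [Finset.mem_Ioc] at hh
    have hh0 : (0 : ℝ) < h := by exact_mod_cast hh.1
    split_ifs with hsq
    · rw [kap_div_Af_sq' hsq, Finset.sum_div]
      rw [← Finset.sum_filter]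
      apply Finset.sum_le_sum_of_subset_of_nonneg
      · intro d hd
        rw [Nat.mem_divisors] at hd
        rw [Finset.mem_filter, Finset.mem_filter, Finset.mem_Ioc]
        exact ⟨⟨⟨Nat.pos_of_dvd_of_pos hd.1 hh.1, (Nat.le_of_dvd hh.1 hd.1).trans hh.2⟩,
          hsq.squarefree_of_dvd hd.1⟩, hd.1⟩
      · intro d _ _
        exact div_nonneg (EP_nonneg d) hh0.le
    · apply Finset.sum_nonneg
      intro d _
      split_ifs
      · exact div_nonneg (EP_nonneg d) hh0.le
      · exact le_rfl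
  refine h1.trans ?_
  rw [Finset.sum_comm]
  have h2 : ∀ d ∈ (Ioc 0 N).filter Squarefree,
      ∑ h ∈ Ioc 0 N, (if d ∣ h then EP d / h else 0) ≤ EP d / d * (1 + Real.log N) := by
    intro d hd
    rw [Finset.mem_filter, Finset.mem_Ioc] at hd
    have hd0 : (0 : ℝ) < d := by exact_mod_cast hd.1.1
    rw [sum_multiples (fun h => EP d / h) N d hd.1.1]
    have h3 : ∀ m ∈ Ioc 0 (N / d), EP d / ((d * m : ℕ) : ℝ) = EP d / d * (1 / (m : ℝ)) := by
      intro m _
      push_cast
      rw [div_mul_div_comm, mul_one]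
    rw [Finset.sum_congr rfl h3, ← Finset.mul_sum]
    apply mul_le_mul_of_nonneg_left _ (div_nonneg (EP_nonneg d) hd0.le)
    refine (sum_inv_le (N / d)).trans ?_
    rcases Nat.eq_zero_or_pos (N / d) with h0 | h0
    · rw [h0]; simp [hlog]
    · have : Real.log ((N / d : ℕ) : ℝ) ≤ Real.log N :=
        Real.log_le_log (by exact_mod_cast h0) (by exact_mod_cast Nat.div_le_self N d)
      linarith
  refine (Finset.sum_le_sum h2).trans ?_
  rw [← Finset.sum_mul]
  exact mul_le_mul_of_nonneg_right (sum_EP_div_le N) (by linarith)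

end Vale.Agent.P026.H142
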