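import Mathlib
import Vale.Agent.P026.H142.Quad

namespace Vale.Agent.P026.H142

open ArithmeticFunction Finset

/-- `λ_z(d) = μ(d) log(z/d)` for `d ≤ z`, `0` otherwise -/
noncomputable def lam (z : ℝ) (d : ℕ) : ℝ :=
  if (d : ℝ) ≤ z then (moebius d : ℝ) * Real.log (z / d) else 0

theorem lam_zero (z : ℝ) : lam z 0 = 0 := by simp [lam]

theorem lam_of_not_squarefree (z : ℝ) {d : ℕ} (hd : ¬ Squarefree d) : lam z d = 0 := by
  unfold lam
  rw [moebius_eq_zero_of_not_squarefree hd]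
  simp

theorem lam_of_gt {z : ℝ} {d : ℕ} (hd : z < d) : lam z d = 0 := by
  unfold lam
  rw [if_neg (not_le.mpr hd)]

theorem lam_support {z : ℝ} {d : ℕ} (hd : lam z d ≠ 0) : d ∈ Ioc 0 ⌊z⌋₊ := by
  rw [Finset.mem_Ioc]
  refine ⟨?_, ?_⟩
  · rcases Nat.eq_zero_or_pos d with rfl | h
    · exact absurd (lam_zero z) hd
    · exact h
  · apply Nat.le_floor
    by_contra h
    exact hd (lam_of_gt (not_le.mp h))

/-- the vectors diagonalising the form -/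
noncomputable def yh (s z : ℝ) (N h : ℕ) : ℝ :=
  ∑ d ∈ Ioc 0 N, if h ∣ d then lam z d / (d : ℝ) ^ s else 0

/-- the bilinear form -/
noncomputable def Qb (s z w : ℝ) (N : ℕ) : ℝ :=
  ∑ d ∈ Ioc 0 N, ∑ e ∈ Ioc 0 N, lam z d * lam w e / (Nat.lcm d e : ℝ) ^ s

theorem inv_lcm_rpow {s : ℝ} {d e N : ℕ} (hd : Squarefree d) (hd0 : d ∈ Ioc 0 N) (he0 : e ∈ Ioc 0 N) :
    1 / (Nat.lcm d e : ℝ) ^ s
      = ∑ h ∈ Ioc 0 N, Jf s h * ((if h ∣ d then 1 / (d : ℝ) ^ s else 0) * (if h ∣ e then 1 / (e : ℝ) ^ s else 0)) := by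
  rw [Finset.mem_Ioc] at hd0 he0
  have hg : Squarefree (Nat.gcd d e) := hd.squarefree_of_dvd (Nat.gcd_dvd_left d e)
  have hgpos : 0 < Nat.gcd d e := Nat.gcd_pos_of_pos_left e hd0.1
  have h1 : ∑ h ∈ Ioc 0 N, Jf s h * ((if h ∣ d then 1 / (d : ℝ) ^ s else 0) * (if h ∣ e then 1 / (e : ℝ) ^ s else 0))
      = ∑ h ∈ (Nat.gcd d e).divisors, Jf s h * (1 / (d : ℝ) ^ s * (1 / (e : ℝ) ^ s)) := by
    have : ∀ h ∈ Ioc 0 N, Jf s h * ((if h ∣ d then 1 / (d : ℝ) ^ s else 0) * (if h ∣ e then 1 / (e : ℝ) ^ s else 0))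
        = if h ∣ Nat.gcd d e then Jf s h * (1 / (d : ℝ) ^ s * (1 / (e : ℝ) ^ s)) else 0 := by
      intro h _
      by_cases h1 : h ∣ d
      · by_cases h2 : h ∣ e
        · rw [if_pos h1, if_pos h2, if_pos (Nat.dvd_gcd h1 h2)]
        · rw [if_pos h1, if_neg h2, if_neg (fun h' => h2 (h'.trans (Nat.gcd_dvd_right d e)))]
          simp
      · have hh : ¬ h ∣ Nat.gcd d e := fun h' => h1 (h'.trans (Nat.gcd_dvd_left d e))
        rw [if_neg h1, if_neg hh]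
        simp
    rw [Finset.sum_congr rfl this, ← Finset.sum_filter]
    apply Finset.sum_congr _ (fun _ _ => rfl)
    ext h
    rw [Finset.mem_filter, Finset.mem_Ioc, Nat.mem_divisors]
    constructor
    · rintro ⟨_, h2⟩
      exact ⟨h2, hgpos.ne'⟩
    · rintro ⟨h2, _⟩
      exact ⟨⟨Nat.pos_of_dvd_of_pos h2 hgpos,
        (Nat.le_of_dvd hd0.1 (h2.trans (Nat.gcd_dvd_left d e))).trans hd0.2⟩, h2⟩
  rw [h1, ← Finset.sum_mul, sum_Jf s hg]
  have hd0' : (0 : ℝ) < d := by exact_mod_cast hd0.1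
  have he0' : (0 : ℝ) < e := by exact_mod_cast he0.1
  have hl0 : (0 : ℝ) < Nat.lcm d e := by exact_mod_cast Nat.lcm_pos hd0.1 he0.1
  have hg0 : (0 : ℝ) < Nat.gcd d e := by exact_mod_cast hgpos
  have h2 : (Nat.gcd d e : ℝ) ^ s * (Nat.lcm d e : ℝ) ^ s = (d : ℝ) ^ s * (e : ℝ) ^ s := by
    rw [← Real.mul_rpow hg0.le hl0.le, ← Real.mul_rpow hd0'.le he0'.le]
    congr 1
    exact_mod_cast Nat.gcd_mul_lcm d e
  have a1 : (d : ℝ) ^ s ≠ 0 := (Real.rpow_pos_of_pos hd0' s).ne'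
  have a2 : (e : ℝ) ^ s ≠ 0 := (Real.rpow_pos_of_pos he0' s).ne'
  have a3 : (Nat.lcm d e : ℝ) ^ s ≠ 0 := (Real.rpow_pos_of_pos hl0 s).ne'
  field_simp
  linarith [h2]

theorem Qb_diag (s z w : ℝ) (N : ℕ) :
    Qb s z w N = ∑ h ∈ Ioc 0 N, Jf s h * (yh s z N h * yh s w N h) := by
  unfold Qb
  have h1 : ∀ d ∈ Ioc 0 N, ∀ e ∈ Ioc 0 N, lam z d * lam w e / (Nat.lcm d e : ℝ) ^ s
      = ∑ h ∈ Ioc 0 N, Jf s h * ((if h ∣ d then lam z d / (d : ℝ) ^ s else 0)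
          * (if h ∣ e then lam w e / (e : ℝ) ^ s else 0)) := by
    intro d hd e he
    by_cases hsq : Squarefree d
    · rw [div_eq_mul_one_div, inv_lcm_rpow hsq hd he, Finset.mul_sum]
      apply Finset.sum_congr rfl
      intro h _
      split_ifs <;> ring
    · rw [lam_of_not_squarefree z hsq]
      simp
  rw [Finset.sum_congr rfl fun d hd => Finset.sum_congr rfl fun e he => h1 d hd e he]
  have h2 : ∀ d ∈ Ioc 0 N, ∑ e ∈ Ioc 0 N, ∑ h ∈ Ioc 0 N, Jf s h * ((if h ∣ d then lam z d / (d : ℝ) ^ s else 0)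
          * (if h ∣ e then lam w e / (e : ℝ) ^ s else 0))
      = ∑ h ∈ Ioc 0 N, Jf s h * ((if h ∣ d then lam z d / (d : ℝ) ^ s else 0) * yh s w N h) := by
    intro d _
    rw [Finset.sum_comm]
    apply Finset.sum_congr rfl
    intro h _
    unfold yh
    rw [← Finset.mul_sum, ← Finset.mul_sum]
  rw [Finset.sum_congr rfl h2, Finset.sum_comm]
  apply Finset.sum_congr rfl
  intro h _
  rw [← Finset.mul_sum]
  congr 1
  rw [← Finset.sum_mul]
  rfl

/-- value of `yh` at squarefree `h`. -/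
theorem yh_eq {ε z : ℝ} (hz : 1 ≤ z) {h : ℕ} (hh : Squarefree h) :
    yh (1 + ε) z ⌊z⌋₊ h = (moebius h : ℝ) / (h : ℝ) ^ (1 + ε) * Me h ε (z / h) := by
  have hpos : 0 < h := hh.ne_zero.bot_lt
  have hpos' : (0 : ℝ) < h := by exact_mod_cast hpos
  have hz0 : 0 < z := by linarith
  unfold yh Me
  rw [sum_multiples (fun d => lam z d / (d : ℝ) ^ (1 + ε)) ⌊z⌋₊ h hpos, floor_div_nat', Finset.mul_sum]
  apply Finset.sum_congr rfl
  intro m hm
  rw [Finset.mem_Ioc] at hm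
  have hm0 : (0 : ℝ) < m := by exact_mod_cast hm.1
  have hle : ((h * m : ℕ) : ℝ) ≤ z := by
    rw [← Nat.le_floor_iff hz0.le, mul_comm]
    exact (Nat.le_div_iff_mul_le hpos).mp hm.2
  have hmu : (moebius (h * m) : ℝ) = moebius h * (muC h m : ℝ) := by
    rw [muC_apply]
    by_cases hc : m.Coprime h
    · rw [if_pos hc, isMultiplicative_moebius.map_mul_of_coprime hc.symm]
      push_cast; rfl
    · rw [if_neg hc, moebius_eq_zero_of_not_squarefree]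
      · simp
      · intro hsq
        rw [Nat.squarefree_mul_iff] at hsq
        exact hc hsq.1.symm
  unfold lam
  rw [if_pos hle, hmu, muD_apply]
  have e1 : (((h * m : ℕ) : ℝ)) ^ (1 + ε) = (h : ℝ) ^ (1 + ε) * (m * Real.exp (ε * Real.log m)) := by
    push_cast
    rw [Real.mul_rpow hpos'.le hm0.le]
    congr 1
    rw [Real.rpow_add hm0, Real.rpow_one, Real.rpow_def_of_pos hm0, mul_comm ε]
  rw [e1]
  have e2 : z / ((h * m : ℕ) : ℝ) = z / h / m := by push_cast; rw [div_div]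
  rw [e2]
  have e3 : Real.exp (-ε * Real.log m) = (Real.exp (ε * Real.log m))⁻¹ := by
    rw [← Real.exp_neg]; ring_nf
  rw [e3]
  have a1 : (h : ℝ) ^ (1 + ε) ≠ 0 := (Real.rpow_pos_of_pos hpos' _).ne'
  have a2 := (Real.exp_pos (ε * Real.log m)).ne'
  field_simp

theorem yh_of_not_squarefree (s z : ℝ) (N : ℕ) {h : ℕ} (hh : ¬ Squarefree h) : yh s z N h = 0 := by
  unfold yh
  apply Finset.sum_eq_zero
  intro d _
  split_ifs with hd
  · rw [lam_of_not_squarefree z (fun h' => hh (h'.squarefree_of_dvd hd)), zero_div]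
  · rfl

theorem abs_yh_le {ε z : ℝ} (hε : 0 ≤ ε) (hz : 1 ≤ z) {h : ℕ} (hh : Squarefree h) (hN : (h : ℝ) ≤ z) :
    |yh (1 + ε) z ⌊z⌋₊ h| ≤ (1 + ε * Real.log z) * (8 * (kap h / Af h)) / (h : ℝ) ^ (1 + ε) := by
  have hpos : 0 < h := hh.ne_zero.bot_lt
  have hpos' : (0 : ℝ) < h := by exact_mod_cast hpos
  have hA := Af_pos hh
  have hk := one_le_kap hh.ne_zero
  rw [yh_eq hz hh, abs_mul, abs_div, abs_of_pos (Real.rpow_pos_of_pos hpos' (1 + ε))]
  have h1 : |Me h ε (z / h)| ≤ (1 + ε * Real.log (z / h)) * (8 * (kap h / Af h)) := by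
    apply abs_Me_le h hε
    · rw [le_div_iff₀ hpos', one_mul]; exact hN
    · intro y hy
      have := Af_mul_Mf_le h hh.ne_zero hy
      rw [abs_mul, abs_of_pos hA] at this
      rw [← mul_div_assoc, le_div_iff₀ hA, mul_comm]
      exact this
  have h2 : Real.log (z / h) ≤ Real.log z := by
    apply Real.log_le_log (by positivity)
    apply div_le_self (by linarith)
    exact_mod_cast hpos
  have h3 : |Me h ε (z / h)| ≤ (1 + ε * Real.log z) * (8 * (kap h / Af h)) := by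
    refine h1.trans ?_
    apply mul_le_mul_of_nonneg_right _ (by positivity)
    linarith [mul_le_mul_of_nonneg_left h2 hε]
  have h4 : |(moebius h : ℝ)| ≤ 1 := abs_moebius_le_one' h
  have h5 : (0 : ℝ) ≤ |Me h ε (z / h)| := abs_nonneg _
  rw [div_mul_eq_mul_div]
  apply div_le_div_of_nonneg_right _ (Real.rpow_pos_of_pos hpos' _).le
  calc |(moebius h : ℝ)| * |Me h ε (z / h)| ≤ 1 * |Me h ε (z / h)| := mul_le_mul_of_nonneg_right h4 h5
    _ = _ := one_mul _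
    _ ≤ _ := h3

/-- the truncation level does not matter -/
theorem yh_level {s z : ℝ} {N : ℕ} (hN : ⌊z⌋₊ ≤ N) (h : ℕ) :
    yh s z N h = yh s z ⌊z⌋₊ h := by
  unfold yh
  symm
  apply Finset.sum_subset (Finset.Ioc_subset_Ioc_right hN)
  intro d _ hd'
  by_cases hl : lam z d = 0
  · rw [hl]; simp
  · exact absurd (lam_support hl) hd'

theorem yh_of_gt {s z : ℝ} {N : ℕ} {h : ℕ} (hh : z < h) : yh s z N h = 0 := by
  unfold yh
  apply Finset.sum_eq_zero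
  intro d hd
  split_ifs with hdv
  · have : h ≤ d := Nat.le_of_dvd (Finset.mem_Ioc.mp hd).1 hdv
    rw [lam_of_gt (lt_of_lt_of_le hh (by exact_mod_cast this)), zero_div]
  · rfl

theorem sum_J_yh_sq_le {ε z : ℝ} (hε : 0 ≤ ε) (hz : 1 ≤ z) {N : ℕ} (hN : ⌊z⌋₊ ≤ N) :
    ∑ h ∈ Ioc 0 N, Jf (1 + ε) h * (yh (1 + ε) z N h) ^ 2
      ≤ 64 * CE * (1 + ε * Real.log z) ^ 2 * (1 + Real.log z) := by
  have hz0 : 0 < z := by linarith
  have hlogz : 0 ≤ Real.log z := Real.log_nonneg hz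
  -- restrict to h ≤ z squarefree
  have h1 : ∑ h ∈ Ioc 0 N, Jf (1 + ε) h * (yh (1 + ε) z N h) ^ 2
      = ∑ h ∈ (Ioc 0 ⌊z⌋₊).filter Squarefree, Jf (1 + ε) h * (yh (1 + ε) z ⌊z⌋₊ h) ^ 2 := by
    rw [← Finset.sum_subset (Finset.Ioc_subset_Ioc_right hN) (f := fun h => Jf (1 + ε) h * (yh (1 + ε) z N h) ^ 2)]
    · rw [Finset.sum_filter]
      apply Finset.sum_congr rfl
      intro h _
      rw [yh_level hN]
      split_ifs with hsq
      · rfl
      · rw [yh_of_not_squarefree _ _ _ hsq]; simp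
    · intro h hh hh'
      rw [Finset.mem_Ioc] at hh
      have : ¬ h ≤ ⌊z⌋₊ := fun h' => hh' (Finset.mem_Ioc.mpr ⟨hh.1, h'⟩)
      rw [Nat.le_floor_iff hz0.le] at this
      rw [yh_of_gt (not_le.mp this)]
      simp
  rw [h1]
  have h2 : ∀ h ∈ (Ioc 0 ⌊z⌋₊).filter Squarefree, Jf (1 + ε) h * (yh (1 + ε) z ⌊z⌋₊ h) ^ 2
      ≤ 64 * (1 + ε * Real.log z) ^ 2 * ((kap h / Af h) ^ 2 / h) := by
    intro h hh
    rw [Finset.mem_filter, Finset.mem_Ioc] at hh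
    obtain ⟨⟨hh0, hh1⟩, hsq⟩ := hh
    have hh0' : (0 : ℝ) < h := by exact_mod_cast hh0
    have hh1' : (1 : ℝ) ≤ h := by exact_mod_cast hh0
    have hhz : (h : ℝ) ≤ z := (Nat.le_floor_iff hz0.le).mp hh1
    have e1 := abs_yh_le hε hz hsq hhz
    have e2 := Jf_le (s := 1 + ε) (by linarith) hsq
    have e3 := Jf_nonneg (s := 1 + ε) (by linarith) h
    set P := (h : ℝ) ^ (1 + ε) with hP
    have hPpos : 0 < P := Real.rpow_pos_of_pos hh0' _
    have e4 : (yh (1 + ε) z ⌊z⌋₊ h) ^ 2 ≤ ((1 + ε * Real.log z) * (8 * (kap h / Af h)) / P) ^ 2 := by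
      rw [← sq_abs]
      exact pow_le_pow_left₀ (abs_nonneg _) e1 2
    have e5 : (h : ℝ) ≤ P := by
      rw [hP]
      calc (h : ℝ) = (h : ℝ) ^ (1 : ℝ) := (Real.rpow_one _).symm
        _ ≤ _ := Real.rpow_le_rpow_of_exponent_le hh1' (by linarith)
    calc Jf (1 + ε) h * (yh (1 + ε) z ⌊z⌋₊ h) ^ 2 ≤ P * ((1 + ε * Real.log z) * (8 * (kap h / Af h)) / P) ^ 2 :=
          mul_le_mul e2 e4 (sq_nonneg _) hPpos.le
      _ = 64 * (1 + ε * Real.log z) ^ 2 * ((kap h / Af h) ^ 2 / P) := by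
          field_simp
          ring
      _ ≤ _ := by
          apply mul_le_mul_of_nonneg_left _ (by positivity)
          exact div_le_div_of_nonneg_left (sq_nonneg _) hh0' e5
  refine (Finset.sum_le_sum h2).trans ?_
  rw [← Finset.mul_sum]
  have h3 := sum_kapA_le ⌊z⌋₊
  have h4 : Real.log (⌊z⌋₊ : ℕ) ≤ Real.log z := by
    have : 0 < ⌊z⌋₊ := Nat.floor_pos.mpr hz
    exact Real.log_le_log (by exact_mod_cast this) (Nat.floor_le hz0.le)
  calc 64 * (1 + ε * Real.log z) ^ 2 * ∑ h ∈ (Ioc 0 ⌊z⌋₊).filter Squarefree, (kap h / Af h) ^ 2 / h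
      ≤ 64 * (1 + ε * Real.log z) ^ 2 * (CE * (1 + Real.log z)) := by
        apply mul_le_mul_of_nonneg_left _ (by positivity)
        refine h3.trans (mul_le_mul_of_nonneg_left (by linarith) CE_pos.le)
    _ = _ := by ring

theorem Qb_self_nonneg {ε z : ℝ} (hε : 0 ≤ ε) (N : ℕ) : 0 ≤ Qb (1 + ε) z z N := by
  rw [Qb_diag]
  apply Finset.sum_nonneg
  intro h _
  exact mul_nonneg (Jf_nonneg (by linarith) h) (mul_self_nonneg _)

theorem Qb_self_le {ε z : ℝ} (hε : 0 ≤ ε) (hz : 1 ≤ z) {N : ℕ} (hN : ⌊z⌋₊ ≤ N) :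
    Qb (1 + ε) z z N ≤ 64 * CE * (1 + ε * Real.log z) ^ 2 * (1 + Real.log z) := by
  rw [Qb_diag]
  refine le_trans (le_of_eq ?_) (sum_J_yh_sq_le hε hz hN)
  apply Finset.sum_congr rfl
  intro h _
  ring

theorem abs_Qb_le {ε z w : ℝ} (hε : 0 ≤ ε) (hz : 1 ≤ z) (hw : 1 ≤ w) {N : ℕ}
    (hN : ⌊z⌋₊ ≤ N) (hN' : ⌊w⌋₊ ≤ N) :
    |Qb (1 + ε) z w N| ≤ 64 * CE * (1 + ε * Real.log z) * (1 + ε * Real.log w)
      * √((1 + Real.log z) * (1 + Real.log w)) := by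
  have hlogz : 0 ≤ Real.log z := Real.log_nonneg hz
  have hlogw : 0 ≤ Real.log w := Real.log_nonneg hw
  have hJ : ∀ h, 0 ≤ Jf (1 + ε) h := fun h => Jf_nonneg (by linarith) h
  have e1 : (Qb (1 + ε) z w N) ^ 2 ≤ (∑ h ∈ Ioc 0 N, Jf (1 + ε) h * (yh (1 + ε) z N h) ^ 2)
      * (∑ h ∈ Ioc 0 N, Jf (1 + ε) h * (yh (1 + ε) w N h) ^ 2) := by
    rw [Qb_diag]
    have := Finset.sum_mul_sq_le_sq_mul_sq (Ioc 0 N)
      (fun h => √(Jf (1 + ε) h) * yh (1 + ε) z N h) (fun h => √(Jf (1 + ε) h) * yh (1 + ε) w N h)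
    refine le_trans (le_of_eq ?_) (this.trans (le_of_eq ?_))
    · congr 1
      apply Finset.sum_congr rfl
      intro h _
      have := Real.mul_self_sqrt (hJ h)
      calc Jf (1 + ε) h * (yh (1 + ε) z N h * yh (1 + ε) w N h)
          = (√(Jf (1 + ε) h) * √(Jf (1 + ε) h)) * (yh (1 + ε) z N h * yh (1 + ε) w N h) := by rw [this]
        _ = _ := by ring
    · congr 1
      · apply Finset.sum_congr rfl
        intro h _
        rw [mul_pow, Real.sq_sqrt (hJ h)]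
      · apply Finset.sum_congr rfl
        intro h _
        rw [mul_pow, Real.sq_sqrt (hJ h)]
  have e2 := sum_J_yh_sq_le hε hz hN
  have e3 := sum_J_yh_sq_le hε hw hN'
  have e4 : (Qb (1 + ε) z w N) ^ 2 ≤ (64 * CE * (1 + ε * Real.log z) ^ 2 * (1 + Real.log z))
      * (64 * CE * (1 + ε * Real.log w) ^ 2 * (1 + Real.log w)) := by
    refine e1.trans (mul_le_mul e2 e3 ?_ ?_)
    · exact Finset.sum_nonneg fun h _ => mul_nonneg (hJ h) (sq_nonneg _)
    · have := CE_pos; positivity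
  have hCE := CE_pos
  apply abs_le_of_sq_le_sq
  · refine e4.trans (le_of_eq ?_)
    rw [mul_pow, Real.sq_sqrt (by positivity)]
    ring
  · positivity

end Vale.Agent.P026.H142
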