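import Mathlib
import Vale.Agent.P026.H142.Form

namespace Vale.Agent.P026.H142

open ArithmeticFunction Finset

/-- real zeta value as a real series -/
noncomputable def Zr (s : ℝ) : ℝ := ∑' n : ℕ, 1 / (n : ℝ) ^ s

theorem Zr_summable {s : ℝ} (hs : 1 < s) : Summable (fun n : ℕ => 1 / (n : ℝ) ^ s) :=
  Real.summable_one_div_nat_rpow.mpr hs

theorem inv_rpow_succ_le {ε : ℝ} (hε : 0 < ε) {x : ℝ} (hx : 1 < x) :
    1 / x ^ (1 + ε) ≤ ((x - 1) ^ (-ε) - x ^ (-ε)) / ε := by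
  have hx0 : 0 < x := by linarith
  have hx1 : 0 < x - 1 := by linarith
  rw [le_div_iff₀ hε]
  have e1 : (x - 1) ^ (-ε) = x ^ (-ε) * Real.exp (-ε * Real.log (1 - 1 / x)) := by
    have h : x - 1 = x * (1 - 1 / x) := by field_simp
    have h2 : 0 < 1 - 1 / x := by
      rw [sub_pos, div_lt_one hx0]; exact hx
    rw [h, Real.mul_rpow hx0.le h2.le, Real.rpow_def_of_pos h2, mul_comm (Real.log _)]
  have e2 : 1 / x ^ (1 + ε) = x ^ (-ε) * (1 / x) := by
    rw [Real.rpow_add hx0, Real.rpow_one, Real.rpow_neg hx0.le]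
    field_simp
  have e3 : ε / x ≤ -ε * Real.log (1 - 1 / x) := by
    have h2 : 0 < 1 - 1 / x := by
      rw [sub_pos, div_lt_one hx0]; exact hx
    have := Real.log_le_sub_one_of_pos h2
    have h3 : ε / x = ε * (1 / x) := by ring
    rw [h3]
    nlinarith
  have e4 : 1 + ε / x ≤ Real.exp (-ε * Real.log (1 - 1 / x)) := by
    have := Real.add_one_le_exp (-ε * Real.log (1 - 1 / x))
    linarith
  have e5 : 0 < x ^ (-ε) := Real.rpow_pos_of_pos hx0 _
  rw [e1, e2]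
  calc x ^ (-ε) * (1 / x) * ε = x ^ (-ε) * (1 + ε / x) - x ^ (-ε) := by ring
    _ ≤ _ := by linarith [mul_le_mul_of_nonneg_left e4 e5.le]

theorem sum_inv_rpow_le {ε : ℝ} (hε : 0 < ε) (N : ℕ) :
    ∑ n ∈ range (N + 2), 1 / (n : ℝ) ^ (1 + ε) ≤ 1 + (1 - ((N + 1 : ℕ) : ℝ) ^ (-ε)) / ε := by
  induction N with
  | zero =>
    simp [Finset.sum_range_succ, Real.zero_rpow (by linarith : (1 + ε) ≠ 0)]
  | succ k ih =>
    rw [Finset.sum_range_succ]
    have h := inv_rpow_succ_le hε (x := ((k + 1 + 1 : ℕ) : ℝ)) (by push_cast; linarith [(Nat.cast_nonneg k : (0:ℝ) ≤ k)])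
    have h2 : ((k + 1 + 1 : ℕ) : ℝ) - 1 = ((k + 1 : ℕ) : ℝ) := by push_cast; ring
    rw [h2] at h
    have h3 : k + 2 = k + 1 + 1 := rfl
    calc _ ≤ 1 + (1 - ((k + 1 : ℕ) : ℝ) ^ (-ε)) / ε + (((k + 1 : ℕ) : ℝ) ^ (-ε) - ((k + 1 + 1 : ℕ) : ℝ) ^ (-ε)) / ε :=
          add_le_add ih h
      _ = _ := by ring

theorem Zr_le {ε : ℝ} (hε : 0 < ε) : Zr (1 + ε) ≤ 1 + 1 / ε := by
  unfold Zr
  apply Summable.tsum_le_of_sum_range_le (Zr_summable (by linarith))
  intro n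
  have h1 : ∑ i ∈ range n, 1 / (i : ℝ) ^ (1 + ε) ≤ ∑ i ∈ range (n + 2), 1 / (i : ℝ) ^ (1 + ε) := by
    apply Finset.sum_le_sum_of_subset_of_nonneg (Finset.range_mono (by omega))
    intro i _ _
    positivity
  refine h1.trans ((sum_inv_rpow_le hε n).trans ?_)
  have : 0 ≤ ((n + 1 : ℕ) : ℝ) ^ (-ε) := Real.rpow_nonneg (Nat.cast_nonneg _) _
  have h2 : (1 - ((n + 1 : ℕ) : ℝ) ^ (-ε)) / ε ≤ 1 / ε := by
    apply div_le_div_of_nonneg_right _ hε.le
    linarith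
  linarith

theorem Zr_nonneg (s : ℝ) : 0 ≤ Zr s := tsum_nonneg fun n => by positivity

theorem hasSum_multiples {s : ℝ} (hs : 1 < s) {D : ℕ} (hD : 0 < D) :
    HasSum (fun n : ℕ => if D ∣ n then 1 / (n : ℝ) ^ s else 0) (Zr s / (D : ℝ) ^ s) := by
  have hinj : Function.Injective (fun m : ℕ => D * m) := fun a b h => Nat.eq_of_mul_eq_mul_left hD h
  rw [← hinj.hasSum_iff]
  · have h1 : ((fun n : ℕ => if D ∣ n then 1 / (n : ℝ) ^ s else 0) ∘ fun m : ℕ => D * m)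
        = fun m : ℕ => (1 / (m : ℝ) ^ s) / (D : ℝ) ^ s := by
      ext m
      simp only [Function.comp, Dvd.intro m rfl, if_true]
      push_cast
      rw [Real.mul_rpow (Nat.cast_nonneg D) (Nat.cast_nonneg m), mul_comm, div_mul_eq_div_div]
    rw [h1]
    exact (Zr_summable hs).hasSum.div_const _
  · intro n hn
    rw [if_neg]
    rintro ⟨m, rfl⟩
    exact hn ⟨m, rfl⟩

/-- `Λ_z(n) = ∑_{d ∣ n} λ_z(d)` -/
noncomputable def Lz (z : ℝ) (n : ℕ) : ℝ := ∑ d ∈ n.divisors, lam z d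

theorem Lz_eq {z : ℝ} {n N : ℕ} (hn : n ≠ 0) (hN : ⌊z⌋₊ ≤ N) :
    Lz z n = ∑ d ∈ Ioc 0 N, if d ∣ n then lam z d else 0 := by
  unfold Lz
  rw [← Finset.sum_filter]
  have h1 : ∑ d ∈ (Ioc 0 N).filter (· ∣ n), lam z d = ∑ d ∈ n.divisors, lam z d := by
    apply Finset.sum_subset
    · intro d hd
      rw [Finset.mem_filter] at hd
      exact Nat.mem_divisors.mpr ⟨hd.2, hn⟩
    · intro d hd hd'
      by_contra hl
      apply hd'
      rw [Finset.mem_filter]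
      exact ⟨Finset.Ioc_subset_Ioc_right hN (lam_support hl), (Nat.mem_divisors.mp hd).1⟩
  exact h1.symm

theorem hasSum_Lz_sq {ε z : ℝ} (hε : 0 < ε) :
    HasSum (fun n : ℕ => (∑ d ∈ Ioc 0 ⌊z⌋₊, if d ∣ n then lam z d else 0) ^ 2 / (n : ℝ) ^ (1 + ε))
      (Zr (1 + ε) * Qb (1 + ε) z z ⌊z⌋₊) := by
  have hs : 1 < 1 + ε := by linarith
  have h1 : HasSum (fun n : ℕ => ∑ d ∈ Ioc 0 ⌊z⌋₊, ∑ e ∈ Ioc 0 ⌊z⌋₊,
      lam z d * lam z e * (if Nat.lcm d e ∣ n then 1 / (n : ℝ) ^ (1 + ε) else 0))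
      (∑ d ∈ Ioc 0 ⌊z⌋₊, ∑ e ∈ Ioc 0 ⌊z⌋₊,
        lam z d * lam z e * (Zr (1 + ε) / (Nat.lcm d e : ℝ) ^ (1 + ε))) := by
    apply hasSum_sum
    intro d hd
    apply hasSum_sum
    intro e he
    rw [Finset.mem_Ioc] at hd he
    exact (hasSum_multiples hs (Nat.lcm_pos hd.1 he.1)).mul_left _
  have e1 : (fun n : ℕ => ∑ d ∈ Ioc 0 ⌊z⌋₊, ∑ e ∈ Ioc 0 ⌊z⌋₊,
      lam z d * lam z e * (if Nat.lcm d e ∣ n then 1 / (n : ℝ) ^ (1 + ε) else 0))
      = fun n : ℕ => (∑ d ∈ Ioc 0 ⌊z⌋₊, if d ∣ n then lam z d else 0) ^ 2 / (n : ℝ) ^ (1 + ε) := by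
    ext n
    rw [sq, Finset.sum_mul_sum, Finset.sum_div]
    apply Finset.sum_congr rfl
    intro d _
    rw [Finset.sum_div]
    apply Finset.sum_congr rfl
    intro e _
    by_cases h1 : d ∣ n
    · by_cases h2 : e ∣ n
      · rw [if_pos h1, if_pos h2, if_pos (Nat.lcm_dvd h1 h2)]
        ring
      · have : ¬ Nat.lcm d e ∣ n := fun h => h2 ((Nat.dvd_lcm_right d e).trans h)
        rw [if_neg h2, if_neg this]
        simp
    · have : ¬ Nat.lcm d e ∣ n := fun h => h1 ((Nat.dvd_lcm_left d e).trans h)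
      rw [if_neg h1, if_neg this]
      simp
  rw [e1] at h1
  convert h1 using 1
  unfold Qb
  rw [Finset.mul_sum]
  apply Finset.sum_congr rfl
  intro d _
  rw [Finset.mul_sum]
  apply Finset.sum_congr rfl
  intro e _
  ring

/-- The Barban–Vehov constant -/
noncomputable def CB : ℝ := 1536 * CE

theorem CB_pos : 0 < CB := by unfold CB; have := CE_pos; positivity

/-- **Barban–Vehov**: `∑_{n ≤ N} Λ_z(n)²/n ≤ C (1 + log z)(1 + log N)`. -/
theorem BV_upper {z : ℝ} (hz : 1 ≤ z) {N : ℕ} (hzN : z ≤ N) :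
    ∑ n ∈ Ioc 0 N, (Lz z n) ^ 2 / n ≤ CB * (1 + Real.log z) * (1 + Real.log N) := by
  have hlogz : 0 ≤ Real.log z := Real.log_nonneg hz
  have hN1 : (1 : ℝ) ≤ N := hz.trans hzN
  have hlogN : 0 ≤ Real.log N := Real.log_nonneg hN1
  have hlzN : Real.log z ≤ Real.log N := Real.log_le_log (by linarith) hzN
  set ε : ℝ := 1 / (1 + Real.log N) with hεdef
  have hε : 0 < ε := by positivity
  have hεN : ε * (1 + Real.log N) = 1 := by rw [hεdef]; field_simp
  have hεz : ε * Real.log z ≤ 1 := by nlinarith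
  have h1 : ∀ n ∈ Ioc 0 N, (Lz z n) ^ 2 / n ≤ 3 *
      ((∑ d ∈ Ioc 0 ⌊z⌋₊, if d ∣ n then lam z d else 0) ^ 2 / (n : ℝ) ^ (1 + ε)) := by
    intro n hn
    rw [Finset.mem_Ioc] at hn
    have hn0 : (0 : ℝ) < n := by exact_mod_cast hn.1
    rw [Lz_eq (by omega) le_rfl]
    have h2 : (n : ℝ) ^ (1 + ε) ≤ 3 * n := by
      rw [Real.rpow_add hn0, Real.rpow_one, mul_comm]
      apply mul_le_mul_of_nonneg_right _ hn0.le
      rw [Real.rpow_def_of_pos hn0]
      have h3 : Real.log n ≤ Real.log N := Real.log_le_log hn0 (by exact_mod_cast hn.2)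
      have h4 : Real.log n * ε ≤ 1 := by nlinarith
      calc Real.exp (Real.log n * ε) ≤ Real.exp 1 := Real.exp_le_exp.mpr h4
        _ ≤ 3 := by linarith [Real.exp_one_lt_d9]
    have h5 : 0 < (n : ℝ) ^ (1 + ε) := Real.rpow_pos_of_pos hn0 _
    rw [← mul_div_assoc, div_le_div_iff₀ hn0 h5]
    have h6 := sq_nonneg (∑ d ∈ Ioc 0 ⌊z⌋₊, if d ∣ n then lam z d else 0)
    nlinarith
  refine (Finset.sum_le_sum h1).trans ?_
  rw [← Finset.mul_sum]
  have h2 := hasSum_Lz_sq (z := z) hε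
  have h3 : ∑ n ∈ Ioc 0 N, ((∑ d ∈ Ioc 0 ⌊z⌋₊, if d ∣ n then lam z d else 0) ^ 2 / (n : ℝ) ^ (1 + ε))
      ≤ Zr (1 + ε) * Qb (1 + ε) z z ⌊z⌋₊ := by
    rw [← h2.tsum_eq]
    exact h2.summable.sum_le_tsum _ (fun n _ => by positivity)
  have h4 := Zr_le hε
  have h5 : 1 / ε = 1 + Real.log N := by rw [hεdef]; field_simp
  rw [h5] at h4
  have h6 := Qb_self_le hε.le hz (le_refl ⌊z⌋₊)
  have h7 := Qb_self_nonneg (z := z) hε.le ⌊z⌋₊
  have hCE := CE_pos
  have h8 : 64 * CE * (1 + ε * Real.log z) ^ 2 * (1 + Real.log z) ≤ 256 * CE * (1 + Real.log z) := by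
    apply mul_le_mul_of_nonneg_right _ (by linarith)
    have : (1 + ε * Real.log z) ^ 2 ≤ 4 := by
      have : 0 ≤ ε * Real.log z := by positivity
      nlinarith
    nlinarith
  calc 3 * ∑ n ∈ Ioc 0 N, ((∑ d ∈ Ioc 0 ⌊z⌋₊, if d ∣ n then lam z d else 0) ^ 2 / (n : ℝ) ^ (1 + ε))
      ≤ 3 * (Zr (1 + ε) * Qb (1 + ε) z z ⌊z⌋₊) := by linarith
    _ ≤ 3 * ((2 * (1 + Real.log N)) * (256 * CE * (1 + Real.log z))) := by
        apply mul_le_mul_of_nonneg_left _ (by norm_num)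
        apply mul_le_mul _ (h6.trans h8) h7 (by positivity)
        linarith
    _ = CB * (1 + Real.log z) * (1 + Real.log N) := by unfold CB; ring

/-- `Λ_z(1) = log z`. -/
theorem Lz_one {z : ℝ} (hz : 1 ≤ z) : Lz z 1 = Real.log z := by
  simp [Lz, lam, hz]

/-- `Λ_z(n) = Λ(n)` for `1 < n ≤ z`. -/
theorem Lz_eq_vonMangoldt {z : ℝ} {n : ℕ} (hn : 1 < n) (hnz : (n : ℝ) ≤ z) :
    Lz z n = vonMangoldt n := by
  have hz0 : 0 < z := lt_of_lt_of_le (by exact_mod_cast (by omega : 0 < n)) hnz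
  unfold Lz
  have h1 : ∀ d ∈ n.divisors, lam z d = Real.log z * (moebius d : ℝ) - (moebius d : ℝ) * Real.log d := by
    intro d hd
    have hd0 : (0 : ℝ) < d := by exact_mod_cast Nat.pos_of_mem_divisors hd
    have : (d : ℝ) ≤ z := le_trans (by exact_mod_cast Nat.divisor_le hd) hnz
    unfold lam
    rw [if_pos this, Real.log_div hz0.ne' hd0.ne']
    ring
  rw [Finset.sum_congr rfl h1, Finset.sum_sub_distrib, ← Finset.mul_sum]
  have h2 : ∑ d ∈ n.divisors, (moebius d : ℝ) = 0 := by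
    have h3 : ((∑ d ∈ n.divisors, moebius d : ℤ) : ℝ) = 0 := by
      rw [← coe_mul_zeta_apply, moebius_mul_coe_zeta, one_apply, if_neg (by omega)]
      simp
    rw [← h3]; push_cast; rfl
  have h3 : ∑ d ∈ n.divisors, (moebius d : ℝ) * Real.log d = - vonMangoldt n := by
    have := sum_moebius_mul_log_eq (n := n)
    simpa [log_apply] using this
  rw [h2, h3]
  ring

/-! ### the two weights -/

/-- coefficients `α_d` -/
noncomputable def alph (z1 z2 : ℝ) (d : ℕ) : ℝ := (lam z2 d - lam z1 d) / Real.log (z2 / z1)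

noncomputable def bet (z : ℝ) (d : ℕ) : ℝ := lam z d / Real.log z

/-- `a(n) = ∑_{d ∣ n} α_d` -/
noncomputable def aw (z1 z2 : ℝ) (n : ℕ) : ℝ := ∑ d ∈ n.divisors, alph z1 z2 d

noncomputable def bw (z : ℝ) (n : ℕ) : ℝ := ∑ d ∈ n.divisors, bet z d

theorem aw_eq (z1 z2 : ℝ) (n : ℕ) : aw z1 z2 n = (Lz z2 n - Lz z1 n) / Real.log (z2 / z1) := by
  unfold aw alph Lz
  rw [← Finset.sum_div, Finset.sum_sub_distrib]

theorem bw_eq (z : ℝ) (n : ℕ) : bw z n = Lz z n / Real.log z := by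
  unfold bw bet Lz
  rw [← Finset.sum_div]

theorem aw_one {z1 z2 : ℝ} (h1 : 1 ≤ z1) (h12 : z1 < z2) : aw z1 z2 1 = 1 := by
  rw [aw_eq, Lz_one h1, Lz_one (h1.trans h12.le), Real.log_div (by linarith) (by linarith)]
  have : Real.log z1 < Real.log z2 := Real.log_lt_log (by linarith) h12
  exact div_self (by linarith)

theorem aw_eq_zero {z1 z2 : ℝ} (h12 : z1 < z2) {n : ℕ} (hn : 1 < n) (hn1 : (n : ℝ) ≤ z1) :
    aw z1 z2 n = 0 := by
  rw [aw_eq, Lz_eq_vonMangoldt hn hn1, Lz_eq_vonMangoldt hn (hn1.trans h12.le)]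
  simp

theorem bw_one {z : ℝ} (h1 : 1 < z) : bw z 1 = 1 := by
  rw [bw_eq, Lz_one h1.le]
  exact div_self (Real.log_pos h1).ne'

theorem abs_alph_le {z1 z2 : ℝ} (h1 : 1 ≤ z1) (h12 : z1 < z2) (d : ℕ) : |alph z1 z2 d| ≤ 1 := by
  rcases Nat.eq_zero_or_pos d with rfl | hd
  · simp [alph, lam_zero]
  have hd0 : (0 : ℝ) < d := by exact_mod_cast hd
  have hlog : 0 < Real.log (z2 / z1) := Real.log_pos (by rw [lt_div_iff₀ (by linarith)]; linarith)
  have hmu := abs_moebius_le_one' d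
  unfold alph
  rw [abs_div, abs_of_pos hlog, div_le_one hlog]
  unfold lam
  by_cases h : (d : ℝ) ≤ z1
  · rw [if_pos h, if_pos (h.trans h12.le)]
    rw [← mul_sub, Real.log_div (by linarith) hd0.ne', Real.log_div (by linarith) hd0.ne',
      Real.log_div (by linarith) (by linarith)]
    have hpos : 0 < Real.log z2 - Real.log z1 := by
      have := Real.log_lt_log (by linarith) h12
      linarith
    have : Real.log z2 - Real.log d - (Real.log z1 - Real.log d) = Real.log z2 - Real.log z1 := by ring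
    rw [this, abs_mul, abs_of_pos hpos]
    nlinarith
  · rw [if_neg h, sub_zero]
    by_cases h' : (d : ℝ) ≤ z2
    · rw [if_pos h', abs_mul]
      have h3 : 0 ≤ Real.log (z2 / d) := Real.log_nonneg (by rw [le_div_iff₀ hd0]; linarith)
      have h4 : Real.log (z2 / d) ≤ Real.log (z2 / z1) := by
        apply Real.log_le_log (div_pos (by linarith) hd0)
        apply div_le_div_of_nonneg_left (by linarith) (by linarith) (not_le.mp h).le
      rw [abs_of_nonneg h3]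
      nlinarith
    · rw [if_neg h', abs_zero]
      exact hlog.le

theorem abs_bet_le {z : ℝ} (h1 : 1 < z) (d : ℕ) : |bet z d| ≤ 1 := by
  rcases Nat.eq_zero_or_pos d with rfl | hd
  · simp [bet, lam_zero]
  have hd0 : (0 : ℝ) < d := by exact_mod_cast hd
  have hd1 : (1 : ℝ) ≤ d := by exact_mod_cast hd
  have hlog : 0 < Real.log z := Real.log_pos h1
  have hmu := abs_moebius_le_one' d
  unfold bet
  rw [abs_div, abs_of_pos hlog, div_le_one hlog]
  unfold lam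
  by_cases h' : (d : ℝ) ≤ z
  · rw [if_pos h', abs_mul]
    have h3 : 0 ≤ Real.log (z / d) := Real.log_nonneg (by rw [le_div_iff₀ hd0]; linarith)
    have h4 : Real.log (z / d) ≤ Real.log z := by
      apply Real.log_le_log (by positivity)
      exact div_le_self (by linarith) hd1
    rw [abs_of_nonneg h3]
    nlinarith
  · rw [if_neg h', abs_zero]
    exact hlog.le

/-- second moment of `a`. -/
theorem sum_aw_sq_le {z1 z2 : ℝ} (h1 : 1 ≤ z1) (h12 : z1 < z2) {N : ℕ} (hN : z2 ≤ N) :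
    ∑ n ∈ Ioc 0 N, (aw z1 z2 n) ^ 2 / n
      ≤ 4 * CB * (1 + Real.log z2) * (1 + Real.log N) / (Real.log (z2 / z1)) ^ 2 := by
  have hlog : 0 < Real.log (z2 / z1) := Real.log_pos (by rw [lt_div_iff₀ (by linarith)]; linarith)
  have b1 := BV_upper h1 (h12.le.trans hN)
  have b2 := BV_upper (h1.trans h12.le) hN
  have hl1 : Real.log z1 ≤ Real.log z2 := Real.log_le_log (by linarith) h12.le
  have hN1 : (1 : ℝ) ≤ N := h1.trans (h12.le.trans hN)
  have hlogN : 0 ≤ Real.log N := Real.log_nonneg hN1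
  have hCB := CB_pos
  have h3 : ∀ n ∈ Ioc 0 N, (aw z1 z2 n) ^ 2 / n
      ≤ 2 / (Real.log (z2 / z1)) ^ 2 * ((Lz z2 n) ^ 2 / n + (Lz z1 n) ^ 2 / n) := by
    intro n hn
    rw [Finset.mem_Ioc] at hn
    have hn0 : (0 : ℝ) < n := by exact_mod_cast hn.1
    rw [aw_eq, div_pow, div_div, ← add_div, div_mul_div_comm]
    apply div_le_div_of_nonneg_right _ (by positivity)
    nlinarith [sq_nonneg (Lz z2 n + Lz z1 n)]
  refine (Finset.sum_le_sum h3).trans ?_
  rw [← Finset.mul_sum, Finset.sum_add_distrib]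
  have h4 : CB * (1 + Real.log z1) * (1 + Real.log N) ≤ CB * (1 + Real.log z2) * (1 + Real.log N) := by
    apply mul_le_mul_of_nonneg_right _ (by linarith)
    apply mul_le_mul_of_nonneg_left _ hCB.le
    linarith
  calc 2 / (Real.log (z2 / z1)) ^ 2 * (∑ n ∈ Ioc 0 N, (Lz z2 n) ^ 2 / n + ∑ n ∈ Ioc 0 N, (Lz z1 n) ^ 2 / n)
      ≤ 2 / (Real.log (z2 / z1)) ^ 2 * (2 * (CB * (1 + Real.log z2) * (1 + Real.log N))) := by
        apply mul_le_mul_of_nonneg_left _ (by positivity)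
        linarith
    _ = _ := by ring

end Vale.Agent.P026.H142
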