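import Mathlib
import Vale.Agent.P026.H142.BV

namespace Vale.Agent.P026.H142

open Finset

/-! ### spacing -/

/-- `∑_{j ∈ ℤ} 4/j²` -/
noncomputable def CS : ℝ := ∑' j : ℤ, 4 * (1 / (j : ℝ) ^ 2)

theorem CS_summable : Summable (fun j : ℤ => 4 * (1 / (j : ℝ) ^ 2)) :=
  (Real.summable_one_div_int_pow.mpr (by norm_num)).mul_left 4

theorem CS_nonneg : 0 ≤ CS := tsum_nonneg fun j => by positivity

theorem spacing_sum {ι : Type*} (S : Finset ι) (x : ι → ℝ)
    (h1 : ∀ s ∈ S, 1 ≤ |x s|) (h2 : ∀ s ∈ S, ∀ t ∈ S, s ≠ t → 1 ≤ |x s - x t|) :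
    ∑ s ∈ S, 1 / (x s) ^ 2 ≤ CS := by
  classical
  have hinj : Set.InjOn (fun s => ⌊x s⌋) (S : Set ι) := by
    intro s hs t ht hst
    by_contra hne
    have h3 := h2 s hs t ht hne
    have h4 := Int.abs_sub_lt_one_of_floor_eq_floor hst
    linarith
  have h5 : ∀ s ∈ S, 1 / (x s) ^ 2 ≤ 4 * (1 / ((⌊x s⌋ : ℤ) : ℝ) ^ 2) := by
    intro s hs
    have ha := h1 s hs
    have hf1 := Int.floor_le (x s)
    have hf2 := Int.lt_floor_add_one (x s)
    have hj0 : (⌊x s⌋ : ℤ) ≠ 0 := by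
      intro h0
      rw [h0] at hf1 hf2
      simp at hf1 hf2
      rw [abs_of_nonneg hf1] at ha
      linarith
    have hj0' : ((⌊x s⌋ : ℤ) : ℝ) ≠ 0 := by exact_mod_cast hj0
    have hx0 : x s ≠ 0 := by
      intro h0; rw [h0] at ha; simp at ha; linarith
    have key : ((⌊x s⌋ : ℤ) : ℝ) ^ 2 ≤ 4 * (x s) ^ 2 := by
      rcases le_or_gt 0 (x s) with hx | hx
      · rw [abs_of_nonneg hx] at ha
        have : (0 : ℝ) ≤ ((⌊x s⌋ : ℤ) : ℝ) := by exact_mod_cast Int.floor_nonneg.mpr hx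
        nlinarith
      · rw [abs_of_neg hx] at ha
        have : ((⌊x s⌋ : ℤ) : ℝ) < 0 := lt_of_le_of_lt hf1 hx
        nlinarith
    have hp : 0 < (x s) ^ 2 := by positivity
    have hp' : 0 < ((⌊x s⌋ : ℤ) : ℝ) ^ 2 := by positivity
    rw [mul_one_div, div_le_div_iff₀ hp hp']
    linarith
  refine (Finset.sum_le_sum h5).trans ?_
  rw [← Finset.sum_image (f := fun j : ℤ => 4 * (1 / (j : ℝ) ^ 2)) hinj]
  exact CS_summable.sum_le_tsum _ (fun j _ => by positivity)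

/-! ### the average main term -/

/-- `(e^{W(a₂+w)} - e^{W(a₁+w)})/W` -/
noncomputable def Mw (W : ℂ) (a1 a2 w : ℝ) : ℂ :=
  (Complex.exp (W * ((a2 + w : ℝ) : ℂ)) - Complex.exp (W * ((a1 + w : ℝ) : ℂ))) / W

theorem Mw_cont (W : ℂ) (a1 a2 : ℝ) : Continuous (Mw W a1 a2) := by
  unfold Mw; fun_prop

theorem norm_Mw_le {W : ℂ} (hW : W ≠ 0) (hre : 0 ≤ W.re) {a1 a2 w : ℝ} (h12 : a1 ≤ a2) :
    ‖Mw W a1 a2 w‖ ≤ (a2 - a1) * Real.exp (W.re * (a2 + w)) := by
  unfold Mw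
  rw [← integral_exp_mul_complex hW]
  have h3 : a1 + w ≤ a2 + w := by linarith
  have h : ‖∫ x in (a1 + w)..(a2 + w), Complex.exp (W * (x : ℂ))‖ ≤
      Real.exp (W.re * (a2 + w)) * |(a2 + w) - (a1 + w)| := by
    apply intervalIntegral.norm_integral_le_of_norm_le_const
    intro x hx
    rw [Set.uIoc_of_le h3] at hx
    rw [Complex.norm_exp]
    apply Real.exp_le_exp.mpr
    have : (W * (x : ℂ)).re = W.re * x := by simp
    rw [this]
    exact mul_le_mul_of_nonneg_left hx.2 hre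
  refine h.trans (le_of_eq ?_)
  rw [abs_of_nonneg (by linarith)]
  ring

theorem norm_int_Mw_le_triv {W : ℂ} (hW : W ≠ 0) (hre : 0 ≤ W.re) {a1 a2 h : ℝ} (h12 : a1 ≤ a2)
    (hh : 0 ≤ h) :
    ‖∫ w in (0:ℝ)..h, Mw W a1 a2 w‖ ≤ h * ((a2 - a1) * Real.exp (W.re * (a2 + h))) := by
  have h1 : ‖∫ w in (0:ℝ)..h, Mw W a1 a2 w‖ ≤ ((a2 - a1) * Real.exp (W.re * (a2 + h))) * |h - 0| := by
    apply intervalIntegral.norm_integral_le_of_norm_le_const
    intro x hx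
    rw [Set.uIoc_of_le hh] at hx
    refine (norm_Mw_le hW hre h12).trans ?_
    apply mul_le_mul_of_nonneg_left _ (by linarith)
    apply Real.exp_le_exp.mpr
    apply mul_le_mul_of_nonneg_left _ hre
    linarith [hx.2]
  refine h1.trans (le_of_eq ?_)
  rw [sub_zero, abs_of_nonneg hh]; ring

theorem norm_int_Mw_le {W : ℂ} (hW : W ≠ 0) (hre : 0 ≤ W.re) {a1 a2 h : ℝ} (h12 : a1 ≤ a2)
    (hh : 0 ≤ h) :
    ‖∫ w in (0:ℝ)..h, Mw W a1 a2 w‖ ≤ 4 * Real.exp (W.re * (a2 + h)) / ‖W‖ ^ 2 := by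
  have e0 : ∀ w : ℝ, Mw W a1 a2 w
      = (Complex.exp (W * a2) - Complex.exp (W * a1)) / W * Complex.exp (W * w) := by
    intro w
    unfold Mw
    push_cast
    rw [mul_add, mul_add, Complex.exp_add, Complex.exp_add]
    ring
  have e1 : ∫ w in (0:ℝ)..h, Mw W a1 a2 w
      = (Complex.exp (W * a2) - Complex.exp (W * a1)) / W * ((Complex.exp (W * h) - 1) / W) := by
    rw [intervalIntegral.integral_congr (g := fun w : ℝ =>
      (Complex.exp (W * a2) - Complex.exp (W * a1)) / W * Complex.exp (W * w)) (fun w _ => e0 w),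
      intervalIntegral.integral_const_mul, integral_exp_mul_complex hW]
    simp
  rw [e1, norm_mul, norm_div, norm_div]
  have hWpos : 0 < ‖W‖ := norm_pos_iff.mpr hW
  have n1 : ‖Complex.exp (W * a2) - Complex.exp (W * a1)‖ ≤ 2 * Real.exp (W.re * a2) := by
    refine (norm_sub_le _ _).trans ?_
    rw [Complex.norm_exp, Complex.norm_exp]
    have r1 : (W * (a2 : ℂ)).re = W.re * a2 := by simp
    have r2 : (W * (a1 : ℂ)).re = W.re * a1 := by simp
    rw [r1, r2]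
    have := Real.exp_le_exp.mpr (mul_le_mul_of_nonneg_left h12 hre)
    linarith
  have n2 : ‖Complex.exp (W * h) - 1‖ ≤ 2 * Real.exp (W.re * h) := by
    refine (norm_sub_le _ _).trans ?_
    rw [Complex.norm_exp, norm_one]
    have r1 : (W * (h : ℂ)).re = W.re * h := by simp
    rw [r1]
    have : 1 ≤ Real.exp (W.re * h) := Real.one_le_exp (by positivity)
    linarith
  calc ‖Complex.exp (W * a2) - Complex.exp (W * a1)‖ / ‖W‖ * (‖Complex.exp (W * h) - 1‖ / ‖W‖)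
      ≤ (2 * Real.exp (W.re * a2)) / ‖W‖ * ((2 * Real.exp (W.re * h)) / ‖W‖) := by
        apply mul_le_mul
        · exact div_le_div_of_nonneg_right n1 hWpos.le
        · exact div_le_div_of_nonneg_right n2 hWpos.le
        · positivity
        · positivity
    _ = 4 * Real.exp (W.re * (a2 + h)) / ‖W‖ ^ 2 := by
        rw [mul_add, Real.exp_add]; ring

/-! ### the pointwise inequality -/

/-- `a + conj b - 1` -/
noncomputable def sg (a b : ℂ) : ℂ := a + (starRingEnd ℂ) b - 1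

theorem conj_natCast_cpow (n : ℕ) (b : ℂ) :
    (starRingEnd ℂ) ((n : ℂ) ^ b) = (n : ℂ) ^ ((starRingEnd ℂ) b) := by
  have h := Complex.cpow_conj (n : ℂ) b (by
    rw [Complex.natCast_arg]; exact Real.pi_ne_zero.symm)
  rw [h]
  simp

theorem cpow_sg {n : ℕ} (hn : n ≠ 0) (a b : ℂ) :
    (n : ℂ) * ((n : ℂ) ^ (-a) * (starRingEnd ℂ) ((n : ℂ) ^ (-b))) = (n : ℂ) ^ (-(sg a b)) := by
  have hn' : (n : ℂ) ≠ 0 := by exact_mod_cast hn
  rw [conj_natCast_cpow]
  unfold sg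
  have : -(a + (starRingEnd ℂ) b - 1) = 1 + (-a + (starRingEnd ℂ) (-b)) := by
    rw [map_neg]; ring
  rw [this, Complex.cpow_add _ _ hn', Complex.cpow_add _ _ hn', Complex.cpow_one]

theorem fiber_psd {ι K : Type*} [Fintype ι] [DecidableEq K] (κ : ι → K) (f : K → ℝ)
    (hf : ∀ k, 0 ≤ f k) (u : ι → ℂ) :
    0 ≤ (∑ r, ∑ s, (if κ r = κ s then (f (κ r) : ℂ) else 0) * (u r * (starRingEnd ℂ) (u s))).re := by
  classical
  have h1 : ∑ r, ∑ s, (if κ r = κ s then (f (κ r) : ℂ) else 0) * (u r * (starRingEnd ℂ) (u s))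
      = ∑ k ∈ univ.image κ, (f k : ℂ) *
        ((∑ r with κ r = k, u r) * (starRingEnd ℂ) (∑ s with κ s = k, u s)) := by
    rw [← Finset.sum_fiberwise_of_maps_to (s := univ) (t := univ.image κ) (g := κ)
      (fun i _ => Finset.mem_image_of_mem κ (Finset.mem_univ i))]
    apply Finset.sum_congr rfl
    intro k _
    rw [map_sum, Finset.sum_mul, Finset.mul_sum]
    apply Finset.sum_congr rfl
    intro r hr
    rw [Finset.mem_filter] at hr
    rw [Finset.mul_sum, Finset.mul_sum, Finset.sum_filter]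
    apply Finset.sum_congr rfl
    intro s _
    rw [hr.2]
    by_cases h : κ s = k
    · rw [if_pos h.symm, if_pos h]
    · rw [if_neg (fun h' => h h'.symm), if_neg h, zero_mul]
  rw [h1, Complex.re_sum]
  apply Finset.sum_nonneg
  intro k _
  rw [Complex.mul_conj, ← Complex.ofReal_mul, Complex.ofReal_re]
  exact mul_nonneg (hf k) (Complex.normSq_nonneg _)

/-- the kernel character: `1` for equal labels, `χ \bar χ'` otherwise -/
noncomputable def psiK {K : Type*} [DecidableEq K] (χ : K → ℕ → ℂ) (k k' : K) (n : ℕ) : ℂ :=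
  if k = k' then 1 else χ k n * (starRingEnd ℂ) (χ k' n)

theorem norm_psiK_le {K : Type*} [DecidableEq K] {χ : K → ℕ → ℂ} (h : ∀ k n, ‖χ k n‖ ≤ 1)
    (k k' : K) (n : ℕ) : ‖psiK χ k k' n‖ ≤ 1 := by
  unfold psiK
  split_ifs
  · simp
  · rw [norm_mul, RCLike.norm_conj]
    exact mul_le_one₀ (h k n) (norm_nonneg _) (h k' n)

theorem psiK_mul {K : Type*} [DecidableEq K] {χ : K → ℕ → ℂ}
    (h : ∀ k m n, χ k (m * n) = χ k m * χ k n) (k k' : K) (m n : ℕ) :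
    psiK χ k k' (m * n) = psiK χ k k' m * psiK χ k k' n := by
  unfold psiK
  split_ifs
  · simp
  · rw [h, h, map_mul]; ring

theorem pointwise_le {ι K : Type*} [Fintype ι] [DecidableEq K] (κ : ι → K) (χ : K → ℕ → ℂ)
    (hχ : ∀ k n, ‖χ k n‖ ≤ 1) (ρ : ι → ℂ) (c : ι → ℂ) {n : ℕ} (hn : n ≠ 0) :
    (n : ℝ) * ‖∑ r, c r * (χ (κ r) n * (n : ℂ) ^ (-(ρ r)))‖ ^ 2
      ≤ (∑ r, ∑ s, (c r * (starRingEnd ℂ) (c s)) *
          (psiK χ (κ r) (κ s) n * (n : ℂ) ^ (-(sg (ρ r) (ρ s))))).re := by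
  have hn0 : (0 : ℝ) < n := by exact_mod_cast Nat.pos_of_ne_zero hn
  set u : ι → ℂ := fun r => c r * (n : ℂ) ^ (-(ρ r)) with hu
  -- left side as a double sum
  have h1 : (((n : ℝ) * ‖∑ r, c r * (χ (κ r) n * (n : ℂ) ^ (-(ρ r)))‖ ^ 2 : ℝ) : ℂ)
      = ∑ r, ∑ s, (n : ℂ) * (χ (κ r) n * (starRingEnd ℂ) (χ (κ s) n) * (u r * (starRingEnd ℂ) (u s))) := by
    have h2 : (((n : ℝ) * ‖∑ r, c r * (χ (κ r) n * (n : ℂ) ^ (-(ρ r)))‖ ^ 2 : ℝ) : ℂ)
        = (n : ℂ) * ((∑ r, c r * (χ (κ r) n * (n : ℂ) ^ (-(ρ r))))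
          * (starRingEnd ℂ) (∑ r, c r * (χ (κ r) n * (n : ℂ) ^ (-(ρ r))))) := by
      rw [Complex.mul_conj, Complex.normSq_eq_norm_sq]
      push_cast
      rfl
    rw [h2, map_sum, Finset.sum_mul_sum, Finset.mul_sum]
    apply Finset.sum_congr rfl
    intro r _
    rw [Finset.mul_sum]
    apply Finset.sum_congr rfl
    intro s _
    simp only [hu, map_mul]
    ring
  have h3 : ∑ r, ∑ s, (c r * (starRingEnd ℂ) (c s)) *
          (psiK χ (κ r) (κ s) n * (n : ℂ) ^ (-(sg (ρ r) (ρ s))))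
      = ∑ r, ∑ s, (n : ℂ) * (χ (κ r) n * (starRingEnd ℂ) (χ (κ s) n) * (u r * (starRingEnd ℂ) (u s)))
        + (n : ℂ) * ∑ r, ∑ s, (if κ r = κ s then ((1 - ‖χ (κ r) n‖ ^ 2 : ℝ) : ℂ) else 0)
            * (u r * (starRingEnd ℂ) (u s)) := by
    rw [Finset.mul_sum, ← Finset.sum_add_distrib]
    apply Finset.sum_congr rfl
    intro r _
    rw [Finset.mul_sum, ← Finset.sum_add_distrib]
    apply Finset.sum_congr rfl
    intro s _
    rw [← cpow_sg hn]
    simp only [hu, map_mul]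
    unfold psiK
    by_cases h : κ r = κ s
    · rw [if_pos h, if_pos h, h, Complex.mul_conj, Complex.normSq_eq_norm_sq]
      push_cast
      ring
    · rw [if_neg h, if_neg h]
      ring
  have h4 : 0 ≤ ((n : ℂ) * ∑ r, ∑ s, (if κ r = κ s then ((1 - ‖χ (κ r) n‖ ^ 2 : ℝ) : ℂ) else 0)
            * (u r * (starRingEnd ℂ) (u s))).re := by
    have h5 := fiber_psd κ (fun k => 1 - ‖χ k n‖ ^ 2) (fun k => by
      have := hχ k n
      have h0 := norm_nonneg (χ k n)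
      nlinarith) u
    have : ((n : ℂ) * ∑ r, ∑ s, (if κ r = κ s then ((1 - ‖χ (κ r) n‖ ^ 2 : ℝ) : ℂ) else 0)
            * (u r * (starRingEnd ℂ) (u s))).re = (n : ℝ) * (∑ r, ∑ s, (if κ r = κ s then ((1 - ‖χ (κ r) n‖ ^ 2 : ℝ) : ℂ) else 0)
            * (u r * (starRingEnd ℂ) (u s))).re := by
      rw [← Complex.ofReal_natCast, Complex.re_ofReal_mul]
    rw [this]
    exact mul_nonneg hn0.le h5
  rw [h3, Complex.add_re, ← h1, Complex.ofReal_re]
  linarith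

end Vale.Agent.P026.H142
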