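import Mathlib
import Vale.Agent.P026.H142.DualA

namespace Vale.Agent.P026.H142

open Finset

/-- sum over multiples of `d` up to `N`. -/
theorem sum_multiples' {M : Type*} [AddCommMonoid M] (F : ℕ → M) (N d : ℕ) (hd : 0 < d) :
    ∑ n ∈ Ioc 0 N, (if d ∣ n then F n else 0) = ∑ m ∈ Ioc 0 (N / d), F (d * m) := by
  rw [← Finset.sum_filter]
  symm
  apply Finset.sum_bij (fun m _ => d * m)
  · intro m hm
    rw [Finset.mem_Ioc] at hm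
    rw [Finset.mem_filter, Finset.mem_Ioc]
    refine ⟨⟨Nat.mul_pos hd hm.1, ?_⟩, Dvd.intro m rfl⟩
    rw [mul_comm]
    exact (Nat.le_div_iff_mul_le hd).mp hm.2
  · intro a _ b _ hab
    exact Nat.eq_of_mul_eq_mul_left hd hab
  · intro n hn
    rw [Finset.mem_filter, Finset.mem_Ioc] at hn
    obtain ⟨⟨h0, h1⟩, ⟨m, rfl⟩⟩ := hn
    refine ⟨m, ?_, rfl⟩
    rw [Finset.mem_Ioc]
    refine ⟨Nat.pos_of_mul_pos_left h0 , ?_⟩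
    rw [Nat.le_div_iff_mul_le hd, mul_comm]
    exact h1
  · intro m _
    rfl

theorem sum_divisors_eq {α : ℕ → ℝ} {Z : ℕ} (hα : ∀ d, α d ≠ 0 → d ∈ Ioc 0 Z) {n : ℕ} (hn : n ≠ 0) :
    ∑ d ∈ n.divisors, α d = ∑ d ∈ Ioc 0 Z, if d ∣ n then α d else 0 := by
  rw [← Finset.sum_filter]
  symm
  apply Finset.sum_subset
  · intro d hd
    rw [Finset.mem_filter] at hd
    exact Nat.mem_divisors.mpr ⟨hd.2, hn⟩
  · intro d hd hd'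
    by_contra hl
    apply hd'
    rw [Finset.mem_filter]
    exact ⟨hα d hl, (Nat.mem_divisors.mp hd).1⟩

/-- `∑_{n ≤ N} A(n) B(n) F(n)` with `A = 1 * α`, `B = 1 * β` and `F` completely multiplicative. -/
theorem sum_AB_F {α β : ℕ → ℝ} {Z : ℕ} (hα : ∀ d, α d ≠ 0 → d ∈ Ioc 0 Z)
    (hβ : ∀ d, β d ≠ 0 → d ∈ Ioc 0 Z) (F : ℕ → ℂ) (hF : ∀ m n, F (m * n) = F m * F n) (N : ℕ) :
    ∑ n ∈ Ioc 0 N, (((∑ d ∈ n.divisors, α d) * (∑ e ∈ n.divisors, β e) : ℝ) : ℂ) * F n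
      = ∑ d ∈ Ioc 0 Z, ∑ e ∈ Ioc 0 Z, ((α d * β e : ℝ) : ℂ) * (F (Nat.lcm d e) *
          ∑ m ∈ Ioc 0 (N / Nat.lcm d e), F m) := by
  have h1 : ∀ n ∈ Ioc 0 N, (((∑ d ∈ n.divisors, α d) * (∑ e ∈ n.divisors, β e) : ℝ) : ℂ) * F n
      = ∑ d ∈ Ioc 0 Z, ∑ e ∈ Ioc 0 Z, ((α d * β e : ℝ) : ℂ) * (if Nat.lcm d e ∣ n then F n else 0) := by
    intro n hn
    rw [Finset.mem_Ioc] at hn
    rw [sum_divisors_eq hα (by omega), sum_divisors_eq hβ (by omega), Finset.sum_mul_sum,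
      Complex.ofReal_sum, Finset.sum_mul]
    apply Finset.sum_congr rfl
    intro d _
    rw [Complex.ofReal_sum, Finset.sum_mul]
    apply Finset.sum_congr rfl
    intro e _
    by_cases h1 : d ∣ n
    · by_cases h2 : e ∣ n
      · rw [if_pos h1, if_pos h2, if_pos (Nat.lcm_dvd h1 h2)]
      · have : ¬ Nat.lcm d e ∣ n := fun h => h2 ((Nat.dvd_lcm_right d e).trans h)
        rw [if_neg h2, if_neg this]
        simp
    · have : ¬ Nat.lcm d e ∣ n := fun h => h1 ((Nat.dvd_lcm_left d e).trans h)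
      rw [if_neg h1, if_neg this]
      simp
  rw [Finset.sum_congr rfl h1, Finset.sum_comm]
  apply Finset.sum_congr rfl
  intro d hd
  rw [Finset.sum_comm]
  apply Finset.sum_congr rfl
  intro e he
  rw [Finset.mem_Ioc] at hd he
  rw [← Finset.mul_sum, sum_multiples' F N _ (Nat.lcm_pos hd.1 he.1)]
  congr 1
  rw [Finset.mul_sum]
  apply Finset.sum_congr rfl
  intro m _
  exact hF _ _

theorem K_expand {α β : ℕ → ℝ} {Z : ℕ} (hα : ∀ d, α d ≠ 0 → d ∈ Ioc 0 Z)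
    (hβ : ∀ d, β d ≠ 0 → d ∈ Ioc 0 Z) (ψ : ℕ → ℂ) (hψ : ∀ m n, ψ (m * n) = ψ m * ψ n)
    (hψ1 : ∀ n, ‖ψ n‖ ≤ 1) (μ : ℂ) (hμ : ∀ n, μ * ψ n = μ) (s ℓ : ℂ) {x0 η : ℝ} (hx0 : 0 < x0)
    (hKE : ∀ x : ℝ, x0 ≤ x → ‖∑ m ∈ Ioc 0 ⌊x⌋₊, ψ m * (m : ℂ) ^ (-s) - ℓ
      - μ * ((x : ℂ) ^ (1 - s) / (1 - s))‖ ≤ η) :
    ∃ ℓ' : ℂ, ∀ x : ℝ, (Z : ℝ) ^ 2 * x0 ≤ x → 
      ‖∑ n ∈ Ioc 0 ⌊x⌋₊, (((∑ d ∈ n.divisors, α d) * (∑ e ∈ n.divisors, β e) : ℝ) : ℂ)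
          * (ψ n * (n : ℂ) ^ (-s)) - ℓ'
        - μ * ((∑ d ∈ Ioc 0 Z, ∑ e ∈ Ioc 0 Z, α d * β e / (Nat.lcm d e : ℝ) : ℝ) : ℂ)
          * ((x : ℂ) ^ (1 - s) / (1 - s))‖
      ≤ η * ∑ d ∈ Ioc 0 Z, ∑ e ∈ Ioc 0 Z, |α d| * |β e| * (Nat.lcm d e : ℝ) ^ (-s.re) := by
  refine ⟨∑ d ∈ Ioc 0 Z, ∑ e ∈ Ioc 0 Z, ((α d * β e : ℝ) : ℂ) *
    (ψ (Nat.lcm d e) * (Nat.lcm d e : ℂ) ^ (-s) * ℓ), ?_⟩
  intro x hx
  have hFmul : ∀ m n, (fun n : ℕ => ψ n * (n : ℂ) ^ (-s)) (m * n)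
      = (fun n : ℕ => ψ n * (n : ℂ) ^ (-s)) m * (fun n : ℕ => ψ n * (n : ℂ) ^ (-s)) n := by
    intro m n
    simp only
    rw [hψ]
    push_cast
    rw [Complex.natCast_mul_natCast_cpow]
    ring
  rw [sum_AB_F hα hβ (fun n : ℕ => ψ n * (n : ℂ) ^ (-s)) hFmul]
  rw [Complex.ofReal_sum, Finset.mul_sum, Finset.sum_mul, Finset.mul_sum,
    ← Finset.sum_sub_distrib, ← Finset.sum_sub_distrib]
  refine (norm_sum_le _ _).trans (Finset.sum_le_sum ?_)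
  intro d hd
  rw [Complex.ofReal_sum, Finset.mul_sum, Finset.sum_mul, Finset.mul_sum,
    ← Finset.sum_sub_distrib, ← Finset.sum_sub_distrib]
  refine (norm_sum_le _ _).trans (Finset.sum_le_sum ?_)
  intro e he
  rw [Finset.mem_Ioc] at hd he
  set l := Nat.lcm d e with hl
  have hlpos : 0 < l := Nat.lcm_pos hd.1 he.1
  have hl0 : (0 : ℝ) < l := by exact_mod_cast hlpos
  have hlne : (l : ℂ) ≠ 0 := by exact_mod_cast hlpos.ne'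
  have hlZ : (l : ℝ) ≤ (Z : ℝ) ^ 2 := by
    have h1 : l ≤ d * e := Nat.le_of_dvd (Nat.mul_pos hd.1 he.1) (Nat.lcm_dvd_mul d e)
    have h2 : d * e ≤ Z * Z := Nat.mul_le_mul hd.2 he.2
    have : l ≤ Z ^ 2 := by rw [sq]; exact h1.trans h2
    exact_mod_cast this
  have hxl : x0 ≤ x / l := by
    rw [le_div_iff₀ hl0]
    nlinarith
  have hx1 : 0 < x := by
    have : 0 < x / l := lt_of_lt_of_le hx0 hxl
    exact (div_pos_iff_of_pos_right hl0).mp this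
  have hK := hKE (x / l) hxl
  rw [floor_div_nat'] at hK
  have hpow : (((x / l : ℝ)) : ℂ) ^ (1 - s) = (x : ℂ) ^ (1 - s) / (l : ℂ) ^ (1 - s) := by
    have := Complex.div_cpow_ofReal_nonneg hx1.le hl0.le (1 - s)
    push_cast
    exact_mod_cast this
  have hls : (l : ℂ) ^ (-s) / (l : ℂ) ^ (1 - s) = 1 / (l : ℂ) := by
    have h1 : (l : ℂ) ^ (1 - s) = l * (l : ℂ) ^ (-s) := by
      rw [sub_eq_add_neg, Complex.cpow_add _ _ hlne, Complex.cpow_one]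
    have h2 : (l : ℂ) ^ (-s) ≠ 0 := by
      rw [Ne, Complex.cpow_eq_zero_iff]
      intro h; exact hlne h.1
    rw [h1]
    field_simp
  have key : ((α d * β e : ℝ) : ℂ) * (ψ l * (l : ℂ) ^ (-s) * ∑ m ∈ Ioc 0 (⌊x⌋₊ / l), ψ m * (m : ℂ) ^ (-s))
      - ((α d * β e : ℝ) : ℂ) * (ψ l * (l : ℂ) ^ (-s) * ℓ)
      - μ * ((α d * β e / (l : ℝ) : ℝ) : ℂ) * ((x : ℂ) ^ (1 - s) / (1 - s))
      = ((α d * β e : ℝ) : ℂ) * (ψ l * (l : ℂ) ^ (-s)) *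
        (∑ m ∈ Ioc 0 (⌊x⌋₊ / l), ψ m * (m : ℂ) ^ (-s) - ℓ
          - μ * ((((x / l : ℝ)) : ℂ) ^ (1 - s) / (1 - s))) := by
    rw [hpow]
    have h3 : ψ l * (l : ℂ) ^ (-s) * (μ * ((x : ℂ) ^ (1 - s) / (l : ℂ) ^ (1 - s) / (1 - s)))
        = (μ * ψ l) * ((l : ℂ) ^ (-s) / (l : ℂ) ^ (1 - s)) * ((x : ℂ) ^ (1 - s) / (1 - s)) := by ring
    rw [mul_sub, mul_sub, mul_assoc (((α d * β e : ℝ) : ℂ)) _ (μ * _), h3, hμ, hls]
    push_cast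
    ring
  rw [key, norm_mul, norm_mul, norm_mul]
  have n1 : ‖((α d * β e : ℝ) : ℂ)‖ = |α d| * |β e| := by
    rw [Complex.norm_real, Real.norm_eq_abs, abs_mul]
  have n2 : ‖(l : ℂ) ^ (-s)‖ = (l : ℝ) ^ (-s.re) := by
    rw [Complex.norm_natCast_cpow_of_pos hlpos]; simp
  rw [n1, n2]
  have h4 := hψ1 l
  have h5 : 0 ≤ (l : ℝ) ^ (-s.re) := Real.rpow_nonneg hl0.le _
  calc |α d| * |β e| * (‖ψ l‖ * (l : ℝ) ^ (-s.re)) *
        ‖∑ m ∈ Ioc 0 (⌊x⌋₊ / l), ψ m * (m : ℂ) ^ (-s) - ℓ - μ * ((((x / l : ℝ)) : ℂ) ^ (1 - s) / (1 - s))‖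
      ≤ |α d| * |β e| * (1 * (l : ℝ) ^ (-s.re)) * η := by
        apply mul_le_mul _ hK (norm_nonneg _) (by positivity)
        apply mul_le_mul_of_nonneg_left _ (by positivity)
        exact mul_le_mul_of_nonneg_right h4 h5
    _ = η * (|α d| * |β e| * (l : ℝ) ^ (-s.re)) := by ring

/-- `∑_{d,e ≤ Z} 1/[d,e] ≤ (1 + log Z)^3`, with the loss `Z^{2δ}` for the exponent `1 - δ`. -/
theorem sum_inv_lcm_le (Z : ℕ) (hZ : 1 ≤ Z) :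
    ∑ d ∈ Ioc 0 Z, ∑ e ∈ Ioc 0 Z, 1 / (Nat.lcm d e : ℝ) ≤ (1 + Real.log Z) ^ 3 := by
  have hlog : 0 ≤ Real.log Z := Real.log_nonneg (by exact_mod_cast hZ)
  have h1 : ∀ d ∈ Ioc 0 Z, ∀ e ∈ Ioc 0 Z, 1 / (Nat.lcm d e : ℝ)
      ≤ ∑ g ∈ Ioc 0 Z, (g : ℝ) * ((if g ∣ d then 1 / (d : ℝ) else 0) * (if g ∣ e then 1 / (e : ℝ) else 0)) := by
    intro d hd e he
    rw [Finset.mem_Ioc] at hd he
    have hd0 : (0 : ℝ) < d := by exact_mod_cast hd.1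
    have he0 : (0 : ℝ) < e := by exact_mod_cast he.1
    have hl0 : (0 : ℝ) < Nat.lcm d e := by exact_mod_cast Nat.lcm_pos hd.1 he.1
    have hg : Nat.gcd d e ∈ Ioc 0 Z := by
      rw [Finset.mem_Ioc]
      exact ⟨Nat.gcd_pos_of_pos_left e hd.1, (Nat.gcd_le_left e hd.1).trans hd.2⟩
    have h2 : (Nat.gcd d e : ℝ) * ((if Nat.gcd d e ∣ d then 1 / (d : ℝ) else 0)
        * (if Nat.gcd d e ∣ e then 1 / (e : ℝ) else 0)) = 1 / (Nat.lcm d e : ℝ) := by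
      rw [if_pos (Nat.gcd_dvd_left d e), if_pos (Nat.gcd_dvd_right d e)]
      have : (Nat.gcd d e : ℝ) * (Nat.lcm d e : ℝ) = d * e := by exact_mod_cast Nat.gcd_mul_lcm d e
      field_simp
      linarith
    rw [← h2]
    apply Finset.single_le_sum (f := fun g : ℕ => (g : ℝ) * ((if g ∣ d then 1 / (d : ℝ) else 0)
      * (if g ∣ e then 1 / (e : ℝ) else 0))) _ hg
    intro g _
    positivity
  refine (Finset.sum_le_sum fun d hd => Finset.sum_le_sum fun e he => h1 d hd e he).trans ?_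
  have h2 : ∑ d ∈ Ioc 0 Z, ∑ e ∈ Ioc 0 Z, ∑ g ∈ Ioc 0 Z, (g : ℝ) * ((if g ∣ d then 1 / (d : ℝ) else 0)
      * (if g ∣ e then 1 / (e : ℝ) else 0))
      = ∑ g ∈ Ioc 0 Z, (g : ℝ) * ((∑ d ∈ Ioc 0 Z, if g ∣ d then 1 / (d : ℝ) else 0)
        * (∑ e ∈ Ioc 0 Z, if g ∣ e then 1 / (e : ℝ) else 0)) := by
    have : ∀ d ∈ Ioc 0 Z, ∑ e ∈ Ioc 0 Z, ∑ g ∈ Ioc 0 Z, (g : ℝ) * ((if g ∣ d then 1 / (d : ℝ) else 0)
      * (if g ∣ e then 1 / (e : ℝ) else 0)) = ∑ g ∈ Ioc 0 Z, (g : ℝ) * ((if g ∣ d then 1 / (d : ℝ) else 0)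
        * (∑ e ∈ Ioc 0 Z, if g ∣ e then 1 / (e : ℝ) else 0)) := by
      intro d _
      rw [Finset.sum_comm]
      apply Finset.sum_congr rfl
      intro g _
      rw [← Finset.mul_sum, ← Finset.mul_sum]
    rw [Finset.sum_congr rfl this, Finset.sum_comm]
    apply Finset.sum_congr rfl
    intro g _
    rw [← Finset.mul_sum, ← Finset.sum_mul]
  rw [h2]
  have h3 : ∀ g ∈ Ioc 0 Z, (g : ℝ) * ((∑ d ∈ Ioc 0 Z, if g ∣ d then 1 / (d : ℝ) else 0)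
        * (∑ e ∈ Ioc 0 Z, if g ∣ e then 1 / (e : ℝ) else 0)) ≤ (1 / (g : ℝ)) * (1 + Real.log Z) ^ 2 := by
    intro g hg
    rw [Finset.mem_Ioc] at hg
    have hg0 : (0 : ℝ) < g := by exact_mod_cast hg.1
    have h4 : ∑ d ∈ Ioc 0 Z, (if g ∣ d then 1 / (d : ℝ) else 0) ≤ (1 / (g : ℝ)) * (1 + Real.log Z) := by
      rw [sum_multiples' (fun d : ℕ => 1 / (d : ℝ)) Z g hg.1]
      have h5 : ∀ m ∈ Ioc 0 (Z / g), 1 / ((g * m : ℕ) : ℝ) = (1 / (g : ℝ)) * (1 / (m : ℝ)) := by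
        intro m _
        push_cast
        rw [div_mul_div_comm, mul_one]
      rw [Finset.sum_congr rfl h5, ← Finset.mul_sum]
      apply mul_le_mul_of_nonneg_left _ (by positivity)
      refine (sum_inv_le (Z / g)).trans ?_
      rcases Nat.eq_zero_or_pos (Z / g) with h0 | h0
      · rw [h0]; simp [hlog]
      · have : Real.log ((Z / g : ℕ) : ℝ) ≤ Real.log Z :=
          Real.log_le_log (by exact_mod_cast h0) (by exact_mod_cast Nat.div_le_self Z g)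
        linarith
    have h5 : 0 ≤ ∑ d ∈ Ioc 0 Z, (if g ∣ d then 1 / (d : ℝ) else 0) :=
      Finset.sum_nonneg fun d _ => by positivity
    calc (g : ℝ) * ((∑ d ∈ Ioc 0 Z, if g ∣ d then 1 / (d : ℝ) else 0)
        * (∑ e ∈ Ioc 0 Z, if g ∣ e then 1 / (e : ℝ) else 0))
        ≤ (g : ℝ) * (((1 / (g : ℝ)) * (1 + Real.log Z)) * ((1 / (g : ℝ)) * (1 + Real.log Z))) := by
          apply mul_le_mul_of_nonneg_left _ hg0.le
          exact mul_le_mul h4 h4 h5 (by positivity)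
      _ = _ := by field_simp
  refine (Finset.sum_le_sum h3).trans ?_
  rw [← Finset.sum_mul]
  have h6 := sum_inv_le Z
  calc (∑ g ∈ Ioc 0 Z, 1 / (g : ℝ)) * (1 + Real.log Z) ^ 2 ≤ (1 + Real.log Z) * (1 + Real.log Z) ^ 2 :=
        mul_le_mul_of_nonneg_right h6 (by positivity)
    _ = _ := by ring

theorem sum_lcm_rpow_le (Z : ℕ) (hZ : 1 ≤ Z) {σ : ℝ} (hσ : σ ≤ 1) :
    ∑ d ∈ Ioc 0 Z, ∑ e ∈ Ioc 0 Z, (Nat.lcm d e : ℝ) ^ (-σ)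
      ≤ (Z : ℝ) ^ (2 * (1 - σ)) * (1 + Real.log Z) ^ 3 := by
  have h1 : ∀ d ∈ Ioc 0 Z, ∀ e ∈ Ioc 0 Z, (Nat.lcm d e : ℝ) ^ (-σ)
      ≤ (Z : ℝ) ^ (2 * (1 - σ)) * (1 / (Nat.lcm d e : ℝ)) := by
    intro d hd e he
    rw [Finset.mem_Ioc] at hd he
    have hl0 : (0 : ℝ) < Nat.lcm d e := by exact_mod_cast Nat.lcm_pos hd.1 he.1
    have hlZ : (Nat.lcm d e : ℝ) ≤ (Z : ℝ) ^ 2 := by
      have h1 : Nat.lcm d e ≤ d * e := Nat.le_of_dvd (Nat.mul_pos hd.1 he.1) (Nat.lcm_dvd_mul d e)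
      have h2 : d * e ≤ Z * Z := Nat.mul_le_mul hd.2 he.2
      have : Nat.lcm d e ≤ Z ^ 2 := by rw [sq]; exact h1.trans h2
      exact_mod_cast this
    have h2 : (Nat.lcm d e : ℝ) ^ (-σ) = (Nat.lcm d e : ℝ) ^ (1 - σ) * (1 / (Nat.lcm d e : ℝ)) := by
      rw [one_div, ← Real.rpow_neg_one, ← Real.rpow_add hl0]
      congr 1
      ring
    rw [h2]
    apply mul_le_mul_of_nonneg_right _ (by positivity)
    calc (Nat.lcm d e : ℝ) ^ (1 - σ) ≤ ((Z : ℝ) ^ 2) ^ (1 - σ) :=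
          Real.rpow_le_rpow hl0.le hlZ (by linarith)
      _ = (Z : ℝ) ^ (2 * (1 - σ)) := by
          rw [← Real.rpow_natCast, ← Real.rpow_mul (Nat.cast_nonneg Z)]
          norm_num
  refine (Finset.sum_le_sum fun d hd => Finset.sum_le_sum fun e he => h1 d hd e he).trans ?_
  have h2 : ∑ d ∈ Ioc 0 Z, ∑ e ∈ Ioc 0 Z, (Z : ℝ) ^ (2 * (1 - σ)) * (1 / (Nat.lcm d e : ℝ))
      = (Z : ℝ) ^ (2 * (1 - σ)) * ∑ d ∈ Ioc 0 Z, ∑ e ∈ Ioc 0 Z, (1 / (Nat.lcm d e : ℝ)) := by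
    rw [Finset.mul_sum]
    apply Finset.sum_congr rfl
    intro d _
    rw [Finset.mul_sum]
  rw [h2]
  exact mul_le_mul_of_nonneg_left (sum_inv_lcm_le Z hZ) (Real.rpow_nonneg (Nat.cast_nonneg Z) _)

end Vale.Agent.P026.H142
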