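import Mathlib
import Vale.Agent.P026.H142.DualB

namespace Vale.Agent.P026.H142

open Finset

theorem bet_support {z : ℝ} {d : ℕ} (h : bet z d ≠ 0) : d ∈ Ioc 0 ⌊z⌋₊ := by
  apply lam_support (z := z)
  intro h'
  exact h (by unfold bet; rw [h', zero_div])

theorem alph_support {z1 z2 : ℝ} (h12 : z1 ≤ z2) {d : ℕ} (h : alph z1 z2 d ≠ 0) : d ∈ Ioc 0 ⌊z2⌋₊ := by
  by_cases h2 : lam z2 d = 0
  · have h1 : lam z1 d ≠ 0 := by
      intro h1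
      exact h (by unfold alph; rw [h1, h2]; simp)
    have := lam_support h1
    exact Finset.Ioc_subset_Ioc_right (Nat.floor_le_floor h12) this
  · exact lam_support h2

/-- the main constant `Q = ∑ β_d β_e/[d,e]` is `O(1/log z)`. -/
theorem abs_Qbet_le {z : ℝ} (hz : 1 < z) :
    |∑ d ∈ Ioc 0 ⌊z⌋₊, ∑ e ∈ Ioc 0 ⌊z⌋₊, bet z d * bet z e / (Nat.lcm d e : ℝ)|
      ≤ 64 * CE * (1 + Real.log z) / (Real.log z) ^ 2 := by
  have hlog : 0 < Real.log z := Real.log_pos hz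
  have h1 : ∑ d ∈ Ioc 0 ⌊z⌋₊, ∑ e ∈ Ioc 0 ⌊z⌋₊, bet z d * bet z e / (Nat.lcm d e : ℝ)
      = Qb (1 + 0) z z ⌊z⌋₊ / (Real.log z) ^ 2 := by
    unfold Qb
    rw [Finset.sum_div]
    apply Finset.sum_congr rfl
    intro d _
    rw [Finset.sum_div]
    apply Finset.sum_congr rfl
    intro e _
    unfold bet
    rw [add_zero, Real.rpow_one]
    field_simp
  rw [h1, abs_div, abs_of_pos (by positivity : 0 < (Real.log z) ^ 2)]
  apply div_le_div_of_nonneg_right _ (by positivity)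
  rw [abs_of_nonneg (Qb_self_nonneg le_rfl _)]
  have := Qb_self_le (ε := 0) le_rfl hz.le (le_refl ⌊z⌋₊)
  simpa using this

/-- Abstract duality: kernel bound. `P` is the sum over the window. -/
theorem window_le {ι K : Type*} [Fintype ι] [DecidableEq ι] [DecidableEq K] (κ : ι → K) (χ : K → ℕ → ℂ)
    (hχ1 : ∀ k n, ‖χ k n‖ ≤ 1) (hχm : ∀ k m n, χ k (m * n) = χ k m * χ k n)
    (ρ : ι → ℂ) (c : ι → ℂ) (hc : ∀ r, ‖c r‖ ≤ 1) {z x0 η a1 a2 h δ : ℝ}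
    (hz : 1 < z) (hx0 : 0 < x0) (hρ1 : ∀ r, 1 - δ ≤ (ρ r).re) (hρ2 : ∀ r, (ρ r).re < 1)
    (hKE1 : ∀ r s, κ r = κ s → ∃ ℓ : ℂ, ∀ x : ℝ, x0 ≤ x →
      ‖∑ m ∈ Ioc 0 ⌊x⌋₊, (m : ℂ) ^ (-(sg (ρ r) (ρ s))) - ℓ
        - (x : ℂ) ^ (1 - sg (ρ r) (ρ s)) / (1 - sg (ρ r) (ρ s))‖ ≤ η)
    (hKE2 : ∀ r s, κ r ≠ κ s → ∃ ℓ : ℂ, ∀ x : ℝ, x0 ≤ x →
      ‖∑ m ∈ Ioc 0 ⌊x⌋₊, (χ (κ r) m * (starRingEnd ℂ) (χ (κ s) m)) * (m : ℂ) ^ (-(sg (ρ r) (ρ s))) - ℓ‖ ≤ η)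
    (ha1 : z ^ 2 * x0 ≤ Real.exp a1) (hh : 0 ≤ h) (ha2 : a1 + h ≤ a2) (w : ℝ) (hw0 : 0 ≤ w) (hwh : w ≤ h) :
    ∑ n ∈ Ioc ⌊Real.exp (a1 + h)⌋₊ ⌊Real.exp a2⌋₊, (bw z n) ^ 2 *
        ((n : ℝ) * ‖∑ r, c r * (χ (κ r) n * (n : ℂ) ^ (-(ρ r)))‖ ^ 2)
      ≤ (∑ r, ∑ s, (c r * (starRingEnd ℂ) (c s)) * (if κ r = κ s then
            ((∑ d ∈ Ioc 0 ⌊z⌋₊, ∑ e ∈ Ioc 0 ⌊z⌋₊, bet z d * bet z e / (Nat.lcm d e : ℝ) : ℝ) : ℂ)
              * Mw (1 - sg (ρ r) (ρ s)) a1 a2 w else 0)).re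
        + (Fintype.card ι : ℝ) ^ 2 * (2 * η * (z ^ (4 * δ) * (1 + Real.log z) ^ 3)) := by
  classical
  set Z := ⌊z⌋₊ with hZ
  have hZ1 : 1 ≤ Z := Nat.one_le_iff_ne_zero.mpr (Nat.floor_pos.mpr hz.le).ne'
  have hz0 : 0 < z := by linarith
  have hZz : (Z : ℝ) ≤ z := Nat.floor_le hz0.le
  set Q : ℝ := ∑ d ∈ Ioc 0 Z, ∑ e ∈ Ioc 0 Z, bet z d * bet z e / (Nat.lcm d e : ℝ) with hQ
  set F : ℕ → ℝ := fun n => (bw z n) ^ 2 * ((n : ℝ) * ‖∑ r, c r * (χ (κ r) n * (n : ℂ) ^ (-(ρ r)))‖ ^ 2) with hF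
  have hF0 : ∀ n, 0 ≤ F n := fun n => by simp only [hF]; positivity
  -- enlarge the window
  have hsub : Ioc ⌊Real.exp (a1 + h)⌋₊ ⌊Real.exp a2⌋₊ ⊆ Ioc ⌊Real.exp (a1 + w)⌋₊ ⌊Real.exp (a2 + w)⌋₊ := by
    apply Finset.Ioc_subset_Ioc
    · exact Nat.floor_le_floor (Real.exp_le_exp.mpr (by linarith))
    · exact Nat.floor_le_floor (Real.exp_le_exp.mpr (by linarith))
  have step1 : ∑ n ∈ Ioc ⌊Real.exp (a1 + h)⌋₊ ⌊Real.exp a2⌋₊, F n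
      ≤ ∑ n ∈ Ioc ⌊Real.exp (a1 + w)⌋₊ ⌊Real.exp (a2 + w)⌋₊, F n :=
    Finset.sum_le_sum_of_subset_of_nonneg hsub (fun n _ _ => hF0 n)
  refine step1.trans ?_
  -- the kernels
  set G : ι → ι → ℕ → ℂ := fun r s n => (((∑ d ∈ n.divisors, bet z d) * (∑ e ∈ n.divisors, bet z e) : ℝ) : ℂ)
          * (psiK χ (κ r) (κ s) n * (n : ℂ) ^ (-(sg (ρ r) (ρ s)))) with hG
  have step2 : ∑ n ∈ Ioc ⌊Real.exp (a1 + w)⌋₊ ⌊Real.exp (a2 + w)⌋₊, F n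
      ≤ (∑ r, ∑ s, (c r * (starRingEnd ℂ) (c s)) *
          ∑ n ∈ Ioc ⌊Real.exp (a1 + w)⌋₊ ⌊Real.exp (a2 + w)⌋₊, G r s n).re := by
    have e1 : ∑ r, ∑ s, (c r * (starRingEnd ℂ) (c s)) *
          ∑ n ∈ Ioc ⌊Real.exp (a1 + w)⌋₊ ⌊Real.exp (a2 + w)⌋₊, G r s n
        = ∑ n ∈ Ioc ⌊Real.exp (a1 + w)⌋₊ ⌊Real.exp (a2 + w)⌋₊, (((bw z n) ^ 2 : ℝ) : ℂ) *
          ∑ r, ∑ s, (c r * (starRingEnd ℂ) (c s)) *
          (psiK χ (κ r) (κ s) n * (n : ℂ) ^ (-(sg (ρ r) (ρ s)))) := by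
      simp_rw [Finset.mul_sum]
      rw [Finset.sum_congr rfl fun r _ => Finset.sum_comm, Finset.sum_comm]
      apply Finset.sum_congr rfl
      intro n _
      apply Finset.sum_congr rfl
      intro r _
      apply Finset.sum_congr rfl
      intro s _
      simp only [hG, bw]
      push_cast
      ring
    rw [e1, Complex.re_sum]
    apply Finset.sum_le_sum
    intro n hn
    rw [Finset.mem_Ioc] at hn
    rw [Complex.re_ofReal_mul]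
    simp only [hF]
    apply mul_le_mul_of_nonneg_left _ (sq_nonneg _)
    exact pointwise_le κ χ hχ1 ρ c (by omega)
  refine step2.trans ?_
  -- expansions of the kernels
  set E : ℝ := z ^ (4 * δ) * (1 + Real.log z) ^ 3 with hE
  have hlogz : 0 ≤ Real.log z := Real.log_nonneg hz.le
  have hη : ∀ r s : ι, 0 ≤ η := by
    intro r s
    by_cases hrs : κ r = κ s
    · obtain ⟨ℓ, hℓ⟩ := hKE1 r s hrs
      exact (norm_nonneg _).trans (hℓ x0 le_rfl)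
    · obtain ⟨ℓ, hℓ⟩ := hKE2 r s hrs
      exact (norm_nonneg _).trans (hℓ x0 le_rfl)
  have hErr : ∀ r s : ι, η * ∑ d ∈ Ioc 0 Z, ∑ e ∈ Ioc 0 Z,
      |bet z d| * |bet z e| * (Nat.lcm d e : ℝ) ^ (-(sg (ρ r) (ρ s)).re) ≤ η * E := by
    intro r s
    apply mul_le_mul_of_nonneg_left _ (hη r s)
    have hre : (sg (ρ r) (ρ s)).re = (ρ r).re + (ρ s).re - 1 := by
      unfold sg; simp
    have h1 : (sg (ρ r) (ρ s)).re ≤ 1 := by
      rw [hre]; linarith [hρ2 r, hρ2 s]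
    have h2 : ∑ d ∈ Ioc 0 Z, ∑ e ∈ Ioc 0 Z,
      |bet z d| * |bet z e| * (Nat.lcm d e : ℝ) ^ (-(sg (ρ r) (ρ s)).re)
        ≤ ∑ d ∈ Ioc 0 Z, ∑ e ∈ Ioc 0 Z, (Nat.lcm d e : ℝ) ^ (-(sg (ρ r) (ρ s)).re) := by
      apply Finset.sum_le_sum
      intro d _
      apply Finset.sum_le_sum
      intro e _
      have b1 := abs_bet_le hz d
      have b2 := abs_bet_le hz e
      have b3 : 0 ≤ (Nat.lcm d e : ℝ) ^ (-(sg (ρ r) (ρ s)).re) := Real.rpow_nonneg (Nat.cast_nonneg _) _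
      have b4 : |bet z d| * |bet z e| ≤ 1 := mul_le_one₀ b1 (abs_nonneg _) b2
      calc _ ≤ 1 * (Nat.lcm d e : ℝ) ^ (-(sg (ρ r) (ρ s)).re) := mul_le_mul_of_nonneg_right b4 b3
        _ = _ := one_mul _
    refine h2.trans ((sum_lcm_rpow_le Z hZ1 h1).trans ?_)
    have hZ1' : (1 : ℝ) ≤ Z := by exact_mod_cast hZ1
    have h3 : Real.log Z ≤ Real.log z := Real.log_le_log (by linarith) hZz
    have h4 : 0 ≤ Real.log Z := Real.log_nonneg hZ1'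
    have h5 : (Z : ℝ) ^ (2 * (1 - (sg (ρ r) (ρ s)).re)) ≤ z ^ (4 * δ) := by
      calc (Z : ℝ) ^ (2 * (1 - (sg (ρ r) (ρ s)).re)) ≤ z ^ (2 * (1 - (sg (ρ r) (ρ s)).re)) :=
            Real.rpow_le_rpow (by linarith) hZz (by linarith)
        _ ≤ z ^ (4 * δ) := by
            apply Real.rpow_le_rpow_of_exponent_le hz.le
            rw [hre]
            linarith [hρ1 r, hρ1 s]
    apply mul_le_mul h5 _ (by positivity) (by positivity)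
    exact pow_le_pow_left₀ (by linarith) (by linarith) 3
  have hwin : ∀ r s : ι, ‖∑ n ∈ Ioc ⌊Real.exp (a1 + w)⌋₊ ⌊Real.exp (a2 + w)⌋₊, G r s n
      - (if κ r = κ s then (Q : ℂ) * Mw (1 - sg (ρ r) (ρ s)) a1 a2 w else 0)‖ ≤ 2 * (η * E) := by
    intro r s
    have hle : ⌊Real.exp (a1 + w)⌋₊ ≤ ⌊Real.exp (a2 + w)⌋₊ :=
      Nat.floor_le_floor (Real.exp_le_exp.mpr (by linarith))
    have hdiff : ∑ n ∈ Ioc ⌊Real.exp (a1 + w)⌋₊ ⌊Real.exp (a2 + w)⌋₊, G r s n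
        = ∑ n ∈ Ioc 0 ⌊Real.exp (a2 + w)⌋₊, G r s n - ∑ n ∈ Ioc 0 ⌊Real.exp (a1 + w)⌋₊, G r s n := by
      rw [eq_sub_iff_add_eq, add_comm, Finset.sum_Ioc_consecutive _ (Nat.zero_le _) hle]
    have hZx : (Z : ℝ) ^ 2 * x0 ≤ Real.exp (a1 + w) := by
      have h1 : (Z : ℝ) ^ 2 ≤ z ^ 2 := pow_le_pow_left₀ (Nat.cast_nonneg _) hZz 2
      calc (Z : ℝ) ^ 2 * x0 ≤ z ^ 2 * x0 := mul_le_mul_of_nonneg_right h1 hx0.le
        _ ≤ Real.exp a1 := ha1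
        _ ≤ Real.exp (a1 + w) := Real.exp_le_exp.mpr (by linarith)
    have hZx2 : (Z : ℝ) ^ 2 * x0 ≤ Real.exp (a2 + w) :=
      hZx.trans (Real.exp_le_exp.mpr (by linarith))
    have hW : 1 - sg (ρ r) (ρ s) ≠ 0 := by
      intro h0
      have : (1 - sg (ρ r) (ρ s)).re = 0 := by rw [h0]; simp
      unfold sg at this
      simp at this
      linarith [hρ2 r, hρ2 s]
    have hexp : ∀ t : ℝ, ((Real.exp t : ℝ) : ℂ) ^ (1 - sg (ρ r) (ρ s))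
        = Complex.exp ((1 - sg (ρ r) (ρ s)) * ((t : ℝ) : ℂ)) := by
      intro t
      rw [Complex.cpow_def_of_ne_zero (by exact_mod_cast (Real.exp_pos t).ne'), ← Complex.ofReal_log (Real.exp_pos t).le,
        Real.log_exp, mul_comm]
    by_cases hrs : κ r = κ s
    · obtain ⟨ℓ, hℓ⟩ := hKE1 r s hrs
      have hpsi1 : ∀ n, psiK χ (κ r) (κ s) n = 1 := fun n => by unfold psiK; rw [if_pos hrs]
      obtain ⟨ℓ', hℓ'⟩ := K_expand (α := bet z) (β := bet z) (Z := Z) (fun d hd => bet_support hd)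
        (fun d hd => bet_support hd) (psiK χ (κ r) (κ s)) (psiK_mul hχm _ _) (norm_psiK_le hχ1 _ _)
        1 (fun n => by rw [hpsi1, mul_one]) (sg (ρ r) (ρ s)) ℓ hx0 (by
          intro x hx
          have := hℓ x hx
          simpa [hpsi1] using this)
      have k1 := hℓ' _ hZx
      have k2 := hℓ' _ hZx2
      have e1 := k1.trans (hErr r s)
      have e2 := k2.trans (hErr r s)
      rw [hdiff, if_pos hrs]
      have e3 : ∑ n ∈ Ioc 0 ⌊Real.exp (a2 + w)⌋₊, G r s n - ∑ n ∈ Ioc 0 ⌊Real.exp (a1 + w)⌋₊, G r s n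
          - (Q : ℂ) * Mw (1 - sg (ρ r) (ρ s)) a1 a2 w
          = (∑ n ∈ Ioc 0 ⌊Real.exp (a2 + w)⌋₊, G r s n - ℓ' - 1 * (Q : ℂ) *
              (((Real.exp (a2 + w) : ℝ) : ℂ) ^ (1 - sg (ρ r) (ρ s)) / (1 - sg (ρ r) (ρ s))))
            - (∑ n ∈ Ioc 0 ⌊Real.exp (a1 + w)⌋₊, G r s n - ℓ' - 1 * (Q : ℂ) *
              (((Real.exp (a1 + w) : ℝ) : ℂ) ^ (1 - sg (ρ r) (ρ s)) / (1 - sg (ρ r) (ρ s)))) := by
        rw [hexp, hexp]
        unfold Mw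
        ring
      rw [e3]
      refine (norm_sub_le _ _).trans ?_
      linarith
    · obtain ⟨ℓ, hℓ⟩ := hKE2 r s hrs
      have hpsi1 : ∀ n, psiK χ (κ r) (κ s) n = χ (κ r) n * (starRingEnd ℂ) (χ (κ s) n) :=
        fun n => by unfold psiK; rw [if_neg hrs]
      obtain ⟨ℓ', hℓ'⟩ := K_expand (α := bet z) (β := bet z) (Z := Z) (fun d hd => bet_support hd)
        (fun d hd => bet_support hd) (psiK χ (κ r) (κ s)) (psiK_mul hχm _ _) (norm_psiK_le hχ1 _ _)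
        0 (fun n => by rw [zero_mul]) (sg (ρ r) (ρ s)) ℓ hx0 (by
          intro x hx
          have := hℓ x hx
          simpa [hpsi1] using this)
      have k1 := hℓ' _ hZx
      have k2 := hℓ' _ hZx2
      have e1 := k1.trans (hErr r s)
      have e2 := k2.trans (hErr r s)
      rw [zero_mul, zero_mul, sub_zero] at e1 e2
      rw [hdiff, if_neg hrs, sub_zero]
      have e3 : ∑ n ∈ Ioc 0 ⌊Real.exp (a2 + w)⌋₊, G r s n - ∑ n ∈ Ioc 0 ⌊Real.exp (a1 + w)⌋₊, G r s n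
          = (∑ n ∈ Ioc 0 ⌊Real.exp (a2 + w)⌋₊, G r s n - ℓ')
            - (∑ n ∈ Ioc 0 ⌊Real.exp (a1 + w)⌋₊, G r s n - ℓ') := by ring
      rw [e3]
      refine (norm_sub_le _ _).trans ?_
      linarith
  -- conclude
  have hfin : (∑ r, ∑ s, (c r * (starRingEnd ℂ) (c s)) *
          ∑ n ∈ Ioc ⌊Real.exp (a1 + w)⌋₊ ⌊Real.exp (a2 + w)⌋₊, G r s n).re
      = (∑ r, ∑ s, (c r * (starRingEnd ℂ) (c s)) * (if κ r = κ s then
            (Q : ℂ) * Mw (1 - sg (ρ r) (ρ s)) a1 a2 w else 0)).re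
        + (∑ r, ∑ s, (c r * (starRingEnd ℂ) (c s)) *
          (∑ n ∈ Ioc ⌊Real.exp (a1 + w)⌋₊ ⌊Real.exp (a2 + w)⌋₊, G r s n
            - (if κ r = κ s then (Q : ℂ) * Mw (1 - sg (ρ r) (ρ s)) a1 a2 w else 0))).re := by
    rw [← Complex.add_re]
    congr 1
    rw [← Finset.sum_add_distrib]
    apply Finset.sum_congr rfl
    intro r _
    rw [← Finset.sum_add_distrib]
    apply Finset.sum_congr rfl
    intro s _
    ring
  rw [hfin]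
  apply add_le_add le_rfl
  refine (Complex.re_le_norm _).trans ?_
  refine (norm_sum_le _ _).trans ?_
  have hb : ∀ r ∈ (univ : Finset ι), ‖∑ s, (c r * (starRingEnd ℂ) (c s)) *
          (∑ n ∈ Ioc ⌊Real.exp (a1 + w)⌋₊ ⌊Real.exp (a2 + w)⌋₊, G r s n
            - (if κ r = κ s then (Q : ℂ) * Mw (1 - sg (ρ r) (ρ s)) a1 a2 w else 0))‖
      ≤ (Fintype.card ι : ℝ) * (2 * (η * E)) := by
    intro r _
    refine (norm_sum_le _ _).trans ?_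
    have : ∀ s ∈ (univ : Finset ι), ‖(c r * (starRingEnd ℂ) (c s)) *
          (∑ n ∈ Ioc ⌊Real.exp (a1 + w)⌋₊ ⌊Real.exp (a2 + w)⌋₊, G r s n
            - (if κ r = κ s then (Q : ℂ) * Mw (1 - sg (ρ r) (ρ s)) a1 a2 w else 0))‖ ≤ 2 * (η * E) := by
      intro s _
      rw [norm_mul, norm_mul, RCLike.norm_conj]
      have h1 : ‖c r‖ * ‖c s‖ ≤ 1 := mul_le_one₀ (hc r) (norm_nonneg _) (hc s)
      calc _ ≤ 1 * (2 * (η * E)) := mul_le_mul h1 (hwin r s) (norm_nonneg _) zero_le_one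
        _ = _ := one_mul _
    refine (Finset.sum_le_sum this).trans ?_
    simp
  refine (Finset.sum_le_sum hb).trans ?_
  rw [Finset.sum_const, nsmul_eq_mul, Finset.card_univ]
  apply le_of_eq
  ring

end Vale.Agent.P026.H142
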