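import Mathlib
import Vale.Agent.P026.H142.DualC

namespace Vale.Agent.P026.H142

open Finset MeasureTheory

theorem sum_int_Mw_le {ι K : Type*} [Fintype ι] [DecidableEq ι] [DecidableEq K] (κ : ι → K)
    (ρ : ι → ℂ) {a1 a2 h δ M : ℝ} (hρ1 : ∀ r, 1 - δ ≤ (ρ r).re) (hρ2 : ∀ r, (ρ r).re < 1)
    (ha12 : a1 ≤ a2) (ha2 : 0 ≤ a2) (hh : 0 ≤ h)
    (hsp : ∀ r s, r ≠ s → κ r = κ s → 1 ≤ M * |(ρ r).im - (ρ s).im|) (r : ι) :
    ∑ s, (if κ r = κ s then ‖∫ w in (0:ℝ)..h, Mw (1 - sg (ρ r) (ρ s)) a1 a2 w‖ else 0)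
      ≤ Real.exp (2 * δ * (a2 + h)) * (h * (a2 - a1) + 4 * CS * M ^ 2) := by
  have hWre : ∀ s, (1 - sg (ρ r) (ρ s)).re = (1 - (ρ r).re) + (1 - (ρ s).re) := by
    intro s; unfold sg; simp; ring
  have hWim : ∀ s, (1 - sg (ρ r) (ρ s)).im = -((ρ r).im - (ρ s).im) := by
    intro s; unfold sg; simp; ring
  have hW0 : ∀ s, (1 - sg (ρ r) (ρ s)) ≠ 0 := by
    intro s h0
    have := hWre s
    rw [h0] at this
    simp at this
    linarith [hρ2 r, hρ2 s]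
  have hre0 : ∀ s, 0 ≤ (1 - sg (ρ r) (ρ s)).re := by
    intro s; rw [hWre]; linarith [hρ2 r, hρ2 s]
  have hexp : ∀ s, Real.exp ((1 - sg (ρ r) (ρ s)).re * (a2 + h)) ≤ Real.exp (2 * δ * (a2 + h)) := by
    intro s
    apply Real.exp_le_exp.mpr
    apply mul_le_mul_of_nonneg_right _ (by linarith)
    rw [hWre]; linarith [hρ1 r, hρ1 s]
  set S := univ.filter (fun s => κ r = κ s ∧ s ≠ r) with hS
  have hsplit : ∑ s, (if κ r = κ s then ‖∫ w in (0:ℝ)..h, Mw (1 - sg (ρ r) (ρ s)) a1 a2 w‖ else 0)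
      = ‖∫ w in (0:ℝ)..h, Mw (1 - sg (ρ r) (ρ r)) a1 a2 w‖
        + ∑ s ∈ S, ‖∫ w in (0:ℝ)..h, Mw (1 - sg (ρ r) (ρ s)) a1 a2 w‖ := by
    rw [← Finset.add_sum_erase univ _ (Finset.mem_univ r), if_pos rfl]
    congr 1
    rw [hS, Finset.sum_filter, ← Finset.sum_erase univ (a := r)]
    · apply Finset.sum_congr rfl
      intro s hs
      have hne : s ≠ r := Finset.ne_of_mem_erase hs
      by_cases hk : κ r = κ s
      · rw [if_pos hk, if_pos ⟨hk, hne⟩]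
      · rw [if_neg hk, if_neg (fun h' => hk h'.1)]
    · rw [if_neg (fun h' => h'.2 rfl)]
  rw [hsplit]
  have h1 : ‖∫ w in (0:ℝ)..h, Mw (1 - sg (ρ r) (ρ r)) a1 a2 w‖
      ≤ Real.exp (2 * δ * (a2 + h)) * (h * (a2 - a1)) := by
    refine (norm_int_Mw_le_triv (hW0 r) (hre0 r) ha12 hh).trans ?_
    have := hexp r
    have h3 : 0 ≤ h * (a2 - a1) := mul_nonneg hh (by linarith)
    calc h * ((a2 - a1) * Real.exp ((1 - sg (ρ r) (ρ r)).re * (a2 + h)))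
        = (h * (a2 - a1)) * Real.exp ((1 - sg (ρ r) (ρ r)).re * (a2 + h)) := by ring
      _ ≤ (h * (a2 - a1)) * Real.exp (2 * δ * (a2 + h)) := mul_le_mul_of_nonneg_left this h3
      _ = _ := by ring
  have h2 : ∑ s ∈ S, ‖∫ w in (0:ℝ)..h, Mw (1 - sg (ρ r) (ρ s)) a1 a2 w‖
      ≤ Real.exp (2 * δ * (a2 + h)) * (4 * CS * M ^ 2) := by
    have e1 : ∀ s ∈ S, ‖∫ w in (0:ℝ)..h, Mw (1 - sg (ρ r) (ρ s)) a1 a2 w‖
        ≤ (4 * Real.exp (2 * δ * (a2 + h)) * M ^ 2) * (1 / (M * ((ρ s).im - (ρ r).im)) ^ 2) := by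
      intro s hs
      rw [hS, Finset.mem_filter] at hs
      have hsp' := hsp r s (Ne.symm hs.2.2) hs.2.1
      have hWpos : 0 < ‖1 - sg (ρ r) (ρ s)‖ := norm_pos_iff.mpr (hW0 s)
      have hWge : |(ρ r).im - (ρ s).im| ≤ ‖1 - sg (ρ r) (ρ s)‖ := by
        have := Complex.abs_im_le_norm (1 - sg (ρ r) (ρ s))
        rw [hWim, abs_neg] at this
        exact this
      have hM0 : 0 < M := by
        by_contra hcon
        have : M * |(ρ r).im - (ρ s).im| ≤ 0 :=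
          mul_nonpos_of_nonpos_of_nonneg (not_lt.mp hcon) (abs_nonneg _)
        linarith
      have hd0 : 0 < |(ρ r).im - (ρ s).im| := by
        by_contra hcon
        have h0 : |(ρ r).im - (ρ s).im| = 0 := le_antisymm (not_lt.mp hcon) (abs_nonneg _)
        rw [h0] at hsp'
        linarith
      refine (norm_int_Mw_le (hW0 s) (hre0 s) ha12 hh).trans ?_
      have e2 : (4 * Real.exp (2 * δ * (a2 + h)) * M ^ 2) * (1 / (M * ((ρ s).im - (ρ r).im)) ^ 2)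
          = 4 * Real.exp (2 * δ * (a2 + h)) / |(ρ r).im - (ρ s).im| ^ 2 := by
        rw [sq_abs, mul_pow]
        have : ((ρ s).im - (ρ r).im) ^ 2 = ((ρ r).im - (ρ s).im) ^ 2 := by ring
        rw [this]
        have hM : M ≠ 0 := hM0.ne'
        have hne : ((ρ r).im - (ρ s).im) ≠ 0 := abs_pos.mp hd0
        field_simp
      rw [e2]
      apply div_le_div₀ (by positivity) _ (by positivity) (pow_le_pow_left₀ (abs_nonneg _) hWge 2)
      linarith [hexp s]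
    refine (Finset.sum_le_sum e1).trans ?_
    rw [← Finset.mul_sum]
    have e3 : ∑ s ∈ S, 1 / (M * ((ρ s).im - (ρ r).im)) ^ 2 ≤ CS := by
      apply spacing_sum S (fun s => M * ((ρ s).im - (ρ r).im))
      · intro s hs
        rw [hS, Finset.mem_filter] at hs
        have hsp' := hsp r s (Ne.symm hs.2.2) hs.2.1
        rw [abs_mul, abs_sub_comm]
        refine hsp'.trans ?_
        exact mul_le_mul_of_nonneg_right (le_abs_self M) (abs_nonneg _)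
      · intro s hs t ht hst
        rw [hS, Finset.mem_filter] at hs ht
        have hsp' := hsp s t hst (hs.2.1.symm.trans ht.2.1)
        have : M * ((ρ s).im - (ρ r).im) - M * ((ρ t).im - (ρ r).im) = M * ((ρ s).im - (ρ t).im) := by ring
        rw [this, abs_mul]
        refine hsp'.trans ?_
        exact mul_le_mul_of_nonneg_right (le_abs_self M) (abs_nonneg _)
    calc (4 * Real.exp (2 * δ * (a2 + h)) * M ^ 2) * ∑ s ∈ S, 1 / (M * ((ρ s).im - (ρ r).im)) ^ 2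
        ≤ (4 * Real.exp (2 * δ * (a2 + h)) * M ^ 2) * CS :=
          mul_le_mul_of_nonneg_left e3 (by positivity)
      _ = _ := by ring
  calc _ ≤ Real.exp (2 * δ * (a2 + h)) * (h * (a2 - a1)) + Real.exp (2 * δ * (a2 + h)) * (4 * CS * M ^ 2) :=
        add_le_add h1 h2
    _ = _ := by ring

/-- averaged window bound -/
theorem window_avg {ι K : Type*} [Fintype ι] [DecidableEq ι] [DecidableEq K] (κ : ι → K) (χ : K → ℕ → ℂ)
    (hχ1 : ∀ k n, ‖χ k n‖ ≤ 1) (hχm : ∀ k m n, χ k (m * n) = χ k m * χ k n)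
    (ρ : ι → ℂ) (c : ι → ℂ) (hc : ∀ r, ‖c r‖ ≤ 1) {z x0 η a1 a2 h δ M : ℝ}
    (hz : 1 < z) (hx0 : 0 < x0) (hρ1 : ∀ r, 1 - δ ≤ (ρ r).re) (hρ2 : ∀ r, (ρ r).re < 1)
    (hKE1 : ∀ r s, κ r = κ s → ∃ ℓ : ℂ, ∀ x : ℝ, x0 ≤ x →
      ‖∑ m ∈ Ioc 0 ⌊x⌋₊, (m : ℂ) ^ (-(sg (ρ r) (ρ s))) - ℓ
        - (x : ℂ) ^ (1 - sg (ρ r) (ρ s)) / (1 - sg (ρ r) (ρ s))‖ ≤ η)
    (hKE2 : ∀ r s, κ r ≠ κ s → ∃ ℓ : ℂ, ∀ x : ℝ, x0 ≤ x →
      ‖∑ m ∈ Ioc 0 ⌊x⌋₊, (χ (κ r) m * (starRingEnd ℂ) (χ (κ s) m)) * (m : ℂ) ^ (-(sg (ρ r) (ρ s))) - ℓ‖ ≤ η)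
    (ha1 : z ^ 2 * x0 ≤ Real.exp a1) (hh : 0 < h) (ha2 : a1 + h ≤ a2) (ha2' : 0 ≤ a2)
    (hsp : ∀ r s, r ≠ s → κ r = κ s → 1 ≤ M * |(ρ r).im - (ρ s).im|) :
    ∑ n ∈ Ioc ⌊Real.exp (a1 + h)⌋₊ ⌊Real.exp a2⌋₊, (bw z n) ^ 2 *
        ((n : ℝ) * ‖∑ r, c r * (χ (κ r) n * (n : ℂ) ^ (-(ρ r)))‖ ^ 2)
      ≤ (Fintype.card ι : ℝ) * (64 * CE * (1 + Real.log z) / (Real.log z) ^ 2
          * (Real.exp (2 * δ * (a2 + h)) * ((a2 - a1) + 4 * CS * M ^ 2 / h)))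
        + (Fintype.card ι : ℝ) ^ 2 * (2 * η * (z ^ (4 * δ) * (1 + Real.log z) ^ 3)) := by
  classical
  set P := ∑ n ∈ Ioc ⌊Real.exp (a1 + h)⌋₊ ⌊Real.exp a2⌋₊, (bw z n) ^ 2 *
        ((n : ℝ) * ‖∑ r, c r * (χ (κ r) n * (n : ℂ) ^ (-(ρ r)))‖ ^ 2) with hP
  set Q : ℝ := ∑ d ∈ Ioc 0 ⌊z⌋₊, ∑ e ∈ Ioc 0 ⌊z⌋₊, bet z d * bet z e / (Nat.lcm d e : ℝ) with hQ
  set Cc : ℝ := (Fintype.card ι : ℝ) ^ 2 * (2 * η * (z ^ (4 * δ) * (1 + Real.log z) ^ 3)) with hCc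
  set f : ℝ → ℂ := fun w => ∑ r, ∑ s, (c r * (starRingEnd ℂ) (c s)) * (if κ r = κ s then
            (Q : ℂ) * Mw (1 - sg (ρ r) (ρ s)) a1 a2 w else 0) with hf
  have hMwc := fun W => Mw_cont W a1 a2
  have hterm : ∀ r s : ι, Continuous (fun w => (c r * (starRingEnd ℂ) (c s)) * (if κ r = κ s then
            (Q : ℂ) * Mw (1 - sg (ρ r) (ρ s)) a1 a2 w else 0)) := by
    intro r s
    apply continuous_const.mul
    by_cases hrs : κ r = κ s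
    · simp only [hrs, if_true]
      exact continuous_const.mul (hMwc _)
    · simp only [hrs, if_false]
      exact continuous_const
  have hfc : Continuous f := by
    apply continuous_finsetSum
    intro r _
    apply continuous_finsetSum
    intro s _
    exact hterm r s
  have h1 : ∀ w ∈ Set.Icc (0:ℝ) h, P ≤ (f w).re + Cc := by
    intro w hw
    exact window_le κ χ hχ1 hχm ρ c hc hz hx0 hρ1 hρ2 hKE1 hKE2 ha1 hh.le ha2 w hw.1 hw.2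
  have h2 : ∫ w in (0:ℝ)..h, P ≤ ∫ w in (0:ℝ)..h, ((f w).re + Cc) := by
    apply intervalIntegral.integral_mono_on hh.le
    · exact continuous_const.intervalIntegrable _ _
    · exact ((Complex.continuous_re.comp hfc).add continuous_const).intervalIntegrable _ _
    · exact h1
  have h3 : ∫ w in (0:ℝ)..h, ((f w).re + Cc) = (∫ w in (0:ℝ)..h, f w).re + h * Cc := by
    have hre : Continuous (fun w => (f w).re) := Complex.continuous_re.comp hfc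
    rw [intervalIntegral.integral_add (hre.intervalIntegrable _ _)
      (continuous_const.intervalIntegrable _ _)]
    congr 1
    · have := Complex.reCLM.intervalIntegral_comp_comm (hfc.intervalIntegrable (μ := volume) 0 h)
      simpa using this
    · simp
  have h4 : ∫ w in (0:ℝ)..h, f w = ∑ r, ∑ s, (c r * (starRingEnd ℂ) (c s)) * (if κ r = κ s then
            (Q : ℂ) * ∫ w in (0:ℝ)..h, Mw (1 - sg (ρ r) (ρ s)) a1 a2 w else 0) := by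
    simp only [hf]
    rw [intervalIntegral.integral_finsetSum]
    · apply Finset.sum_congr rfl
      intro r _
      rw [intervalIntegral.integral_finsetSum]
      · apply Finset.sum_congr rfl
        intro s _
        rw [intervalIntegral.integral_const_mul]
        congr 1
        by_cases hrs : κ r = κ s
        · simp only [hrs, if_true]
          rw [intervalIntegral.integral_const_mul]
        · simp only [hrs, if_false]
          simp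
      · intro s _
        exact (hterm r s).intervalIntegrable _ _
    · intro r _
      apply Continuous.intervalIntegrable
      apply continuous_finsetSum
      intro s _
      exact hterm r s
  have hQle := abs_Qbet_le hz
  rw [← hQ] at hQle
  set QQ := 64 * CE * (1 + Real.log z) / (Real.log z) ^ 2 with hQQ
  have hQQ0 : 0 ≤ QQ := (abs_nonneg _).trans hQle
  have h5 : ‖∫ w in (0:ℝ)..h, f w‖ ≤ (Fintype.card ι : ℝ) *
      (QQ * (Real.exp (2 * δ * (a2 + h)) * (h * (a2 - a1) + 4 * CS * M ^ 2))) := by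
    rw [h4]
    refine (norm_sum_le _ _).trans ?_
    have : ∀ r ∈ (univ : Finset ι), ‖∑ s, (c r * (starRingEnd ℂ) (c s)) * (if κ r = κ s then
            (Q : ℂ) * ∫ w in (0:ℝ)..h, Mw (1 - sg (ρ r) (ρ s)) a1 a2 w else 0)‖
        ≤ QQ * (Real.exp (2 * δ * (a2 + h)) * (h * (a2 - a1) + 4 * CS * M ^ 2)) := by
      intro r _
      refine (norm_sum_le _ _).trans ?_
      have e1 : ∀ s ∈ (univ : Finset ι), ‖(c r * (starRingEnd ℂ) (c s)) * (if κ r = κ s then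
            (Q : ℂ) * ∫ w in (0:ℝ)..h, Mw (1 - sg (ρ r) (ρ s)) a1 a2 w else 0)‖
          ≤ QQ * (if κ r = κ s then ‖∫ w in (0:ℝ)..h, Mw (1 - sg (ρ r) (ρ s)) a1 a2 w‖ else 0) := by
        intro s _
        rw [norm_mul, norm_mul, RCLike.norm_conj]
        have h6 : ‖c r‖ * ‖c s‖ ≤ 1 := mul_le_one₀ (hc r) (norm_nonneg _) (hc s)
        by_cases hrs : κ r = κ s
        · rw [if_pos hrs, if_pos hrs, norm_mul, Complex.norm_real, Real.norm_eq_abs]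
          calc _ ≤ 1 * (|Q| * ‖∫ w in (0:ℝ)..h, Mw (1 - sg (ρ r) (ρ s)) a1 a2 w‖) :=
                mul_le_mul_of_nonneg_right h6 (by positivity)
            _ ≤ _ := by
                rw [one_mul]
                exact mul_le_mul_of_nonneg_right hQle (norm_nonneg _)
        · rw [if_neg hrs, if_neg hrs]
          simp
      refine (Finset.sum_le_sum e1).trans ?_
      rw [← Finset.mul_sum]
      exact mul_le_mul_of_nonneg_left (sum_int_Mw_le κ ρ hρ1 hρ2 (by linarith) ha2' hh.le hsp r) hQQ0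
    refine (Finset.sum_le_sum this).trans ?_
    rw [Finset.sum_const, nsmul_eq_mul, Finset.card_univ]
  have h6 : h * P ≤ (Fintype.card ι : ℝ) *
      (QQ * (Real.exp (2 * δ * (a2 + h)) * (h * (a2 - a1) + 4 * CS * M ^ 2))) + h * Cc := by
    have e1 : ∫ w in (0:ℝ)..h, P = h * P := by simp
    rw [e1, h3] at h2
    refine h2.trans ?_
    have := (Complex.re_le_norm (∫ w in (0:ℝ)..h, f w)).trans h5
    linarith
  have h7 : (Fintype.card ι : ℝ) *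
      (QQ * (Real.exp (2 * δ * (a2 + h)) * (h * (a2 - a1) + 4 * CS * M ^ 2))) + h * Cc
      = h * ((Fintype.card ι : ℝ) * (QQ * (Real.exp (2 * δ * (a2 + h)) * ((a2 - a1) + 4 * CS * M ^ 2 / h))) + Cc) := by
    field_simp
  rw [h7] at h6
  exact le_of_mul_le_mul_left h6 hh

/-- **Duality.** -/
theorem duality {ι K : Type*} [Fintype ι] [DecidableEq ι] [DecidableEq K] (κ : ι → K) (χ : K → ℕ → ℂ)
    (hχ1 : ∀ k n, ‖χ k n‖ ≤ 1) (hχm : ∀ k m n, χ k (m * n) = χ k m * χ k n)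
    (ρ : ι → ℂ) {z x0 η a1 a2 h δ M : ℝ}
    (hz : 1 < z) (hx0 : 0 < x0) (hρ1 : ∀ r, 1 - δ ≤ (ρ r).re) (hρ2 : ∀ r, (ρ r).re < 1)
    (hKE1 : ∀ r s, κ r = κ s → ∃ ℓ : ℂ, ∀ x : ℝ, x0 ≤ x →
      ‖∑ m ∈ Ioc 0 ⌊x⌋₊, (m : ℂ) ^ (-(sg (ρ r) (ρ s))) - ℓ
        - (x : ℂ) ^ (1 - sg (ρ r) (ρ s)) / (1 - sg (ρ r) (ρ s))‖ ≤ η)
    (hKE2 : ∀ r s, κ r ≠ κ s → ∃ ℓ : ℂ, ∀ x : ℝ, x0 ≤ x →
      ‖∑ m ∈ Ioc 0 ⌊x⌋₊, (χ (κ r) m * (starRingEnd ℂ) (χ (κ s) m)) * (m : ℂ) ^ (-(sg (ρ r) (ρ s))) - ℓ‖ ≤ η)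
    (ha1 : z ^ 2 * x0 ≤ Real.exp a1) (hh : 0 < h) (ha2 : a1 + h ≤ a2) (ha2' : 0 ≤ a2)
    (hsp : ∀ r s, r ≠ s → κ r = κ s → 1 ≤ M * |(ρ r).im - (ρ s).im|)
    (a w : ℕ → ℝ) {A2 : ℝ} (hA2 : ∑ n ∈ Ioc 0 ⌊Real.exp a2⌋₊, (a n) ^ 2 / n ≤ A2)
    (hw : ∀ n, |w n| ≤ |a n| * |bw z n|) (hw0 : ∀ n : ℕ, (n : ℝ) ≤ Real.exp (a1 + h) → w n = 0)
    (hdet : ∀ r, 1 / 2 ≤ ‖∑ n ∈ Ioc 0 ⌊Real.exp a2⌋₊, (w n : ℂ) * (χ (κ r) n * (n : ℂ) ^ (-(ρ r)))‖) :
    ((Fintype.card ι : ℝ) / 2) ^ 2 ≤ A2 *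
      ((Fintype.card ι : ℝ) * (64 * CE * (1 + Real.log z) / (Real.log z) ^ 2
          * (Real.exp (2 * δ * (a2 + h)) * ((a2 - a1) + 4 * CS * M ^ 2 / h)))
        + (Fintype.card ι : ℝ) ^ 2 * (2 * η * (z ^ (4 * δ) * (1 + Real.log z) ^ 3))) := by
  classical
  set D : ι → ℂ := fun r => ∑ n ∈ Ioc 0 ⌊Real.exp a2⌋₊, (w n : ℂ) * (χ (κ r) n * (n : ℂ) ^ (-(ρ r))) with hD
  -- phases
  set c : ι → ℂ := fun r => (starRingEnd ℂ) (D r) / (‖D r‖ : ℂ) with hcdef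
  have hDpos : ∀ r, 0 < ‖D r‖ := fun r => lt_of_lt_of_le (by norm_num) (hdet r)
  have hc : ∀ r, ‖c r‖ ≤ 1 := by
    intro r
    simp only [hcdef]
    rw [norm_div, RCLike.norm_conj, Complex.norm_real, norm_norm, div_self (hDpos r).ne']
  have hcD : ∀ r, c r * D r = (‖D r‖ : ℂ) := by
    intro r
    simp only [hcdef]
    have h0 : (‖D r‖ : ℂ) ≠ 0 := by exact_mod_cast (hDpos r).ne'
    rw [div_mul_eq_mul_div, div_eq_iff h0, mul_comm, Complex.mul_conj, Complex.normSq_eq_norm_sq]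
    push_cast
    ring
  set xn : ℕ → ℂ := fun n => ∑ r, c r * (χ (κ r) n * (n : ℂ) ^ (-(ρ r))) with hxn
  have hsum : ∑ r, (‖D r‖ : ℂ) = ∑ n ∈ Ioc 0 ⌊Real.exp a2⌋₊, (w n : ℂ) * xn n := by
    rw [← Finset.sum_congr rfl (fun r _ => hcD r)]
    simp only [hD, hxn, Finset.mul_sum]
    rw [Finset.sum_comm]
    apply Finset.sum_congr rfl
    intro n _
    apply Finset.sum_congr rfl
    intro r _
    ring
  have hR : (Fintype.card ι : ℝ) / 2 ≤ ‖∑ n ∈ Ioc 0 ⌊Real.exp a2⌋₊, (w n : ℂ) * xn n‖ := by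
    rw [← hsum, ← Complex.ofReal_sum, Complex.norm_real, Real.norm_eq_abs,
      abs_of_nonneg (Finset.sum_nonneg fun r _ => (norm_nonneg _))]
    calc (Fintype.card ι : ℝ) / 2 = ∑ r : ι, (1 / 2 : ℝ) := by
          rw [Finset.sum_const, nsmul_eq_mul, Finset.card_univ]; ring
      _ ≤ _ := Finset.sum_le_sum fun r _ => hdet r
  -- restrict to the window
  set I := Ioc ⌊Real.exp (a1 + h)⌋₊ ⌊Real.exp a2⌋₊ with hI
  have hIsub : I ⊆ Ioc 0 ⌊Real.exp a2⌋₊ := Finset.Ioc_subset_Ioc_left (Nat.zero_le _)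
  have hrestr : ∑ n ∈ Ioc 0 ⌊Real.exp a2⌋₊, (w n : ℂ) * xn n = ∑ n ∈ I, (w n : ℂ) * xn n := by
    symm
    apply Finset.sum_subset hIsub
    intro n hn hn'
    rw [Finset.mem_Ioc] at hn
    have : n ≤ ⌊Real.exp (a1 + h)⌋₊ := by
      by_contra hcon
      exact hn' (Finset.mem_Ioc.mpr ⟨not_le.mp hcon, hn.2⟩)
    have h2 : (n : ℝ) ≤ Real.exp (a1 + h) := (Nat.le_floor_iff (Real.exp_pos _).le).mp this
    rw [hw0 n h2]
    simp
  rw [hrestr] at hR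
  have hCS : ‖∑ n ∈ I, (w n : ℂ) * xn n‖ ^ 2 ≤ (∑ n ∈ I, (a n) ^ 2 / n) *
      (∑ n ∈ I, (bw z n) ^ 2 * ((n : ℝ) * ‖xn n‖ ^ 2)) := by
    have e1 : ‖∑ n ∈ I, (w n : ℂ) * xn n‖ ≤ ∑ n ∈ I, (|a n| / √(n : ℝ)) * (|bw z n| * √(n : ℝ) * ‖xn n‖) := by
      refine (norm_sum_le _ _).trans (Finset.sum_le_sum ?_)
      intro n hn
      rw [hI, Finset.mem_Ioc] at hn
      have hn0 : (0 : ℝ) < n := by exact_mod_cast (by omega : 0 < n)
      have hs : 0 < √(n : ℝ) := Real.sqrt_pos.mpr hn0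
      rw [norm_mul, Complex.norm_real, Real.norm_eq_abs]
      calc |w n| * ‖xn n‖ ≤ (|a n| * |bw z n|) * ‖xn n‖ := mul_le_mul_of_nonneg_right (hw n) (norm_nonneg _)
        _ = _ := by field_simp
    have e2 := Finset.sum_mul_sq_le_sq_mul_sq I (fun n : ℕ => |a n| / √(n : ℝ))
      (fun n : ℕ => |bw z n| * √(n : ℝ) * ‖xn n‖)
    have e3 : ‖∑ n ∈ I, (w n : ℂ) * xn n‖ ^ 2
        ≤ (∑ n ∈ I, (|a n| / √(n : ℝ)) * (|bw z n| * √(n : ℝ) * ‖xn n‖)) ^ 2 :=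
      pow_le_pow_left₀ (norm_nonneg _) e1 2
    refine e3.trans (e2.trans (le_of_eq ?_))
    congr 1
    · apply Finset.sum_congr rfl
      intro n _
      rw [div_pow, sq_abs, Real.sq_sqrt (Nat.cast_nonneg n)]
    · apply Finset.sum_congr rfl
      intro n _
      rw [mul_pow, mul_pow, sq_abs, Real.sq_sqrt (Nat.cast_nonneg n)]
      ring
  have hwin := window_avg κ χ hχ1 hχm ρ c hc hz hx0 hρ1 hρ2 hKE1 hKE2 ha1 hh ha2 ha2' hsp
  have hA : ∑ n ∈ I, (a n) ^ 2 / n ≤ A2 := by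
    refine le_trans ?_ hA2
    exact Finset.sum_le_sum_of_subset_of_nonneg hIsub (fun n _ _ => by positivity)
  have hA0 : 0 ≤ ∑ n ∈ I, (a n) ^ 2 / n := Finset.sum_nonneg fun n _ => by positivity
  calc ((Fintype.card ι : ℝ) / 2) ^ 2 ≤ ‖∑ n ∈ I, (w n : ℂ) * xn n‖ ^ 2 :=
        pow_le_pow_left₀ (by positivity) hR 2
    _ ≤ _ := hCS
    _ ≤ _ := mul_le_mul hA hwin (Finset.sum_nonneg fun n _ => by positivity) (hA0.trans hA)

end Vale.Agent.P026.H142
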