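import Mathlib

open Finset

namespace Vale.Agent.P026.H142

/-- the weight sum over `t ⊇ U`, avoiding `Q`. -/
lemma sum_weight (Pr U Q : Finset ℕ) (hU : U ⊆ Pr) (a : ℕ → ℝ) :
    ∑ t ∈ Pr.powerset.filter (fun t => U ⊆ t),
      (∏ p ∈ t, (if p ∈ Q then 0 else a p)) * ∏ p ∈ Pr \ t, (1 - a p)
    = if Disjoint U Q then (∏ p ∈ U, a p) * ∏ p ∈ (Pr ∩ Q), (1 - a p) else 0 := by
  classical
  have h1 := Finset.prod_add (fun p => if p ∈ Q then 0 else a p)
    (fun p => if p ∈ U then 0 else (1 - a p)) Pr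
  have h2 : ∑ t ∈ Pr.powerset, (∏ p ∈ t, (if p ∈ Q then 0 else a p)) *
      ∏ p ∈ Pr \ t, (if p ∈ U then 0 else (1 - a p))
      = ∑ t ∈ Pr.powerset.filter (fun t => U ⊆ t),
      (∏ p ∈ t, (if p ∈ Q then 0 else a p)) * ∏ p ∈ Pr \ t, (1 - a p) := by
    rw [Finset.sum_filter]
    refine Finset.sum_congr rfl fun t ht => ?_
    by_cases h : U ⊆ t
    · rw [if_pos h]
      congr 1
      refine Finset.prod_congr rfl fun p hp => ?_
      rw [if_neg]
      intro hpU
      exact (Finset.mem_sdiff.1 hp).2 (h hpU)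
    · rw [if_neg h]
      obtain ⟨p, hpU, hpt⟩ := Finset.not_subset.1 h
      rw [mul_eq_zero]
      right
      exact Finset.prod_eq_zero (Finset.mem_sdiff.2 ⟨hU hpU, hpt⟩) (by rw [if_pos hpU])
  rw [← h2, ← h1]
  by_cases hd : Disjoint U Q
  · rw [if_pos hd]
    have h3 : ∀ p ∈ Pr, ((if p ∈ Q then 0 else a p) + (if p ∈ U then 0 else (1 - a p)))
        = (if p ∈ U then a p else 1) * (if p ∈ Q then (1 - a p) else 1) := by
      intro p _
      by_cases hpQ : p ∈ Q
      · have hpU : p ∉ U := fun h => (Finset.disjoint_left.1 hd h) hpQ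
        simp [hpQ, hpU]
      · by_cases hpU : p ∈ U
        · simp [hpQ, hpU]
        · simp [hpQ, hpU]
    rw [Finset.prod_congr rfl h3, Finset.prod_mul_distrib]
    congr 1
    · rw [← Finset.prod_filter]
      congr 1
      ext p
      simp only [Finset.mem_filter]
      exact ⟨fun h => h.2, fun h => ⟨hU h, h⟩⟩
    · rw [← Finset.prod_filter]
      congr 1
  · rw [if_neg hd]
    rw [Finset.not_disjoint_iff] at hd
    obtain ⟨p, hpU, hpQ⟩ := hd
    exact Finset.prod_eq_zero (hU hpU) (by simp [hpU, hpQ])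

/-- The model sum. -/
noncomputable def PhiM (N : ℕ) (a w : ℕ → ℝ) (Q : Finset ℕ) : ℝ :=
  ∑ t ∈ ((Icc 1 N).filter Nat.Prime).powerset,
    ((∏ p ∈ t, (if p ∈ Q then 0 else a p)) * ∏ p ∈ ((Icc 1 N).filter Nat.Prime) \ t, (1 - a p)) *
      (∑ d ∈ Icc 1 N, if d.primeFactors ⊆ t then w d else 0) ^ 2

lemma primeFactors_subset_Pr {N d : ℕ} (hd : d ∈ Icc 1 N) :
    d.primeFactors ⊆ (Icc 1 N).filter Nat.Prime := by
  intro p hp
  rw [Finset.mem_Icc] at hd
  have h1 := Nat.prime_of_mem_primeFactors hp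
  have h2 := Nat.le_of_dvd hd.1 (Nat.dvd_of_mem_primeFactors hp)
  exact Finset.mem_filter.2 ⟨Finset.mem_Icc.2 ⟨h1.one_lt.le, h2.trans hd.2⟩, h1⟩

lemma PhiM_eq (N : ℕ) (a w : ℕ → ℝ) (Q : Finset ℕ) :
    PhiM N a w Q = ∑ d ∈ Icc 1 N, ∑ e ∈ Icc 1 N, w d * w e *
      (if Disjoint (d.primeFactors ∪ e.primeFactors) Q then
        (∏ p ∈ d.primeFactors ∪ e.primeFactors, a p) *
          ∏ p ∈ ((Icc 1 N).filter Nat.Prime ∩ Q), (1 - a p) else 0) := by
  classical
  unfold PhiM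
  have h1 : ∀ t : Finset ℕ, (∑ d ∈ Icc 1 N, if d.primeFactors ⊆ t then w d else 0) ^ 2
      = ∑ d ∈ Icc 1 N, ∑ e ∈ Icc 1 N, if d.primeFactors ∪ e.primeFactors ⊆ t then w d * w e else 0 := by
    intro t
    rw [sq, Finset.sum_mul_sum]
    refine Finset.sum_congr rfl fun d _ => Finset.sum_congr rfl fun e _ => ?_
    by_cases hd : d.primeFactors ⊆ t
    · by_cases he : e.primeFactors ⊆ t
      · rw [if_pos hd, if_pos he, if_pos (Finset.union_subset hd he)]
      · rw [if_neg he, mul_zero, if_neg]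
        exact fun h => he (Finset.union_subset_iff.1 h).2
    · rw [if_neg hd, zero_mul, if_neg]
      exact fun h => hd (Finset.union_subset_iff.1 h).1
  simp_rw [h1, Finset.mul_sum]
  rw [Finset.sum_comm]
  refine Finset.sum_congr rfl fun d hd => ?_
  rw [Finset.sum_comm]
  refine Finset.sum_congr rfl fun e he => ?_
  have hU : d.primeFactors ∪ e.primeFactors ⊆ (Icc 1 N).filter Nat.Prime :=
    Finset.union_subset (primeFactors_subset_Pr hd) (primeFactors_subset_Pr he)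
  rw [← sum_weight _ _ Q hU a, Finset.sum_filter, Finset.mul_sum]
  refine Finset.sum_congr rfl fun t _ => ?_
  by_cases h : d.primeFactors ∪ e.primeFactors ⊆ t
  · rw [if_pos h, if_pos h]; ring
  · rw [if_neg h, if_neg h]; ring

lemma PhiM_nonneg (N : ℕ) {a w : ℕ → ℝ} (ha0 : ∀ p : ℕ, p.Prime → 0 ≤ a p)
    (ha1 : ∀ p : ℕ, p.Prime → a p ≤ 1) (Q : Finset ℕ) : 0 ≤ PhiM N a w Q := by
  unfold PhiM
  refine Finset.sum_nonneg fun t ht => ?_
  rw [Finset.mem_powerset] at ht
  refine mul_nonneg (mul_nonneg (Finset.prod_nonneg fun p hp => ?_) (Finset.prod_nonneg fun p hp => ?_))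
    (sq_nonneg _)
  · have hpp := (Finset.mem_filter.1 (ht hp)).2
    split_ifs
    · exact le_rfl
    · exact ha0 p hpp
  · have hpp := (Finset.mem_filter.1 (Finset.mem_sdiff.1 hp).1).2
    linarith [ha1 p hpp]

lemma PhiM_le (N : ℕ) {a w : ℕ → ℝ} (ha0 : ∀ p : ℕ, p.Prime → 0 ≤ a p)
    (ha1 : ∀ p : ℕ, p.Prime → a p ≤ 1) (Q : Finset ℕ) : PhiM N a w Q ≤ PhiM N a w ∅ := by
  unfold PhiM
  refine Finset.sum_le_sum fun t ht => ?_
  rw [Finset.mem_powerset] at ht
  refine mul_le_mul_of_nonneg_right (mul_le_mul_of_nonneg_right ?_ ?_) (sq_nonneg _)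
  · refine Finset.prod_le_prod (fun p hp => ?_) (fun p hp => ?_)
    · have hpp := (Finset.mem_filter.1 (ht hp)).2
      split_ifs
      · exact le_rfl
      · exact ha0 p hpp
    · have hpp := (Finset.mem_filter.1 (ht hp)).2
      simp only [Finset.notMem_empty, if_false]
      split_ifs
      · exact ha0 p hpp
      · exact le_rfl
  · refine Finset.prod_nonneg fun p hp => ?_
    have hpp := (Finset.mem_filter.1 (Finset.mem_sdiff.1 hp).1).2
    linarith [ha1 p hpp]

lemma nu_lcm {nu : ArithmeticFunction ℝ} (hm : nu.IsMultiplicative) {d e : ℕ} (hd : Squarefree d)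
    (he : Squarefree e) : nu (Nat.lcm d e) = ∏ p ∈ d.primeFactors ∪ e.primeFactors, nu p := by
  have hsq : Squarefree (Nat.lcm d e) := by
    have hd0 := hd.ne_zero
    have he0 := he.ne_zero
    rw [Nat.squarefree_iff_factorization_le_one (Nat.lcm_ne_zero hd0 he0)]
    intro p
    rw [Nat.factorization_lcm hd0 he0]
    have h1 := (Nat.squarefree_iff_factorization_le_one hd0).1 hd p
    have h2 := (Nat.squarefree_iff_factorization_le_one he0).1 he p
    simp only [Finsupp.sup_apply]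
    exact sup_le h1 h2
  have h1 := hm.map_prod_of_subset_primeFactors (Nat.lcm d e) (Nat.lcm d e).primeFactors
    (Finset.Subset.refl _)
  rw [Nat.prod_primeFactors_of_squarefree hsq] at h1
  rw [h1]
  congr 1
  ext p
  have hd0 := hd.ne_zero
  have he0 := he.ne_zero
  simp only [Finset.mem_union, Nat.mem_primeFactors]
  constructor
  · rintro ⟨hp, hdvd, _⟩
    have h2 : p ∣ d * e := hdvd.trans (Nat.lcm_dvd_mul d e)
    rcases hp.dvd_mul.1 h2 with h | h
    · exact Or.inl ⟨hp, h, hd0⟩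
    · exact Or.inr ⟨hp, h, he0⟩
  · rintro (⟨hp, h, _⟩ | ⟨hp, h, _⟩)
    · exact ⟨hp, h.trans (Nat.dvd_lcm_left d e), Nat.lcm_ne_zero hd0 he0⟩
    · exact ⟨hp, h.trans (Nat.dvd_lcm_right d e), Nat.lcm_ne_zero hd0 he0⟩

/-- Positivity: the sieve form restricted to `d, e` coprime to `q` times the density of integers
coprime to `q` is at most the full form. -/
theorem form_coprime_le {nu : ArithmeticFunction ℝ} (hm : nu.IsMultiplicative)
    (hp0 : ∀ p : ℕ, p.Prime → 0 ≤ nu p) (hp1 : ∀ p : ℕ, p.Prime → nu p < 1)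
    {N q : ℕ} (hq : q ≠ 0) (w : ℕ → ℝ) (hw : ∀ d, w d ≠ 0 → Squarefree d) :
    (0 ≤ ∑ d ∈ Icc 1 N, ∑ e ∈ Icc 1 N, if (Nat.Coprime d q ∧ Nat.Coprime e q) then
        w d * w e * nu (Nat.lcm d e) else 0) ∧
    (∏ p ∈ (Icc 1 N).filter Nat.Prime ∩ q.primeFactors, (1 - nu p)) *
      (∑ d ∈ Icc 1 N, ∑ e ∈ Icc 1 N, if (Nat.Coprime d q ∧ Nat.Coprime e q) then
        w d * w e * nu (Nat.lcm d e) else 0)
      ≤ ∑ d ∈ Icc 1 N, ∑ e ∈ Icc 1 N, w d * w e * nu (Nat.lcm d e) := by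
  classical
  have hc : 0 < ∏ p ∈ (Icc 1 N).filter Nat.Prime ∩ q.primeFactors, (1 - nu p) := by
    refine Finset.prod_pos fun p hp => ?_
    have hpp := (Finset.mem_filter.1 (Finset.mem_inter.1 hp).1).2
    linarith [hp1 p hpp]
  have e1 : PhiM N nu w q.primeFactors = (∏ p ∈ (Icc 1 N).filter Nat.Prime ∩ q.primeFactors, (1 - nu p)) *
      (∑ d ∈ Icc 1 N, ∑ e ∈ Icc 1 N, if (Nat.Coprime d q ∧ Nat.Coprime e q) then
        w d * w e * nu (Nat.lcm d e) else 0) := by
    rw [PhiM_eq, Finset.mul_sum]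
    refine Finset.sum_congr rfl fun d hd => ?_
    rw [Finset.mul_sum]
    refine Finset.sum_congr rfl fun e he => ?_
    by_cases hd0 : w d = 0
    · simp [hd0]
    by_cases he0 : w e = 0
    · simp [he0]
    have hd1 := (Finset.mem_Icc.1 hd).1
    have he1 := (Finset.mem_Icc.1 he).1
    have hiff : Disjoint (d.primeFactors ∪ e.primeFactors) q.primeFactors
        ↔ (Nat.Coprime d q ∧ Nat.Coprime e q) := by
      rw [Finset.disjoint_union_left, Nat.disjoint_primeFactors (by omega) hq,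
        Nat.disjoint_primeFactors (by omega) hq]
    by_cases h : Disjoint (d.primeFactors ∪ e.primeFactors) q.primeFactors
    · rw [if_pos h, if_pos (hiff.1 h), nu_lcm hm (hw d hd0) (hw e he0)]
      ring
    · rw [if_neg h, if_neg (fun h' => h (hiff.2 h'))]
      ring
  have e2 : PhiM N nu w ∅ = ∑ d ∈ Icc 1 N, ∑ e ∈ Icc 1 N, w d * w e * nu (Nat.lcm d e) := by
    rw [PhiM_eq]
    refine Finset.sum_congr rfl fun d hd => ?_
    refine Finset.sum_congr rfl fun e he => ?_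
    by_cases hd0 : w d = 0
    · simp [hd0]
    by_cases he0 : w e = 0
    · simp [he0]
    rw [if_pos (Finset.disjoint_empty_right _), nu_lcm hm (hw d hd0) (hw e he0)]
    simp
  have h1 := PhiM_nonneg N (w := w) hp0 (fun p hp => (hp1 p hp).le) q.primeFactors
  have h2 := PhiM_le N (w := w) hp0 (fun p hp => (hp1 p hp).le) q.primeFactors
  constructor
  · rw [e1] at h1
    exact nonneg_of_mul_nonneg_right h1 hc
  · rw [← e1, ← e2]; exact h2

end Vale.Agent.P026.H142
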