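import Mathlib

namespace Vale.Agent.P026.H142

open Finset DirichletCharacter

theorem sum_range_eq_sum_zmod {N : ℕ} [NeZero N] (f : ZMod N → ℂ) :
    ∑ a ∈ range N, f (a : ZMod N) = ∑ x : ZMod N, f x := by
  apply Finset.sum_nbij' (fun a : ℕ => (a : ZMod N)) (fun x : ZMod N => x.val)
  · intro a _; exact Finset.mem_univ _
  · intro x _; exact Finset.mem_range.mpr (ZMod.val_lt x)
  · intro a ha
    exact ZMod.val_cast_of_lt (Finset.mem_range.mp ha)
  · intro x _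
    exact ZMod.natCast_zmod_val x
  · intro a _; rfl

theorem changeLevel_natCast {q N : ℕ} [NeZero N] (h : q ∣ N) (χ : DirichletCharacter ℂ q) {n : ℕ}
    (hn : n.Coprime N) : changeLevel h χ (n : ZMod N) = χ (n : ZMod q) := by
  have h1 : IsCoprime (n : ℤ) (N : ℤ) := Nat.isCoprime_iff_coprime.mpr hn
  have := changeLevel_eq_cast_of_dvd' χ h (a := (n : ℤ)) h1
  simpa using this

theorem conj_char {q : ℕ} (χ : DirichletCharacter ℂ q) (n : ℕ) :
    (starRingEnd ℂ) (χ (n : ZMod q)) = χ⁻¹ (n : ZMod q) :=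
  MulChar.star_apply' χ _

/-- mean of `χ₁ \bar χ₂` over a period vanishes for distinct primitive characters. -/
theorem pair_sum_zero {q₁ q₂ : ℕ} (h1 : 0 < q₁) (h2 : 0 < q₂) (χ₁ : DirichletCharacter ℂ q₁)
    (χ₂ : DirichletCharacter ℂ q₂) (p1 : χ₁.IsPrimitive) (p2 : χ₂.IsPrimitive)
    (hne : (⟨q₁, χ₁⟩ : Σ q : ℕ, DirichletCharacter ℂ q) ≠ ⟨q₂, χ₂⟩) :
    ∑ a ∈ range (q₁ * q₂), χ₁ (a : ZMod q₁) * (starRingEnd ℂ) (χ₂ (a : ZMod q₂)) = 0 := by
  have : NeZero q₁ := ⟨h1.ne'⟩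
  have : NeZero q₂ := ⟨h2.ne'⟩
  have : NeZero (q₁ * q₂) := ⟨(Nat.mul_pos h1 h2).ne'⟩
  set Ψ : DirichletCharacter ℂ (q₁ * q₂) :=
    changeLevel (dvd_mul_right q₁ q₂) χ₁ * (changeLevel (dvd_mul_left q₂ q₁) χ₂)⁻¹ with hΨ
  have hval : ∀ a : ℕ, χ₁ (a : ZMod q₁) * (starRingEnd ℂ) (χ₂ (a : ZMod q₂)) = Ψ (a : ZMod (q₁ * q₂)) := by
    intro a
    by_cases hc : a.Coprime (q₁ * q₂)
    · rw [hΨ, MulChar.mul_apply, changeLevel_natCast _ _ hc, ← conj_char, changeLevel_natCast _ _ hc]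
    · have hz : Ψ (a : ZMod (q₁ * q₂)) = 0 := by
        apply MulChar.map_nonunit
        rw [ZMod.isUnit_iff_coprime]
        exact hc
      rw [hz]
      rw [Nat.coprime_mul_iff_right] at hc
      by_cases hc1 : a.Coprime q₁
      · have hc2 : ¬ a.Coprime q₂ := fun h => hc ⟨hc1, h⟩
        have : χ₂ (a : ZMod q₂) = 0 := by
          apply MulChar.map_nonunit
          rw [ZMod.isUnit_iff_coprime]
          exact hc2
        rw [this]; simp
      · have : χ₁ (a : ZMod q₁) = 0 := by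
          apply MulChar.map_nonunit
          rw [ZMod.isUnit_iff_coprime]
          exact hc1
        rw [this]; simp
  rw [Finset.sum_congr rfl (fun a _ => hval a), sum_range_eq_sum_zmod (fun x => Ψ x)]
  apply MulChar.sum_eq_zero_of_ne_one
  intro hΨ1
  apply hne
  have heq : changeLevel (dvd_mul_right q₁ q₂) χ₁ = changeLevel (dvd_mul_left q₂ q₁) χ₂ := by
    rw [hΨ] at hΨ1
    exact mul_inv_eq_one.mp hΨ1
  have hq : q₁ = q₂ := by
    have e1 := conductor_changeLevel (χ := χ₁) (dvd_mul_right q₁ q₂)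
    have e2 := conductor_changeLevel (χ := χ₂) (dvd_mul_left q₂ q₁)
    rw [heq] at e1
    rw [(isPrimitive_def _).mp p1] at e1
    rw [(isPrimitive_def _).mp p2] at e2
    rw [← e1, e2]
  subst hq
  congr 1
  exact changeLevel_injective (dvd_mul_right q₁ q₁) heq

theorem single_sum_zero {q : ℕ} (hq : 1 < q) (χ : DirichletCharacter ℂ q) (hχ : χ.IsPrimitive) :
    ∑ a ∈ range q, χ (a : ZMod q) = 0 := by
  have : NeZero q := ⟨by omega⟩
  rw [sum_range_eq_sum_zmod (fun x => χ x)]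
  apply MulChar.sum_eq_zero_of_ne_one
  intro h1
  rw [isPrimitive_def, h1, conductor_one] at hχ
  omega

end Vale.Agent.P026.H142
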