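import Mathlib
import Vale.Agent.P026.H142.Dual
import Vale.Agent.P026.H142.Pair
import Vale.Agent.P026.H392.KEmain
import Vale.Agent.P026.H267.Detect2

namespace Vale.Agent.P026.H142

open Finset Filter Topology Vale.Agent.P026.H392 Vale.Agent.P026.H267

/-- `KE` with an arbitrary large shift `M₀`. -/
theorem KE_ge {C c : ℝ} (hC : 0 < C) (hc : 0 < c) (hVK : VKSum C c) {A : ℝ} (hA : 1 ≤ A) :
    ∃ κ d₀ M₁ : ℝ, 10 ≤ κ ∧ 0 < d₀ ∧ d₀ ≤ 1/4 ∧ 1 ≤ M₁ ∧ ∀ M₀, M₁ ≤ M₀ →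
      ∀ Q T d : ℝ, 1 ≤ Q → 3 ≤ T → 0 ≤ d → d ≤ d₀ →
      ∀ q : ℕ, 0 < q → (q:ℝ) ≤ Q^2 →
      ∀ ψ : ℕ → ℂ, (∀ n, ‖ψ n‖ ≤ 1) → (∀ n, ψ (n + q) = ψ n) →
      ∀ s : ℂ, 1 - 2 * d ≤ s.re → s.re ≤ 2 → |s.im| ≤ 4 * T →
      ∃ ℓ : ℂ, Tendsto (FF q ψ s) atTop (𝓝 ℓ) ∧
        ∀ x : ℝ, Real.exp (κ * MM M₀ Q T d) ≤ x →
          ‖(∑ n ∈ Finset.Icc 1 ⌊x⌋₊, ψ n * pw s n) - mean q ψ * (∫ u in (1:ℝ)..x, pw s u) - ℓ‖
            ≤ (MM M₀ Q T d) ^ (-A) * Real.exp (-A * κ * d * MM M₀ Q T d) := by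
  obtain ⟨κ, d₀, M₁, hκ, hd₀, hd₀', hM₁, h⟩ := KE hC hc hVK hA
  refine ⟨κ, d₀, M₁, hκ, hd₀, hd₀', hM₁, ?_⟩
  intro M₀ hM₀ Q T d hQ hT hd hdd q hq hqQ ψ hψ hper s hs1 hs2 him
  set Q' := Q * Real.exp (M₀ - M₁) with hQ'
  have he : 1 ≤ Real.exp (M₀ - M₁) := Real.one_le_exp (by linarith)
  have hQQ' : Q ≤ Q' := by
    rw [hQ']; exact le_mul_of_one_le_right (by linarith) he
  have hMM : MM M₁ Q' T d = MM M₀ Q T d := by
    unfold MM LL
    rw [hQ', Real.log_mul (by linarith) (Real.exp_pos _).ne', Real.log_exp]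
    ring
  have := h Q' T d (hQ.trans hQQ') hT hd hdd q hq
    (hqQ.trans (pow_le_pow_left₀ (by linarith) hQQ' 2)) ψ hψ hper s hs1 hs2 him
  rw [hMM] at this
  exact this

/-- pairs (modulus, character) -/
abbrev PC := Σ q : ℕ, DirichletCharacter ℂ q

/-- values at natural numbers -/
noncomputable def chiv (k : PC) (n : ℕ) : ℂ := k.2 (n : ZMod k.1)

theorem norm_chiv_le (k : PC) (n : ℕ) : ‖chiv k n‖ ≤ 1 := DirichletCharacter.norm_le_one _ _

theorem chiv_mul (k : PC) (m n : ℕ) : chiv k (m * n) = chiv k m * chiv k n := by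
  unfold chiv; push_cast; exact map_mul _ _ _

theorem chiv_per (k : PC) (n : ℕ) : chiv k (n + k.1) = chiv k n := by
  unfold chiv; simp

theorem chiv_one (k : PC) : chiv k 1 = 1 := by
  unfold chiv; simp

theorem chiv_level_one {k : PC} (h : k.1 = 1) (n : ℕ) : chiv k n = 1 := by
  obtain ⟨q, χ⟩ := k
  simp only at h
  subst h
  unfold chiv
  have h1 : ((n : ℕ) : ZMod 1) = 1 := Subsingleton.elim _ _
  simp [h1]

/-- The zero condition in terms of the regularised partial sums. -/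
def IsZ (k : PC) (ρ : ℂ) : Prop :=
  ∀ ℓ : ℂ, Tendsto (FF k.1 (chiv k) ρ) atTop (𝓝 ℓ) → ℓ = if k.1 = 1 then 1 / (1 - ρ) else 0

theorem mean_one : mean 1 (fun _ => (1 : ℂ)) = 1 := by simp [mean]

theorem pw_nat (s : ℂ) (n : ℕ) : pw s (n : ℝ) = (n : ℂ) ^ (-s) := by
  unfold pw; push_cast; rfl

/-- KE for the pair kernels, equal labels. -/
theorem ke_equal {s ℓ : ℂ} (hs : s ≠ 1) {x0 η : ℝ} (hx0 : 0 < x0)
    (h : ∀ x : ℝ, x0 ≤ x → ‖(∑ n ∈ Finset.Icc 1 ⌊x⌋₊, (fun _ => (1:ℂ)) n * pw s n)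
      - mean 1 (fun _ => (1 : ℂ)) * (∫ u in (1:ℝ)..x, pw s u) - ℓ‖ ≤ η) :
    ∃ ℓ' : ℂ, ∀ x : ℝ, x0 ≤ x → ‖∑ m ∈ Ioc 0 ⌊x⌋₊, (m : ℂ) ^ (-s) - ℓ' - (x : ℂ) ^ (1 - s) / (1 - s)‖ ≤ η := by
  refine ⟨ℓ - 1 / (1 - s), fun x hx => ?_⟩
  have h1 := h x hx
  have hx1 : 0 < x := lt_of_lt_of_le hx0 hx
  have hs1 : 1 - s ≠ 0 := sub_ne_zero.mpr (Ne.symm hs)
  rw [mean_one, integral_pw hs one_pos hx1] at h1
  have e1 : pw (s - 1) x = (x : ℂ) ^ (1 - s) := by unfold pw; congr 1; ring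
  have e2 : pw (s - 1) 1 = 1 := by unfold pw; simp
  rw [e1, e2] at h1
  have e3 : (∑ n ∈ Finset.Icc 1 ⌊x⌋₊, (fun _ => (1:ℂ)) n * pw s n) = ∑ m ∈ Ioc 0 ⌊x⌋₊, (m : ℂ) ^ (-s) := by
    apply Finset.sum_congr rfl
    intro n _
    rw [pw_nat, one_mul]
  rw [e3] at h1
  refine le_trans (le_of_eq ?_) h1
  congr 1
  field_simp
  ring

/-- Detection at a zero. -/
theorem detect_zero {κ d M : ℝ} (hκ : 10 ≤ κ) (hd : 0 ≤ d) (hM1 : 16 * (2 * κ + 7) ≤ M)
    (hM3 : 1536 * CE ≤ M) {k : PC} {ρ : ℂ} (hq : 0 < k.1) (hprim : k.2.IsPrimitive)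
    (hρ1 : 1 - d ≤ ρ.re) (hρ2 : ρ.re < 1) (hz : IsZ k ρ)
    (hpole : k.1 = 1 → Real.exp ((3 * κ + 8) * d * M) ≤ |ρ.im|)
    (hKE : ∃ ℓ : ℂ, Tendsto (FF k.1 (chiv k) ρ) atTop (𝓝 ℓ) ∧
        ∀ x : ℝ, Real.exp (κ * M) ≤ x →
          ‖(∑ n ∈ Finset.Icc 1 ⌊x⌋₊, chiv k n * pw ρ n) - mean k.1 (chiv k) * (∫ u in (1:ℝ)..x, pw ρ u) - ℓ‖
            ≤ M ^ (-6 : ℝ) * Real.exp (-6 * κ * d * M)) :
    1 / 2 ≤ ‖∑ n ∈ Ioc ⌊Real.exp ((κ + 3) * M)⌋₊ ⌊Real.exp ((3 * κ + 8) * M)⌋₊,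
      ((aw (Real.exp ((κ + 3) * M)) (Real.exp ((2 * κ + 6) * M)) n : ℝ) : ℂ) *
        ((bw (Real.exp M) n : ℝ) : ℂ) * (chiv k n * (n : ℂ) ^ (-ρ))‖ := by
  have hM0 : 0 < M := by nlinarith
  have hM : 1 ≤ M := by nlinarith
  obtain ⟨ℓ, hℓ, hbd⟩ := hKE
  have hℓv := hz ℓ hℓ
  set η := M ^ (-6 : ℝ) * Real.exp (-6 * κ * d * M) with hη
  have hη0 : 0 ≤ η := by positivity
  have hρ1' : ρ ≠ 1 := by intro h; rw [h] at hρ2; simp at hρ2
  have h1ρ : 1 - ρ ≠ 0 := sub_ne_zero.mpr (Ne.symm hρ1')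
  have hρ0 : ρ.re ≠ 0 ∨ True := Or.inr trivial
  set P : ℝ → ℂ := fun y => if k.1 = 1 then (y : ℂ) ^ (1 - ρ) / (1 - ρ) else 0 with hP
  set X := Real.exp ((3 * κ + 8) * M) with hX
  refine detect (z := Real.exp M) (z1 := Real.exp ((κ + 3) * M)) (z2 := Real.exp ((2 * κ + 6) * M))
    (X := X) (Y0 := Real.exp (κ * M)) (δ := d) (ε := η) ?_ ?_ ?_ ?_ ?_ hd hη0
    (fun n => chiv k n * (n : ℂ) ^ (-ρ)) ?_ ?_ ?_ P ?_ (P X) ?_ ?_ ?_
  · exact Real.one_lt_exp_iff.mpr hM0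
  · exact Real.one_le_exp (by positivity)
  · exact Real.exp_lt_exp.mpr (by nlinarith)
  · rw [← Real.exp_add, ← Real.exp_add, hX]
    exact Real.exp_le_exp.mpr (by nlinarith)
  · exact Real.exp_le_exp.mpr (by nlinarith)
  · simp [chiv_one]
  · intro m n
    rw [chiv_mul]
    push_cast
    rw [Complex.natCast_mul_natCast_cpow]
    ring
  · intro n hn
    rw [norm_mul, Complex.norm_natCast_cpow_of_pos hn]
    have hn1 : (1 : ℝ) ≤ n := by exact_mod_cast hn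
    have h1 : (n : ℝ) ^ ((-ρ).re) ≤ (n : ℝ) ^ (-(1 - d)) := by
      apply Real.rpow_le_rpow_of_exponent_le hn1
      simp; linarith
    calc ‖chiv k n‖ * (n : ℝ) ^ ((-ρ).re) ≤ 1 * (n : ℝ) ^ (-(1 - d)) :=
          mul_le_mul (norm_chiv_le k n) h1 (Real.rpow_nonneg (Nat.cast_nonneg n) _) zero_le_one
      _ = _ := one_mul _
  · intro y hy
    have hy0 : 0 < y := lt_of_lt_of_le (Real.exp_pos _) hy
    have h1 := hbd y hy
    have e3 : (∑ n ∈ Finset.Icc 1 ⌊y⌋₊, chiv k n * pw ρ n) = ∑ m ∈ Icc 1 ⌊y⌋₊, chiv k m * (m : ℂ) ^ (-ρ) := by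
      apply Finset.sum_congr rfl
      intro n _
      rw [pw_nat]
    rw [e3] at h1
    refine le_trans (le_of_eq ?_) h1
    congr 1
    by_cases hq1 : k.1 = 1
    · have hmean : mean k.1 (chiv k) = 1 := by
        unfold mean
        rw [hq1]
        simp [chiv_level_one hq1]
      rw [hmean, integral_pw hρ1' one_pos hy0, hℓv, if_pos hq1]
      have e1 : pw (ρ - 1) y = (y : ℂ) ^ (1 - ρ) := by unfold pw; congr 1; ring
      have e2 : pw (ρ - 1) 1 = 1 := by unfold pw; simp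
      rw [e1, e2]
      simp only [hP, if_pos hq1]
      field_simp
      ring
    · have hmean : mean k.1 (chiv k) = 0 := by
        unfold mean
        have : ∑ a ∈ range k.1, chiv k a = 0 := single_sum_zero (by omega) k.2 hprim
        rw [this, zero_div]
      rw [hmean, hℓv, if_neg hq1]
      simp only [hP, if_neg hq1]
      ring
  · intro D hD
    have hD0 : (0 : ℝ) < D := by exact_mod_cast hD
    have hDne : (D : ℂ) ≠ 0 := by exact_mod_cast hD0.ne'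
    by_cases hq1 : k.1 = 1
    · simp only [hP, if_pos hq1, chiv_level_one hq1, one_mul]
      have hpow : (((X / D : ℝ)) : ℂ) ^ (1 - ρ) = (X : ℂ) ^ (1 - ρ) / (D : ℂ) ^ (1 - ρ) := by
        have := Complex.div_cpow_ofReal_nonneg (Real.exp_pos ((3 * κ + 8) * M)).le hD0.le (1 - ρ)
        push_cast
        exact_mod_cast this
      have h2 : (D : ℂ) ^ (1 - ρ) = D * (D : ℂ) ^ (-ρ) := by
        rw [sub_eq_add_neg, Complex.cpow_add _ _ hDne, Complex.cpow_one]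
      have h3 : (D : ℂ) ^ (-ρ) ≠ 0 := by
        rw [Ne, Complex.cpow_eq_zero_iff]
        intro h; exact hDne h.1
      rw [hpow, h2]
      field_simp
    · simp only [hP, if_neg hq1]
      simp
  · -- smallness
    have hh2 : harm ⌊Real.exp ((2 * κ + 6) * M)⌋₊ ≤ (2 * κ + 7) * M := by
      refine (harm_le _).trans ?_
      have hpos : 0 < ⌊Real.exp ((2 * κ + 6) * M)⌋₊ := Nat.floor_pos.mpr (Real.one_le_exp (by positivity))
      have : Real.log (⌊Real.exp ((2 * κ + 6) * M)⌋₊ : ℕ) ≤ (2 * κ + 6) * M := by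
        rw [Real.log_le_iff_le_exp (by exact_mod_cast hpos)]
        exact Nat.floor_le (Real.exp_pos _).le
      nlinarith
    have hh1 : harm ⌊Real.exp M⌋₊ ≤ 2 * M := by
      refine (harm_le _).trans ?_
      have hpos : 0 < ⌊Real.exp M⌋₊ := Nat.floor_pos.mpr (Real.one_le_exp (by positivity))
      have : Real.log (⌊Real.exp M⌋₊ : ℕ) ≤ M := by
        rw [Real.log_le_iff_le_exp (by exact_mod_cast hpos)]
        exact Nat.floor_le (Real.exp_pos _).le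
      linarith
    have h01 := harm_nonneg ⌊Real.exp M⌋₊
    have h02 := harm_nonneg ⌊Real.exp ((2 * κ + 6) * M)⌋₊
    have e1 : (Real.exp ((2 * κ + 6) * M) * Real.exp M) ^ d = Real.exp ((2 * κ + 7) * d * M) := by
      rw [← Real.exp_add, ← Real.exp_mul]
      congr 1; ring
    rw [e1]
    have e2 : Real.exp (-6 * κ * d * M) * Real.exp ((2 * κ + 7) * d * M) ≤ 1 := by
      rw [← Real.exp_add]
      apply Real.exp_le_one_iff.mpr
      have : 0 ≤ d * M := by positivity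
      nlinarith
    have e3 : harm ⌊Real.exp ((2 * κ + 6) * M)⌋₊ * harm ⌊Real.exp M⌋₊ ^ 2 ≤ (2 * κ + 7) * M * (2 * M) ^ 2 := by
      gcongr
    calc η * (Real.exp ((2 * κ + 7) * d * M) * (harm ⌊Real.exp ((2 * κ + 6) * M)⌋₊ * harm ⌊Real.exp M⌋₊ ^ 2))
        = M ^ (-6 : ℝ) * (Real.exp (-6 * κ * d * M) * Real.exp ((2 * κ + 7) * d * M)) *
            (harm ⌊Real.exp ((2 * κ + 6) * M)⌋₊ * harm ⌊Real.exp M⌋₊ ^ 2) := by rw [hη]; ring
      _ ≤ M ^ (-6 : ℝ) * 1 * ((2 * κ + 7) * M * (2 * M) ^ 2) := by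
          gcongr
      _ = 4 * (2 * κ + 7) * (M ^ (-6 : ℝ) * M ^ 3) := by ring
      _ ≤ 4 * (2 * κ + 7) * (1 / M) := by
          apply mul_le_mul_of_nonneg_left _ (by positivity)
          have : M ^ (-6 : ℝ) = 1 / M ^ 6 := by
            rw [Real.rpow_neg hM0.le, one_div]; norm_cast
          rw [this, div_mul_eq_mul_div, one_mul, div_le_div_iff₀ (by positivity) hM0]
          have h3 : M ^ 3 * M = M ^ 4 := by ring
          rw [h3, one_mul]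
          exact pow_le_pow_right₀ hM (by norm_num)
      _ ≤ 1 / 4 := by
          rw [mul_one_div, div_le_div_iff₀ hM0 (by norm_num)]
          linarith
  · -- pole term
    by_cases hq1 : k.1 = 1
    · have hp := hpole hq1
      simp only [hP, if_pos hq1]
      rw [norm_div]
      have hXn : ‖(X : ℂ) ^ (1 - ρ)‖ ≤ Real.exp ((3 * κ + 8) * d * M) := by
        rw [hX, Complex.norm_cpow_eq_rpow_re_of_pos (Real.exp_pos _), ← Real.exp_mul]
        apply Real.exp_le_exp.mpr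
        have : (1 - ρ).re = 1 - ρ.re := by simp
        rw [this]
        have h3 : 0 ≤ (3 * κ + 8) * M := by positivity
        nlinarith
      have him : |ρ.im| ≤ ‖1 - ρ‖ := by
        have := Complex.abs_im_le_norm (1 - ρ)
        simpa using this
      have hpos : 0 < ‖1 - ρ‖ := norm_pos_iff.mpr h1ρ
      have h5 : ‖(X : ℂ) ^ (1 - ρ)‖ / ‖1 - ρ‖ ≤ 1 := by
        rw [div_le_one hpos]
        exact hXn.trans (hp.trans him)
      have h6 : |mix (Real.exp M) (Real.exp ((κ + 3) * M)) (Real.exp ((2 * κ + 6) * M))| ≤ 1 / 4 := by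
        refine (abs_mix_le (Real.one_lt_exp_iff.mpr hM0) (Real.one_le_exp (by positivity))
          (Real.exp_lt_exp.mpr (by nlinarith)) (Real.exp_le_exp.mpr (by nlinarith))).trans ?_
        rw [← Real.exp_sub, Real.log_exp, Real.log_exp, Real.log_exp]
        have hCE := CE_pos
        have h7 : 0 < ((2 * κ + 6) * M - (κ + 3) * M) * M := by
          have : (2 * κ + 6) * M - (κ + 3) * M = (κ + 3) * M := by ring
          rw [this]; positivity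
        rw [div_le_div_iff₀ h7 (by norm_num)]
        have h8 : 1 + (2 * κ + 6) * M ≤ 3 * ((κ + 3) * M) := by nlinarith
        calc 128 * CE * (1 + (2 * κ + 6) * M) * 4 ≤ 128 * CE * (3 * ((κ + 3) * M)) * 4 := by gcongr
          _ = (κ + 3) * M * (1536 * CE) := by ring
          _ ≤ (κ + 3) * M * M := by
              apply mul_le_mul_of_nonneg_left hM3; positivity
          _ = _ := by ring
      calc _ ≤ 1 * (1 / 4 : ℝ) := mul_le_mul h5 h6 (abs_nonneg _) zero_le_one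
        _ = 1 / 4 := one_mul _
    · simp only [hP, if_neg hq1]
      simp

end Vale.Agent.P026.H142
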