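import Mathlib
import Vale.Agent.P026.H142.Spaced
import Vale.Agent.P026.H267.Defs

namespace Vale.Agent.P026.H142

open Finset Filter Topology Vale.Agent.P026.H392 Vale.Agent.P026.H267

/-- forget positivity of the modulus -/
def toPC (x : CharIdx) : PC := ⟨(x.1 : ℕ), x.2⟩

theorem toPC_injective : Function.Injective toPC := by
  rintro ⟨q₁, χ₁⟩ ⟨q₂, χ₂⟩ h
  unfold toPC at h
  simp only [Sigma.mk.injEq] at h
  obtain ⟨h1, h2⟩ := h
  have h3 : q₁ = q₂ := PNat.coe_injective h1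
  subst h3
  rw [heq_eq_eq] at h2
  rw [h2]

/-- The link between the regularised partial sums and zeros of the `L`-function. -/
def LinkL : Prop :=
  ∀ x : CharIdx, x.2.IsPrimitive → ∀ ρ : ℂ, 1 / 2 < ρ.re → ρ ≠ 1 → Lf x ρ = 0 → IsZ (toPC x) ρ

/-- Bound for spaced families. -/
def SpacedBound (C d0 M0 : ℝ) : Prop :=
  ∀ Q : ℝ, 1 ≤ Q → ∀ T : ℝ, 3 ≤ T → ∀ d : ℝ, 0 ≤ d → d ≤ d0 →
    ∀ J : Finset (CharIdx × ℂ),
      (∀ x ∈ J, InRegion Q T d x ∧ Lf x.1 x.2 = 0 ∧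
        ((x.1.1 : ℕ) = 1 → C * Real.exp (C * d * MM M0 Q T d) ≤ |x.2.im|)) →
      (∀ x ∈ J, ∀ y ∈ J, x ≠ y → x.1 = y.1 → 1 ≤ MM M0 Q T d * |x.2.im - y.2.im|) →
      (J.card : ℝ) ≤ C * Real.exp (C * d * MM M0 Q T d)

theorem rpow_neg_six {M : ℝ} (hM : 0 < M) : M ^ (-6 : ℝ) = 1 / M ^ 6 := by
  rw [Real.rpow_neg hM.le, one_div]; norm_cast

/-- the numerical conclusion from `duality`. -/
theorem final_numeric {κ d M R CBc CEc CSc : ℝ} (hκ : 10 ≤ κ) (hd : 0 ≤ d) (hM : 1 ≤ M)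
    (hM2 : 9216 * CBc ≤ M) (hR : 0 ≤ R) (hCB : 0 < CBc) (hCE : 0 < CEc) (hCS : 0 ≤ CSc)
    (h : (R / 2) ^ 2 ≤ (36 * CBc) *
      (R * (64 * CEc * (1 + M) / M ^ 2
          * (Real.exp (2 * d * ((3 * κ + 8) * M + M)) * (((3 * κ + 8) * M - (κ + 2) * M) + 4 * CSc * M ^ 2 / M)))
        + R ^ 2 * (2 * (M ^ (-6 : ℝ) * Real.exp (-6 * κ * d * M)) * (Real.exp (4 * d * M) * (1 + M) ^ 3)))) :
    R ≤ 8 * (36 * CBc) * (128 * CEc * (2 * κ + 6 + 4 * CSc)) * Real.exp ((6 * κ + 18) * d * M) := by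
  have hM0 : 0 < M := by linarith
  rw [rpow_neg_six hM0] at h
  -- second term
  have e1 : Real.exp (-6 * κ * d * M) * Real.exp (4 * d * M) ≤ 1 := by
    rw [← Real.exp_add]
    apply Real.exp_le_one_iff.mpr
    have : 0 ≤ d * M := by positivity
    nlinarith
  have e2 : (36 * CBc) * (2 * (1 / M ^ 6 * Real.exp (-6 * κ * d * M)) * (Real.exp (4 * d * M) * (1 + M) ^ 3)) ≤ 1 / 8 := by
    have h1 : (1 + M) ^ 3 ≤ 8 * M ^ 3 := by
      calc (1 + M) ^ 3 ≤ (2 * M) ^ 3 := pow_le_pow_left₀ (by linarith) (by linarith) 3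
        _ = 8 * M ^ 3 := by ring
    calc (36 * CBc) * (2 * (1 / M ^ 6 * Real.exp (-6 * κ * d * M)) * (Real.exp (4 * d * M) * (1 + M) ^ 3))
        = (72 * CBc) * (1 / M ^ 6) * (Real.exp (-6 * κ * d * M) * Real.exp (4 * d * M)) * (1 + M) ^ 3 := by ring
      _ ≤ (72 * CBc) * (1 / M ^ 6) * 1 * (8 * M ^ 3) := by gcongr
      _ = 576 * CBc / M ^ 3 := by field_simp; ring
      _ ≤ 576 * CBc / M := by
          apply div_le_div_of_nonneg_left (by positivity) hM0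
          calc M = M ^ 1 := (pow_one M).symm
            _ ≤ M ^ 3 := pow_le_pow_right₀ hM (by norm_num)
      _ ≤ 1 / 8 := by
          rw [div_le_div_iff₀ hM0 (by norm_num)]
          linarith
  -- first term
  set G := Real.exp ((6 * κ + 18) * d * M) with hG
  have e3 : 64 * CEc * (1 + M) / M ^ 2
          * (Real.exp (2 * d * ((3 * κ + 8) * M + M)) * (((3 * κ + 8) * M - (κ + 2) * M) + 4 * CSc * M ^ 2 / M))
        ≤ 128 * CEc * (2 * κ + 6 + 4 * CSc) * G := by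
    have h1 : Real.exp (2 * d * ((3 * κ + 8) * M + M)) = G := by rw [hG]; congr 1; ring
    have h2 : ((3 * κ + 8) * M - (κ + 2) * M) + 4 * CSc * M ^ 2 / M = (2 * κ + 6 + 4 * CSc) * M := by
      field_simp; ring
    rw [h1, h2]
    have h3 : 64 * CEc * (1 + M) / M ^ 2 ≤ 128 * CEc / M := by
      rw [div_le_div_iff₀ (by positivity) hM0]
      have h5 : (1 + M) * M ≤ 2 * M ^ 2 := by nlinarith
      calc 64 * CEc * (1 + M) * M = 64 * CEc * ((1 + M) * M) := by ring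
        _ ≤ 64 * CEc * (2 * M ^ 2) := mul_le_mul_of_nonneg_left h5 (by positivity)
        _ = _ := by ring
    calc 64 * CEc * (1 + M) / M ^ 2 * (G * ((2 * κ + 6 + 4 * CSc) * M))
        ≤ 128 * CEc / M * (G * ((2 * κ + 6 + 4 * CSc) * M)) := by
          apply mul_le_mul_of_nonneg_right h3; positivity
      _ = 128 * CEc * (2 * κ + 6 + 4 * CSc) * G := by field_simp
  have e4 : (R / 2) ^ 2 ≤ (36 * CBc) * (R * (128 * CEc * (2 * κ + 6 + 4 * CSc) * G)) + R ^ 2 * (1 / 8) := by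
    refine h.trans ?_
    rw [mul_add]
    apply add_le_add
    · apply mul_le_mul_of_nonneg_left _ (by positivity)
      exact mul_le_mul_of_nonneg_left e3 hR
    · calc _ = R ^ 2 * ((36 * CBc) * (2 * (1 / M ^ 6 * Real.exp (-6 * κ * d * M)) * (Real.exp (4 * d * M) * (1 + M) ^ 3))) := by ring
        _ ≤ _ := mul_le_mul_of_nonneg_left e2 (sq_nonneg R)
  rcases hR.eq_or_lt with h0 | h0
  · rw [← h0]; positivity
  · have e5 : R * R ≤ R * (8 * (36 * CBc) * (128 * CEc * (2 * κ + 6 + 4 * CSc)) * G) := by nlinarith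
    exact le_of_mul_le_mul_left e5 h0

/-- second moment of the first weight for our choice of parameters. -/
theorem A2_bound {κ M : ℝ} (hκ : 10 ≤ κ) (hM1 : 1 ≤ M) :
    ∑ n ∈ Ioc 0 ⌊Real.exp ((3 * κ + 8) * M)⌋₊,
      (aw (Real.exp ((κ + 3) * M)) (Real.exp ((2 * κ + 6) * M)) n) ^ 2 / n ≤ 36 * CB := by
  have hCB := CB_pos
  have hMpos : 0 < M := by linarith
  set a2 := (3 * κ + 8) * M with ha2
  set z1 := Real.exp ((κ + 3) * M) with hz1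
  set z2 := Real.exp ((2 * κ + 6) * M) with hz2
  have hfloorlog : Real.log (⌊Real.exp a2⌋₊ : ℕ) ≤ a2 := by
    have hpos : 0 < ⌊Real.exp a2⌋₊ := Nat.floor_pos.mpr (Real.one_le_exp (by positivity))
    rw [Real.log_le_iff_le_exp (by exact_mod_cast hpos)]
    exact Nat.floor_le (Real.exp_pos _).le
  have hz2N : z2 ≤ (⌊Real.exp a2⌋₊ : ℕ) := by
    have h1 : z2 + 1 ≤ Real.exp a2 := by
      have h3 : Real.exp a2 = z2 * Real.exp ((κ + 2) * M) := by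
        rw [hz2, ha2, ← Real.exp_add]; congr 1; ring
      have h4 : 1 ≤ z2 := Real.one_le_exp (by positivity)
      have h5 : 2 ≤ Real.exp ((κ + 2) * M) := by
        have := Real.add_one_le_exp ((κ + 2) * M)
        nlinarith
      rw [h3]
      nlinarith
    have h2 := Nat.lt_floor_add_one (Real.exp a2)
    linarith
  refine (sum_aw_sq_le (Real.one_le_exp (by positivity)) (Real.exp_lt_exp.mpr (by nlinarith)) hz2N).trans ?_
  rw [← Real.exp_sub, Real.log_exp, Real.log_exp]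
  have h1 : (2 * κ + 6) * M - (κ + 3) * M = (κ + 3) * M := by ring
  rw [h1, div_le_iff₀ (by positivity)]
  have h2 : 1 + (2 * κ + 6) * M ≤ 3 * ((κ + 3) * M) := by nlinarith
  have h3 : 1 + Real.log (⌊Real.exp a2⌋₊ : ℕ) ≤ 3 * ((κ + 3) * M) := by
    rw [ha2] at hfloorlog ⊢
    nlinarith
  have h4 : 0 ≤ 1 + Real.log (⌊Real.exp a2⌋₊ : ℕ) := by
    have : 0 ≤ Real.log (⌊Real.exp a2⌋₊ : ℕ) := Real.log_natCast_nonneg _
    linarith
  calc 4 * CB * (1 + (2 * κ + 6) * M) * (1 + Real.log (⌊Real.exp a2⌋₊ : ℕ))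
      ≤ 4 * CB * (3 * ((κ + 3) * M)) * (3 * ((κ + 3) * M)) := by gcongr
    _ = 36 * CB * ((κ + 3) * M) ^ 2 := by ring

/-- the weight used in the duality argument. -/
noncomputable def ww (κ M : ℝ) (n : ℕ) : ℝ :=
  if ⌊Real.exp ((κ + 3) * M)⌋₊ < n then
    aw (Real.exp ((κ + 3) * M)) (Real.exp ((2 * κ + 6) * M)) n * bw (Real.exp M) n else 0

theorem sum_ww {κ M : ℝ} (hκ : 10 ≤ κ) (hM1 : 1 ≤ M) (g : ℕ → ℂ) :
    ∑ n ∈ Ioc 0 ⌊Real.exp ((3 * κ + 8) * M)⌋₊, (ww κ M n : ℂ) * g n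
      = ∑ n ∈ Ioc ⌊Real.exp ((κ + 3) * M)⌋₊ ⌊Real.exp ((3 * κ + 8) * M)⌋₊,
      ((aw (Real.exp ((κ + 3) * M)) (Real.exp ((2 * κ + 6) * M)) n : ℝ) : ℂ) *
        ((bw (Real.exp M) n : ℝ) : ℂ) * g n := by
  have hle : ⌊Real.exp ((κ + 3) * M)⌋₊ ≤ ⌊Real.exp ((3 * κ + 8) * M)⌋₊ := by
    apply Nat.floor_le_floor
    exact Real.exp_le_exp.mpr (by nlinarith)
  rw [← Finset.sum_Ioc_consecutive (fun n => (ww κ M n : ℂ) * g n) (Nat.zero_le _) hle]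
  have e1 : ∑ n ∈ Ioc 0 ⌊Real.exp ((κ + 3) * M)⌋₊, (ww κ M n : ℂ) * g n = 0 := by
    apply Finset.sum_eq_zero
    intro n hn
    rw [Finset.mem_Ioc] at hn
    unfold ww
    rw [if_neg (by omega)]
    simp
  rw [e1, zero_add]
  apply Finset.sum_congr rfl
  intro n hn
  rw [Finset.mem_Ioc] at hn
  unfold ww
  rw [if_pos hn.1]
  push_cast
  ring

/-- the constant in `spaced_card`. -/
noncomputable def C2c (κ : ℝ) : ℝ := 8 * (36 * CB) * (128 * CE * (2 * κ + 6 + 4 * CS))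

theorem C2c_nonneg {κ : ℝ} (hκ : 10 ≤ κ) : 0 ≤ C2c κ := by
  have hCB := CB_pos
  have hCE := CE_pos
  have hCS := CS_nonneg
  unfold C2c
  positivity

/-- Spaced families, in terms of the KE bounds. -/
theorem spaced_card {ι : Type*} [Fintype ι] [DecidableEq ι] {κ d M : ℝ} (hκ : 10 ≤ κ) (hd : 0 ≤ d)
    (hMa : 16 * (2 * κ + 7) ≤ M) (hMc : 9216 * CB ≤ M)
    (x : ι → CharIdx) (ρ : ι → ℂ) (hre1 : ∀ r, 1 - d ≤ (ρ r).re) (hre : ∀ r, (ρ r).re < 1)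
    (hKE1 : ∀ r s, x r = x s → ∃ ℓ : ℂ, ∀ t : ℝ, Real.exp (κ * M) ≤ t →
      ‖∑ m ∈ Ioc 0 ⌊t⌋₊, (m : ℂ) ^ (-(sg (ρ r) (ρ s))) - ℓ
        - (t : ℂ) ^ (1 - sg (ρ r) (ρ s)) / (1 - sg (ρ r) (ρ s))‖ ≤ M ^ (-6 : ℝ) * Real.exp (-6 * κ * d * M))
    (hKE2 : ∀ r s, x r ≠ x s → ∃ ℓ : ℂ, ∀ t : ℝ, Real.exp (κ * M) ≤ t →
      ‖∑ m ∈ Ioc 0 ⌊t⌋₊, (chiv (toPC (x r)) m * (starRingEnd ℂ) (chiv (toPC (x s)) m))
        * (m : ℂ) ^ (-(sg (ρ r) (ρ s))) - ℓ‖ ≤ M ^ (-6 : ℝ) * Real.exp (-6 * κ * d * M))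
    (hdet : ∀ r, 1 / 2 ≤ ‖∑ n ∈ Ioc ⌊Real.exp ((κ + 3) * M)⌋₊ ⌊Real.exp ((3 * κ + 8) * M)⌋₊,
      ((aw (Real.exp ((κ + 3) * M)) (Real.exp ((2 * κ + 6) * M)) n : ℝ) : ℂ) *
        ((bw (Real.exp M) n : ℝ) : ℂ) * (chiv (toPC (x r)) n * (n : ℂ) ^ (-(ρ r)))‖)
    (hsp : ∀ r s, r ≠ s → x r = x s → 1 ≤ M * |(ρ r).im - (ρ s).im|) :
    (Fintype.card ι : ℝ) ≤ C2c κ * Real.exp ((6 * κ + 18) * d * M) := by
  classical
  have hM1 : 1 ≤ M := by nlinarith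
  have hMpos : 0 < M := by linarith
  have hz1eq : Real.exp ((κ + 2) * M + M) = Real.exp ((κ + 3) * M) := by congr 1; ring
  have hdual := duality (ι := ι) (K := CharIdx) x (fun k n => chiv (toPC k) n)
    (fun k n => norm_chiv_le _ _) (fun k m n => chiv_mul _ _ _) ρ
    (z := Real.exp M) (x0 := Real.exp (κ * M)) (η := M ^ (-6 : ℝ) * Real.exp (-6 * κ * d * M))
    (a1 := (κ + 2) * M) (a2 := (3 * κ + 8) * M) (h := M) (δ := d) (M := M)
    (Real.one_lt_exp_iff.mpr hMpos) (Real.exp_pos _) hre1 hre hKE1 hKE2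
    (by
      rw [← Real.exp_nat_mul, ← Real.exp_add]
      apply Real.exp_le_exp.mpr
      push_cast
      nlinarith) hMpos (by nlinarith) (by positivity) hsp
    (aw (Real.exp ((κ + 3) * M)) (Real.exp ((2 * κ + 6) * M))) (ww κ M) (A2_bound hκ hM1)
    (by
      intro n
      unfold ww
      split_ifs
      · rw [abs_mul]
      · rw [abs_zero]; positivity)
    (by
      intro n hn
      rw [hz1eq] at hn
      unfold ww
      rw [if_neg]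
      rw [not_lt]
      exact Nat.le_floor hn)
    (by
      intro r
      rw [sum_ww hκ hM1 (fun n => chiv (toPC (x r)) n * (n : ℂ) ^ (-(ρ r)))]
      exact hdet r)
  have hlogz : Real.log (Real.exp M) = M := Real.log_exp M
  have hz4 : (Real.exp M) ^ (4 * d) = Real.exp (4 * d * M) := by
    rw [← Real.exp_mul]; congr 1; ring
  rw [hlogz, hz4] at hdual
  exact final_numeric hκ hd hM1 hMc (Nat.cast_nonneg _) CB_pos CE_pos CS_nonneg hdual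

/-- KE for a pair with different characters. -/
theorem ke_pair {x y : CharIdx} (hx : x.2.IsPrimitive) (hy : y.2.IsPrimitive) (hxy : x ≠ y)
    {s : ℂ} {x0 η : ℝ}
    (h : ∃ ℓ : ℂ, Tendsto (FF ((x.1 : ℕ) * (y.1 : ℕ)) (fun m => chiv (toPC x) m * (starRingEnd ℂ) (chiv (toPC y) m)) s) atTop (𝓝 ℓ) ∧
      ∀ t : ℝ, x0 ≤ t → ‖(∑ n ∈ Finset.Icc 1 ⌊t⌋₊, (fun m => chiv (toPC x) m * (starRingEnd ℂ) (chiv (toPC y) m)) n * pw s n)
        - mean ((x.1 : ℕ) * (y.1 : ℕ)) (fun m => chiv (toPC x) m * (starRingEnd ℂ) (chiv (toPC y) m)) * (∫ u in (1:ℝ)..t, pw s u) - ℓ‖ ≤ η) :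
    ∃ ℓ : ℂ, ∀ t : ℝ, x0 ≤ t →
      ‖∑ m ∈ Ioc 0 ⌊t⌋₊, (chiv (toPC x) m * (starRingEnd ℂ) (chiv (toPC y) m)) * (m : ℂ) ^ (-s) - ℓ‖ ≤ η := by
  obtain ⟨ℓ, _, hbd⟩ := h
  refine ⟨ℓ, fun t ht => ?_⟩
  have h1 := hbd t ht
  have hmean : mean ((x.1 : ℕ) * (y.1 : ℕ)) (fun m => chiv (toPC x) m * (starRingEnd ℂ) (chiv (toPC y) m)) = 0 := by
    unfold mean
    have := pair_sum_zero x.1.pos y.1.pos x.2 y.2 hx hy (fun h => hxy (toPC_injective h))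
    have h2 : ∑ a ∈ range ((x.1 : ℕ) * (y.1 : ℕ)), (fun m => chiv (toPC x) m * (starRingEnd ℂ) (chiv (toPC y) m)) a = 0 := this
    rw [h2, zero_div]
  rw [hmean, zero_mul, sub_zero] at h1
  refine le_trans (le_of_eq ?_) h1
  congr 2

theorem pair_norm_le (x y : CharIdx) (n : ℕ) :
    ‖(fun m => chiv (toPC x) m * (starRingEnd ℂ) (chiv (toPC y) m)) n‖ ≤ 1 := by
  simp only
  rw [norm_mul, RCLike.norm_conj]
  exact mul_le_one₀ (norm_chiv_le _ _) (norm_nonneg _) (norm_chiv_le _ _)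

theorem pair_per (x y : CharIdx) (n : ℕ) :
    (fun m => chiv (toPC x) m * (starRingEnd ℂ) (chiv (toPC y) m)) (n + (x.1 : ℕ) * (y.1 : ℕ))
      = (fun m => chiv (toPC x) m * (starRingEnd ℂ) (chiv (toPC y) m)) n := by
  simp only
  have e1 : chiv (toPC x) (n + (x.1 : ℕ) * (y.1 : ℕ)) = chiv (toPC x) n := by
    unfold chiv toPC; push_cast; simp
  have e2 : chiv (toPC y) (n + (x.1 : ℕ) * (y.1 : ℕ)) = chiv (toPC y) n := by
    unfold chiv toPC; push_cast; simp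
  rw [e1, e2]

theorem zero_re_lt_one {x : CharIdx} {ρ : ℂ} (hp : x.2.IsPrimitive) (hz : Lf x ρ = 0)
    (h1 : (x.1 : ℕ) = 1 → ρ ≠ 1) : ρ.re < 1 := by
  by_contra hcon
  have : NeZero (x.1 : ℕ) := ⟨x.1.pos.ne'⟩
  refine DirichletCharacter.LFunction_ne_zero_of_one_le_re x.2 ?_ (not_lt.mp hcon) hz
  by_cases hq1 : (x.1 : ℕ) = 1
  · exact Or.inr (h1 hq1)
  · left
    intro h
    rw [DirichletCharacter.isPrimitive_def, h, DirichletCharacter.conductor_one] at hp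
    exact hq1 hp.symm

/-- Spaced families: KE form as used below -/
def KEform (κ M₀ Q T d : ℝ) : Prop :=
  ∀ q : ℕ, 0 < q → (q:ℝ) ≤ Q^2 →
      ∀ ψ : ℕ → ℂ, (∀ n, ‖ψ n‖ ≤ 1) → (∀ n, ψ (n + q) = ψ n) →
      ∀ s : ℂ, 1 - 2 * d ≤ s.re → s.re ≤ 2 → |s.im| ≤ 4 * T →
      ∃ ℓ : ℂ, Tendsto (FF q ψ s) atTop (𝓝 ℓ) ∧
        ∀ x : ℝ, Real.exp (κ * MM M₀ Q T d) ≤ x →
          ‖(∑ n ∈ Finset.Icc 1 ⌊x⌋₊, ψ n * pw s n) - mean q ψ * (∫ u in (1:ℝ)..x, pw s u) - ℓ‖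
            ≤ (MM M₀ Q T d) ^ (-6 : ℝ) * Real.exp (-6 * κ * d * MM M₀ Q T d)

theorem spaced_fam {ι : Type*} [Fintype ι] [DecidableEq ι] (hLink : LinkL) {κ M₀ Q T d : ℝ}
    (hκ : 10 ≤ κ) (hQ : 1 ≤ Q) (hT : 3 ≤ T) (hd : 0 ≤ d) (hd4 : d ≤ 1 / 4)
    (hKE : KEform κ M₀ Q T d) (hMa : 16 * (2 * κ + 7) ≤ MM M₀ Q T d) (hMb : 1536 * CE ≤ MM M₀ Q T d)
    (hMc : 9216 * CB ≤ MM M₀ Q T d)
    (x : ι → CharIdx) (ρ : ι → ℂ) (hreg : ∀ r, InRegion Q T d (x r, ρ r))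
    (hz : ∀ r, Lf (x r) (ρ r) = 0)
    (hpole : ∀ r, ((x r).1 : ℕ) = 1 → Real.exp ((3 * κ + 8) * d * MM M₀ Q T d) ≤ |(ρ r).im|)
    (hsp : ∀ r s, r ≠ s → x r = x s → 1 ≤ MM M₀ Q T d * |(ρ r).im - (ρ s).im|) :
    (Fintype.card ι : ℝ) ≤ C2c κ * Real.exp ((6 * κ + 18) * d * MM M₀ Q T d) := by
  have hprim : ∀ r, (x r).2.IsPrimitive := fun r => (hreg r).2.1
  have hne1 : ∀ r, ((x r).1 : ℕ) = 1 → ρ r ≠ 1 := by
    intro r hq1 h
    have := hpole r hq1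
    rw [h] at this
    simp at this
    exact absurd this (not_le.mpr (Real.exp_pos _))
  have hre : ∀ r, (ρ r).re < 1 := fun r => zero_re_lt_one (hprim r) (hz r) (hne1 r)
  have hre1 : ∀ r, 1 - d ≤ (ρ r).re := fun r => (hreg r).2.2.1
  have him : ∀ r, |(ρ r).im| ≤ T := fun r => (hreg r).2.2.2
  have hρne1 : ∀ r, ρ r ≠ 1 := by
    intro r h
    have := hre r
    rw [h] at this
    simp at this
  have hisZ : ∀ r, IsZ (toPC (x r)) (ρ r) := fun r =>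
    hLink _ (hprim r) _ (by linarith [hre1 r]) (hρne1 r) (hz r)
  have hsgre : ∀ r s, (sg (ρ r) (ρ s)).re = (ρ r).re + (ρ s).re - 1 := by
    intro r s; unfold sg; simp
  have hsgim : ∀ r s, (sg (ρ r) (ρ s)).im = (ρ r).im - (ρ s).im := by
    intro r s; unfold sg; simp; ring
  have hsgb : ∀ r s, 1 - 2 * d ≤ (sg (ρ r) (ρ s)).re ∧ (sg (ρ r) (ρ s)).re ≤ 2
      ∧ |(sg (ρ r) (ρ s)).im| ≤ 4 * T := by
    intro r s
    rw [hsgre, hsgim]
    refine ⟨by linarith [hre1 r, hre1 s], by linarith [hre r, hre s], ?_⟩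
    refine (abs_sub _ _).trans ?_
    linarith [him r, him s]
  have hQ2 : (1 : ℝ) ≤ Q ^ 2 := one_le_pow₀ hQ
  apply spaced_card hκ hd hMa hMc x ρ hre1 hre
  · intro r s _
    obtain ⟨b1, b2, b3⟩ := hsgb r s
    obtain ⟨ℓ, _, hbd⟩ := hKE 1 one_pos (by simpa using hQ2)
      (fun _ => (1 : ℂ)) (fun n => by simp) (fun n => rfl) _ b1 b2 b3
    refine ke_equal ?_ (Real.exp_pos _) hbd
    intro h
    have := hsgre r s
    rw [h] at this
    simp at this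
    linarith [hre r, hre s]
  · intro r s hrs
    obtain ⟨b1, b2, b3⟩ := hsgb r s
    apply ke_pair (hprim r) (hprim s) hrs
    apply hKE _ (Nat.mul_pos (x r).1.pos (x s).1.pos) _ _ (pair_norm_le _ _) (pair_per _ _) _ b1 b2 b3
    push_cast
    rw [sq]
    exact mul_le_mul (hreg r).1 (hreg s).1 (Nat.cast_nonneg _) (by linarith)
  · intro r
    apply detect_zero (k := toPC (x r)) hκ hd hMa hMb (x r).1.pos (hprim r) (hre1 r) (hre r) (hisZ r) (hpole r)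
    apply hKE
    · exact (x r).1.pos
    · have h2 : (((toPC (x r)).1 : ℕ) : ℝ) ≤ Q := (hreg r).1
      nlinarith
    · exact norm_chiv_le _
    · exact chiv_per _
    · linarith [hre1 r]
    · linarith [hre r]
    · linarith [him r]
  · exact hsp

theorem spacedBound_of {C c : ℝ} (hC : 0 < C) (hc : 0 < c) (hVK : VKSum C c) (hLink : LinkL) :
    ∃ C' d0 M0 : ℝ, 0 < C' ∧ 0 < d0 ∧ 8 ≤ M0 ∧ SpacedBound C' d0 M0 := by
  classical
  obtain ⟨κ, d₀, M₁, hκ, hd₀, hd₀', hM₁, hKE⟩ := KE_ge hC hc hVK (A := 6) (by norm_num)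
  have hCB := CB_pos
  have hCE := CE_pos
  set M₀ := M₁ + 16 * (2 * κ + 7) + 1536 * CE + 9216 * CB + 8 with hM₀
  have hC₂0 := C2c_nonneg hκ
  set C' := C2c κ + (6 * κ + 18) with hC'
  refine ⟨C', d₀, M₀, by positivity, hd₀, by rw [hM₀]; nlinarith, ?_⟩
  intro Q hQ T hT d hd hdd J hJ hsp
  have hMge : M₀ ≤ MM M₀ Q T d := by
    unfold MM
    have h1 := LL_nonneg hQ hT
    have h2 : 0 ≤ Real.sqrt d * Real.log T := mul_nonneg (Real.sqrt_nonneg _) (Real.log_nonneg (by linarith))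
    linarith
  have hMa : 16 * (2 * κ + 7) ≤ MM M₀ Q T d := by rw [hM₀] at hMge ⊢; nlinarith
  have hMb : 1536 * CE ≤ MM M₀ Q T d := by rw [hM₀] at hMge ⊢; nlinarith
  have hMc : 9216 * CB ≤ MM M₀ Q T d := by rw [hM₀] at hMge ⊢; nlinarith
  have hMpos : 0 < MM M₀ Q T d := by nlinarith
  have hM₁₀ : M₁ ≤ M₀ := by rw [hM₀]; nlinarith
  have hdM : 0 ≤ d * MM M₀ Q T d := by positivity
  have hfam := spaced_fam (ι := J) hLink hκ hQ hT hd (hdd.trans hd₀') (M₀ := M₀)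
    (fun q hq hqQ ψ h1 h2 s h3 h4 h5 => hKE M₀ hM₁₀ Q T d hQ hT hd hdd q hq hqQ ψ h1 h2 s h3 h4 h5)
    hMa hMb hMc (fun x => (x : CharIdx × ℂ).1) (fun x => (x : CharIdx × ℂ).2)
    (fun x => (hJ x x.2).1) (fun x => (hJ x x.2).2.1)
    (by
      intro x hx
      refine le_trans ?_ ((hJ x x.2).2.2 hx)
      have h1 : Real.exp ((3 * κ + 8) * d * MM M₀ Q T d) ≤ Real.exp (C' * d * MM M₀ Q T d) := by
        apply Real.exp_le_exp.mpr
        have h2 : 3 * κ + 8 ≤ C' := by rw [hC']; linarith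
        nlinarith
      have h3 : 1 ≤ C' := by rw [hC']; linarith
      exact h1.trans (le_mul_of_one_le_left (Real.exp_pos _).le h3))
    (by
      intro x y hxy hk
      exact hsp x x.2 y y.2 (fun h => hxy (Subtype.ext h)) hk)
  rw [Fintype.card_coe] at hfam
  refine hfam.trans ?_
  have h1 : Real.exp ((6 * κ + 18) * d * MM M₀ Q T d) ≤ Real.exp (C' * d * MM M₀ Q T d) := by
    apply Real.exp_le_exp.mpr
    have h2 : 6 * κ + 18 ≤ C' := by rw [hC']; linarith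
    nlinarith
  have h2 : C2c κ ≤ C' := by rw [hC']; linarith
  exact mul_le_mul h2 h1 (Real.exp_pos _).le (by positivity)

end Vale.Agent.P026.H142
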