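import Mathlib
import Vale.Agent.P026.H142.SpacedBound
import Vale.Agent.P026.H392.Link
import Vale.Agent.P026.H517.VK

namespace Vale.Agent.P026.H142

open Finset Filter Topology Vale.Agent.P026.H392 Vale.Agent.P026.H267

theorem linkL : LinkL := by
  intro x hx ρ hρ hρ1 hz ℓ hℓ
  obtain ⟨q, χ⟩ := x
  have hq0 : (q : ℕ) ≠ 0 := q.pos.ne'
  have : NeZero (q : ℕ) := ⟨hq0⟩
  by_cases hq1 : (q : ℕ) = 1
  · have hk : (toPC ⟨q, χ⟩).1 = 1 := hq1
    rw [if_pos hk]
    have hqe : q = 1 := PNat.coe_injective (by simpa using hq1)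
    subst hqe
    have hfun : chiv (toPC ⟨1, χ⟩) = fun _ => 1 := by
      funext n; exact chiv_level_one hk n
    rw [hfun] at hℓ
    have hℓ' : Tendsto (FF 1 (fun _ => 1) ρ) atTop (𝓝 ℓ) := hℓ
    have hlim := tendsto_nhds_unique hℓ' (link_zeta hρ hρ1)
    have hz' : riemannZeta ρ = 0 := by
      have h1 : DirichletCharacter.LFunction χ ρ = 0 := hz
      have h2 : DirichletCharacter.LFunction (N := 1) χ = riemannZeta := DirichletCharacter.LFunction_modOne_eq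
      rw [← h2]; exact h1
    rw [hlim, hz', zero_sub]
    have h1 : ρ - 1 ≠ 0 := sub_ne_zero.mpr hρ1
    have h2 : 1 - ρ ≠ 0 := sub_ne_zero.mpr (Ne.symm hρ1)
    rw [← neg_sub ρ 1, div_neg, neg_inj]
  · have hk : ¬ (toPC ⟨q, χ⟩).1 = 1 := hq1
    rw [if_neg hk]
    have hχ : χ ≠ 1 := by
      intro h
      have hx' : χ.IsPrimitive := hx
      rw [DirichletCharacter.isPrimitive_def, h, DirichletCharacter.conductor_one] at hx'
      exact hq1 hx'.symm
    have hℓ' : Tendsto (FF (q : ℕ) (fun n => χ (n : ZMod (q : ℕ))) ρ) atTop (𝓝 ℓ) := hℓ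
    have hlim := tendsto_nhds_unique hℓ' (link_char hχ hρ)
    rw [hlim]
    exact hz

theorem vkSum_exists : ∃ C c : ℝ, 0 < C ∧ 0 < c ∧ VKSum C c := by
  obtain ⟨C, c, hC, hc, h⟩ := Vale.Agent.P026.H517.exists_VKSum
  exact ⟨C, c, hC, hc, h⟩

/-- **Spaced families of zeros** (unconditional). -/
theorem spacedBound : ∃ C' d0 M0 : ℝ, 0 < C' ∧ 0 < d0 ∧ 8 ≤ M0 ∧ SpacedBound C' d0 M0 := by
  obtain ⟨C, c, hC, hc, h⟩ := vkSum_exists
  exact spacedBound_of hC hc h linkL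

end Vale.Agent.P026.H142
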