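import Vale.Agent.P026.H392.Bounds

open Complex Set Filter Topology Metric

namespace Vale.Agent.P026.H142

open Vale.Agent.P026.H392

/-- `|ζ'/ζ(1+κ)| ≤ 1/κ + K` for small `κ`. -/
lemma zeta_logDeriv_near : ∃ r₀ K : ℝ, 0 < r₀ ∧ 0 < K ∧ ∀ r : ℝ, 0 < r → r ≤ r₀ →
    ‖deriv riemannZeta (((1 + r : ℝ)) : ℂ) / riemannZeta (((1 + r : ℝ)) : ℂ)‖ ≤ 1 / r + K := by
  obtain ⟨K, hK⟩ := log_deriv_riemannZeta_add_inv_sub_bounded.bound
  rw [eventually_nhdsWithin_iff] at hK
  obtain ⟨ε, hε, hball⟩ := Metric.eventually_nhds_iff.1 hK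
  refine ⟨ε/2, |K| + 1, by positivity, by positivity, ?_⟩
  intro r hr0 hr1
  have hne : (((1 + r : ℝ)) : ℂ) ≠ 1 := by
    intro h
    have : (1 + r : ℝ) = 1 := by exact_mod_cast h
    linarith
  have hsub : (((1 + r : ℝ)) : ℂ) - 1 = ((r:ℝ):ℂ) := by push_cast; ring
  have hnr : ‖(((1 + r : ℝ)) : ℂ) - 1‖ = r := by
    rw [hsub, Complex.norm_real, Real.norm_eq_abs, abs_of_pos hr0]
  have hb := hball (y := (((1 + r : ℝ)) : ℂ)) (by rw [dist_eq_norm, hnr]; linarith)
  have hb' := hb hne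
  rw [norm_one, mul_one] at hb'
  have h2 : deriv riemannZeta (((1 + r : ℝ)) : ℂ) / riemannZeta (((1 + r : ℝ)) : ℂ)
      = (deriv riemannZeta (((1 + r : ℝ)) : ℂ) / riemannZeta (((1 + r : ℝ)) : ℂ)
        + ((((1 + r : ℝ)) : ℂ) - 1)⁻¹) - ((((1 + r : ℝ)) : ℂ) - 1)⁻¹ := by ring
  rw [h2]
  have h3 : ‖((((1 + r : ℝ)) : ℂ) - 1)⁻¹‖ = 1/r := by rw [norm_inv, hnr, one_div]
  have h4 : K ≤ |K| := le_abs_self K
  refine (norm_sub_le _ _).trans ?_
  rw [h3]
  linarith

/-- Crude bound `|L(s,χ)| ≤ 20 q` near `s = 1`. -/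
lemma norm_L_le_crude {q : ℕ} [NeZero q] {χ : DirichletCharacter ℂ q} (hχ : χ ≠ 1) {s : ℂ}
    (hs : 3/4 ≤ s.re) (hs2 : ‖s‖ ≤ 2) : ‖DirichletCharacter.LFunction χ s‖ ≤ 20 * q := by
  have hq : 0 < q := Nat.pos_of_ne_zero (NeZero.ne q)
  have hψ : ∀ n : ℕ, ‖χ (n : ZMod q)‖ ≤ 1 := fun n => DirichletCharacter.norm_le_one χ _
  have hper : ∀ n : ℕ, χ ((n + q : ℕ) : ZMod q) = χ (n : ZMod q) := by
    intro n; simp
  obtain ⟨ℓ, h1, h2⟩ := exists_ell_em (s := s) (by linarith) hq hψ hper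
  have h3 := tendsto_nhds_unique h1 (link_char hχ (by linarith))
  have h4 := h2 1 le_rfl (q * (1 + 1)) le_rfl
  have hq1 : (1:ℝ) ≤ q := by exact_mod_cast hq
  have h5 : ‖FF q (fun n => χ (n : ZMod q)) s (q * (1 + 1))‖ ≤ 2 * q := by
    unfold FF
    rw [mean_char hχ, zero_mul, sub_zero]
    refine (norm_sum_le _ _).trans ?_
    calc ∑ k ∈ Finset.Icc 1 (q * (1 + 1)), ‖χ (k : ZMod q) * pw s k‖
        ≤ ∑ k ∈ Finset.Icc 1 (q * (1 + 1)), (1:ℝ) := by
          refine Finset.sum_le_sum fun k hk => ?_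
          rw [Finset.mem_Icc] at hk
          have hk0 : (0:ℝ) < k := by exact_mod_cast hk.1
          have hk1 : (1:ℝ) ≤ k := by exact_mod_cast hk.1
          rw [norm_mul]
          have : ‖pw s k‖ ≤ 1 := by
            unfold pw
            rw [Complex.norm_cpow_eq_rpow_re_of_pos hk0]
            apply Real.rpow_le_one_of_one_le_of_nonpos hk1
            rw [Complex.neg_re]; linarith
          exact mul_le_one₀ (hψ k) (norm_nonneg _) this
      _ = 2 * q := by simp; ring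
  rw [← h3]
  have h6 : ‖ℓ‖ ≤ ‖FF q (fun n => χ (n : ZMod q)) s (q * (1 + 1))‖
      + ‖FF q (fun n => χ (n : ZMod q)) s (q * (1 + 1)) - ℓ‖ := by
    have := norm_sub_le (FF q (fun n => χ (n : ZMod q)) s (q * (1 + 1)))
      (FF q (fun n => χ (n : ZMod q)) s (q * (1 + 1)) - ℓ)
    simpa using this
  have h7 : (q:ℝ) ^ (1 - s.re) * (4 * ‖s‖ + 6) * ((1:ℕ):ℝ) ^ (-s.re) ≤ q * 14 := by
    rw [Nat.cast_one, Real.one_rpow, mul_one]
    apply mul_le_mul _ (by linarith) (by positivity) (by positivity)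
    calc (q:ℝ) ^ (1 - s.re) ≤ (q:ℝ) ^ (1:ℝ) := Real.rpow_le_rpow_of_exponent_le hq1 (by linarith)
      _ = q := Real.rpow_one _
  have h8 := h4.trans h7
  linarith

/-- numerics for `page_near_one`. -/
lemma page_numerics {e K Lq κ M N : ℝ} {q : ℝ} (he0 : 0 < e) (he3 : e ≤ 1/1000000) (hK : 0 < K)
    (he4 : e ≤ 1/(1000 * (K+1))) (hq1 : 1 ≤ q) (hLq1 : 1 ≤ Lq) (hqL : Real.log q ≤ Lq)
    (hκ : κ = e / Lq) (hM : M = Real.log (40 * q / κ))
    (h1 : N * (9/10/κ) ≤ 1 / κ + K + 16 * M) : N < 2 := by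
  have hκ0 : 0 < κ := by rw [hκ]; positivity
  have hκe : κ ≤ e := by rw [hκ]; exact div_le_self he0.le hLq1
  have hM1 : M ≤ 4 + 2 * Lq + Real.log (1 / e) := by
    have h1 : 40 * (q:ℝ) / κ = 40 * (q * (Lq * (1 / e))) := by
      rw [hκ]; field_simp
    rw [hM, h1, Real.log_mul (by norm_num) (by positivity), Real.log_mul (by positivity) (by positivity),
      Real.log_mul (by positivity) (by positivity)]
    have h2 : Real.log 40 ≤ 4 := by
      rw [Real.log_le_iff_le_exp (by norm_num)]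
      have h3 : (2.7:ℝ) ≤ Real.exp 1 := by have := Real.exp_one_gt_d9; linarith
      have h4 : Real.exp 4 = (Real.exp 1) ^ 4 := by rw [← Real.exp_nat_mul]; norm_num
      rw [h4]
      calc (40:ℝ) ≤ 2.7 ^ 4 := by norm_num
        _ ≤ _ := pow_le_pow_left₀ (by norm_num) h3 4
    have h5 : Real.log Lq ≤ Lq := (Real.log_le_sub_one_of_pos (by linarith)).trans (by linarith)
    linarith
  have hloge : Real.log (1 / e) ≤ 2 / Real.sqrt e := by
    have h1 : Real.log (Real.sqrt (1 / e)) ≤ Real.sqrt (1/e) := by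
      have := Real.log_le_sub_one_of_pos (show 0 < Real.sqrt (1/e) by positivity)
      linarith
    rw [Real.log_sqrt (by positivity), Real.sqrt_div (by norm_num), Real.sqrt_one] at h1
    have h2 : (2:ℝ) / Real.sqrt e = 2 * (1 / Real.sqrt e) := by ring
    rw [h2]; linarith
  have hsqrt : Real.sqrt e ≤ 1 / 1000 := by
    rw [show (1:ℝ)/1000 = Real.sqrt (1/1000000) by
      rw [show (1:ℝ)/1000000 = (1/1000)^2 by norm_num, Real.sqrt_sq (by norm_num)]]
    exact Real.sqrt_le_sqrt he3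
  have hsq : Real.sqrt e * Real.sqrt e = e := Real.mul_self_sqrt he0.le
  have hsq0 : 0 < Real.sqrt e := Real.sqrt_pos.2 he0
  have hκM : κ * M ≤ 3 / 1000 := by
    have h1 : κ * M ≤ κ * (4 + 2 * Lq + 2 / Real.sqrt e) :=
      mul_le_mul_of_nonneg_left (by linarith) hκ0.le
    have h2 : κ * Lq = e := by rw [hκ]; field_simp
    have h3 : κ * (2 / Real.sqrt e) ≤ 2 * Real.sqrt e := by
      have h4 : κ * (2 / Real.sqrt e) ≤ e * (2 / Real.sqrt e) :=
        mul_le_mul_of_nonneg_right hκe (by positivity)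
      have h5 : e * (2 / Real.sqrt e) = 2 * Real.sqrt e := by
        rw [mul_div_assoc', div_eq_iff hsq0.ne']
        linear_combination -2 * hsq
      linarith
    calc κ * M ≤ 4 * κ + 2 * (κ * Lq) + κ * (2 / Real.sqrt e) := by linarith
      _ ≤ 4 * (1/1000000) + 2 * (1/1000000) + 2 * (1/1000) := by rw [h2]; linarith
      _ ≤ 3 / 1000 := by norm_num
  have hκK : κ * K ≤ 1 / 1000 := by
    have h1 : κ * K ≤ e * K := mul_le_mul_of_nonneg_right hκe hK.le
    have h2 : e * (1000 * (K + 1)) ≤ 1 := by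
      rw [le_div_iff₀ (by positivity)] at he4
      exact he4
    nlinarith
  have hfin : N * (9/10) ≤ 1 + κ * K + 16 * (κ * M) := by
    have h2 := mul_le_mul_of_nonneg_left h1 hκ0.le
    calc N * (9/10) = κ * (N * (9/10/κ)) := by field_simp
      _ ≤ κ * (1 / κ + K + 16 * M) := h2
      _ = 1 + κ * K + 16 * (κ * M) := by field_simp
  nlinarith

/-- A character has at most one zero (with multiplicity) in `|1-s| ≤ c/log(q+2)`. -/
theorem page_near_one : ∃ c : ℝ, 0 < c ∧ ∀ (q : ℕ) [NeZero q] (χ : DirichletCharacter ℂ q), χ ≠ 1 →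
    ∀ F : Finset ℂ, (∀ ρ ∈ F, ‖ρ - 1‖ ≤ c / Real.log (q + 2)) →
      ∑ ρ ∈ F, (analyticOrderNatAt (DirichletCharacter.LFunction χ) ρ : ℝ) ≤ 1 := by
  obtain ⟨r₀, K, hr₀, hK, hzeta⟩ := zeta_logDeriv_near
  obtain ⟨r₁, hr₁, hr₁', hnear⟩ := near_one
  -- κ = e / log (q+2)
  set e : ℝ := min (min r₀ r₁) (min (1/1000000) (1/(1000 * (K + 1)))) with he
  have he0 : 0 < e := by positivity
  have he1 : e ≤ r₀ := (min_le_left _ _).trans (min_le_left _ _)
  have he2 : e ≤ r₁ := (min_le_left _ _).trans (min_le_right _ _)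
  have he3 : e ≤ 1/1000000 := (min_le_right _ _).trans (min_le_left _ _)
  have he4 : e ≤ 1/(1000 * (K+1)) := (min_le_right _ _).trans (min_le_right _ _)
  refine ⟨e / 20, by positivity, ?_⟩
  intro q _ χ hχ F hF
  have hq : 0 < q := Nat.pos_of_ne_zero (NeZero.ne q)
  have hq1 : (1:ℝ) ≤ q := by exact_mod_cast hq
  set Lq := Real.log ((q:ℝ) + 2) with hLq
  have hLq1 : 1 ≤ Lq := by
    rw [hLq, Real.le_log_iff_exp_le (by linarith)]
    have := Real.exp_one_lt_d9
    linarith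
  have hqL : Real.log q ≤ Lq := Real.log_le_log (by linarith) (by linarith)
  set κ := e / Lq with hκ
  have hκ0 : 0 < κ := by positivity
  have hκe : κ ≤ e := div_le_self he0.le hLq1
  have hκ6 : κ ≤ 1/1000000 := hκe.trans he3
  set f := DirichletCharacter.LFunction χ with hf
  set c : ℂ := ((1 + κ : ℝ) : ℂ) with hc
  have hcre : c.re = 1 + κ := by simp [hc]
  have hfd : Differentiable ℂ f := DirichletCharacter.differentiable_LFunction hχ
  have hfa : AnalyticOnNhd ℂ f (closedBall c (1/8)) := fun z _ => hfd.analyticAt z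
  have hζ1 := (hnear κ hκ0 (hκe.trans he2)).1
  have hfc : κ / 2 ≤ ‖f c‖ := by
    have h1 := norm_LFunction_ge χ (s := c) (by rw [hcre]; linarith)
    rw [hcre] at h1
    have h2 : ‖f c‖ * ‖riemannZeta (((1 + κ : ℝ)) : ℂ)‖ ≤ ‖f c‖ * (2 / κ) :=
      mul_le_mul_of_nonneg_left hζ1 (norm_nonneg _)
    have h3 : 1 ≤ ‖f c‖ * (2 / κ) := le_trans h1 h2
    rw [mul_div_assoc', le_div_iff₀ hκ0] at h3
    linarith
  have hfc0 : f c ≠ 0 := by
    intro h0
    rw [h0, norm_zero] at hfc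
    linarith
  have hne1 : ∀ z : ℂ, f z = 0 → z.re ≤ 1 := by
    intro z hz
    by_contra hcon
    push Not at hcon
    exact DirichletCharacter.LFunction_ne_zero_of_one_le_re χ (Or.inl hχ) hcon.le hz
  set M := Real.log (40 * q / κ) with hM
  have hexpM : Real.exp M = 40 * q / κ := by
    rw [hM, Real.exp_log (by positivity)]
  have hM0 : 0 < M := by
    rw [hM]
    apply Real.log_pos
    rw [lt_div_iff₀ hκ0]
    linarith
  have hb : ∀ z ∈ closedBall c (1/8), ‖f z‖ ≤ Real.exp M * ‖f c‖ := by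
    intro z hz
    rw [mem_closedBall, dist_eq_norm] at hz
    have hz1 : |(z - c).re| ≤ 1/8 := (Complex.abs_re_le_norm _).trans hz
    rw [Complex.sub_re, hcre, abs_le] at hz1
    have hz2 : ‖z‖ ≤ 2 := by
      have h1 : ‖z‖ ≤ ‖z - c‖ + ‖c‖ := by
        have := norm_add_le (z - c) c
        simpa using this
      have h2 : ‖c‖ = 1 + κ := by
        rw [hc, Complex.norm_real, Real.norm_eq_abs, abs_of_pos (by linarith)]
      linarith
    have h1 := norm_L_le_crude hχ (s := z) (by linarith) hz2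
    rw [hexpM]
    have h2 : 40 * (q:ℝ) / κ * (κ / 2) ≤ 40 * q / κ * ‖f c‖ := mul_le_mul_of_nonneg_left hfc (by positivity)
    have h3 : 40 * (q:ℝ) / κ * (κ / 2) = 20 * q := by field_simp; ring
    linarith
  have hz : ∀ z ∈ closedBall c (1/8), f z = 0 → z.re ≤ c.re := by
    intro z _ h0
    have := hne1 z h0
    rw [hcre]; linarith
  have hη : ∀ ρ ∈ F, ‖ρ - 1‖ ≤ κ / 20 := by
    intro ρ hρ
    refine (hF ρ hρ).trans (le_of_eq ?_)
    rw [hκ]; ring
  have hdist : ∀ ρ ∈ F, ‖ρ - c‖ ≤ 21 / 20 * κ := by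
    intro ρ hρ
    have h1 : ρ - c = (ρ - 1) - (κ : ℂ) := by rw [hc]; push_cast; ring
    rw [h1]
    refine (norm_sub_le _ _).trans ?_
    rw [Complex.norm_real, Real.norm_eq_abs, abs_of_pos hκ0]
    linarith [hη ρ hρ]
  have hFb : ∀ ρ ∈ F, ρ ∈ closedBall c (1/8) := by
    intro ρ hρ
    rw [mem_closedBall, dist_eq_norm]
    have := hdist ρ hρ
    linarith
  have key := landau_at (f := f) (c := c) (R := 1/8) (M := M) (by norm_num) hM0 hfa hfc0 hb hz F hFb
  have hlog : (logDeriv f c).re ≤ 1 / κ + K := by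
    refine (Complex.re_le_norm _).trans ?_
    have h1 := norm_logDeriv_LFunction_le χ (s := c) (by rw [hcre]; linarith)
    rw [hcre] at h1
    exact h1.trans (hzeta κ hκ0 (hκe.trans he1))
  -- lower bound for the sum
  have hlow : ∀ ρ ∈ F, (analyticOrderNatAt f ρ : ℝ) * (9 / 10 / κ) ≤ (analyticOrderNatAt f ρ : ℝ) *
      ((c.re - ρ.re) * (1 / ‖ρ - c‖ ^ 2 - 1 / (1/8) ^ 2)) := by
    intro ρ hρ
    by_cases hord : analyticOrderNatAt f ρ = 0
    · rw [hord]; simp
    apply mul_le_mul_of_nonneg_left _ (Nat.cast_nonneg _)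
    have hf0 : f ρ = 0 := by
      by_contra hne
      apply hord
      unfold analyticOrderNatAt
      rw [(hfd.analyticAt ρ).analyticOrderAt_eq_zero.2 hne]
      rfl
    have h1 := hne1 ρ hf0
    have h2 : κ ≤ c.re - ρ.re := by rw [hcre]; linarith
    have h3 : 0 < ‖ρ - c‖ := by
      rw [norm_pos_iff, sub_ne_zero]
      intro h; rw [h] at hf0; exact hfc0 hf0
    have h4 : 1 / (21 / 20 * κ) ^ 2 ≤ 1 / ‖ρ - c‖ ^ 2 := by
      apply one_div_le_one_div_of_le (by positivity)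
      exact pow_le_pow_left₀ (norm_nonneg _) (hdist ρ hρ) 2
    have h5 : 9 / 10 / κ ^ 2 ≤ 1 / ‖ρ - c‖ ^ 2 - 1 / (1/8) ^ 2 := by
      have h6 : 9 / 10 / κ ^ 2 + 64 ≤ 1 / (21 / 20 * κ) ^ 2 := by
        have h7 : κ ^ 2 ≤ 1 / 1000000 := by
          calc κ ^ 2 ≤ (1/1000000) ^ 2 := pow_le_pow_left₀ hκ0.le hκ6 2
            _ ≤ 1/1000000 := by norm_num
        have h8 : 64 ≤ 1 / 1000 / κ ^ 2 := by
          rw [le_div_iff₀ (by positivity)]; linarith
        have h9 : 1 / (21 / 20 * κ) ^ 2 = 400 / 441 / κ ^ 2 := by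
          field_simp; norm_num
        rw [h9]
        have h10 : 9 / 10 / κ ^ 2 + 1 / 1000 / κ ^ 2 ≤ 400 / 441 / κ ^ 2 := by
          rw [← add_div]
          exact div_le_div_of_nonneg_right (by norm_num) (by positivity)
        linarith
      have h8 : (1:ℝ) / (1/8) ^ 2 = 64 := by norm_num
      rw [h8]
      linarith
    calc 9 / 10 / κ = κ * (9 / 10 / κ ^ 2) := by field_simp
      _ ≤ (c.re - ρ.re) * (1 / ‖ρ - c‖ ^ 2 - 1 / (1/8) ^ 2) :=
        mul_le_mul h2 h5 (by positivity) (by linarith)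
  have hsum := (Finset.sum_le_sum hlow).trans key
  rw [← Finset.sum_mul] at hsum
  set N : ℕ := ∑ ρ ∈ F, analyticOrderNatAt f ρ with hN
  have hNr : ∑ ρ ∈ F, (analyticOrderNatAt f ρ : ℝ) = (N : ℝ) := by rw [hN]; push_cast; rfl
  rw [hNr] at hsum ⊢
  have hN2 : (N:ℝ) < 2 := by
    refine page_numerics he0 he3 hK he4 hq1 hLq1 hqL hκ hM (hsum.trans ?_)
    have : 2 * M / (1/8) = 16 * M := by ring
    rw [this]; linarith
  have hN3 : N < 2 := by exact_mod_cast hN2
  have hN4 : N ≤ 1 := by omega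
  exact_mod_cast hN4

lemma order_pos_of_zero {q : ℕ} [NeZero q] {χ : DirichletCharacter ℂ q} (hχ : χ ≠ 1) {ρ : ℂ}
    (h : DirichletCharacter.LFunction χ ρ = 0) :
    1 ≤ analyticOrderNatAt (DirichletCharacter.LFunction χ) ρ := by
  have hfd : Differentiable ℂ (DirichletCharacter.LFunction χ) :=
    DirichletCharacter.differentiable_LFunction hχ
  have hne0 : analyticOrderAt (DirichletCharacter.LFunction χ) ρ ≠ 0 := by
    rw [(hfd.analyticAt ρ).analyticOrderAt_ne_zero]; exact h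
  have hnetop : analyticOrderAt (DirichletCharacter.LFunction χ) ρ ≠ ⊤ := by
    intro htop
    rw [analyticOrderAt_eq_top] at htop
    have h1 : AnalyticOnNhd ℂ (DirichletCharacter.LFunction χ) Set.univ := fun z _ => hfd.analyticAt z
    have h2 := h1.eq_of_eventuallyEq (g := fun _ => 0) (fun z _ => analyticAt_const) htop
    have h3 := DirichletCharacter.LFunction_ne_zero_of_one_le_re χ (s := 2) (Or.inl hχ) (by norm_num)
    exact h3 (by rw [h2])
  unfold analyticOrderNatAt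
  rw [Nat.one_le_iff_ne_zero, Ne, ENat.toNat_eq_zero]
  push Not
  exact ⟨hne0, hnetop⟩

/-- Two distinct zeros of the same `L`-function are not both within `c/log(q+2)` of `1`, and a zero
that close to `1` is simple. -/
theorem page_other : ∃ c : ℝ, 0 < c ∧ ∀ (q : ℕ) [NeZero q] (χ : DirichletCharacter ℂ q), χ ≠ 1 →
    ∀ z : ℂ, DirichletCharacter.LFunction χ z = 0 → ‖z - 1‖ ≤ c / Real.log (q + 2) →
      analyticOrderNatAt (DirichletCharacter.LFunction χ) z = 1 ∧
      ∀ ρ : ℂ, DirichletCharacter.LFunction χ ρ = 0 → ρ ≠ z → c / Real.log (q + 2) < ‖ρ - 1‖ := by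
  classical
  obtain ⟨c, hc, h⟩ := page_near_one
  refine ⟨c, hc, ?_⟩
  intro q _ χ hχ z hz hz1
  have hoz := order_pos_of_zero hχ hz
  constructor
  · have h1 := h q χ hχ {z} (by intro ρ hρ; rw [Finset.mem_singleton] at hρ; rw [hρ]; exact hz1)
    rw [Finset.sum_singleton] at h1
    have h2 : analyticOrderNatAt (DirichletCharacter.LFunction χ) z ≤ 1 := by exact_mod_cast h1
    omega
  · intro ρ hρ hne
    by_contra hcon
    push Not at hcon
    have h1 := h q χ hχ {ρ, z} (by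
      intro w hw
      rw [Finset.mem_insert, Finset.mem_singleton] at hw
      rcases hw with rfl | rfl
      · exact hcon
      · exact hz1)
    rw [Finset.sum_pair hne] at h1
    have hoρ := order_pos_of_zero hχ hρ
    have h2 : (1:ℝ) ≤ analyticOrderNatAt (DirichletCharacter.LFunction χ) z := by exact_mod_cast hoz
    have h3 : (1:ℝ) ≤ analyticOrderNatAt (DirichletCharacter.LFunction χ) ρ := by exact_mod_cast hoρ
    linarith

end Vale.Agent.P026.H142
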