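import Mathlib

namespace Vale.Agent.P026.H142

open Finset

/-- partial geometric sums -/
noncomputable def Ug (w : ℂ) (n : ℕ) : ℂ := ∑ j ∈ range n, w ^ j

theorem Ug_succ (w : ℂ) (n : ℕ) : Ug w (n + 1) = 1 + w * Ug w n := by
  unfold Ug
  rw [Finset.sum_range_succ', Finset.mul_sum]
  simp only [pow_zero, pow_succ']
  ring

theorem two_re_Ug (w : ℂ) (n : ℕ) :
    2 * (Ug w (n + 1)).re - 1 = ‖Ug w (n + 1)‖ ^ 2 - ‖w‖ ^ 2 * ‖Ug w n‖ ^ 2 := by
  have h1 : w * Ug w n = Ug w (n + 1) - 1 := by rw [Ug_succ]; ring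
  have h2 : ‖w‖ ^ 2 * ‖Ug w n‖ ^ 2 = ‖Ug w (n + 1) - 1‖ ^ 2 := by
    rw [← h1, norm_mul, mul_pow]
  rw [h2, ← Complex.normSq_eq_norm_sq, ← Complex.normSq_eq_norm_sq, Complex.normSq_sub]
  simp
  ring

/-- Fejér type kernel `∑_{j=1}^J (1 - j/(J+1)) Re w^j`. -/
noncomputable def PJ (J : ℕ) (w : ℂ) : ℝ :=
  ∑ j ∈ Icc 1 J, (1 - (j : ℝ) / (J + 1)) * (w ^ j).re

theorem sum_two_re_Ug (w : ℂ) (J : ℕ) :
    ∑ n ∈ range (J + 1), (2 * (Ug w (n + 1)).re - 1) = (J + 1) + 2 * ∑ j ∈ Icc 1 J, ((J : ℝ) + 1 - j) * (w ^ j).re := by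
  induction J with
  | zero => simp [Ug]; norm_num
  | succ J ih =>
    rw [Finset.sum_range_succ, ih]
    have h1 : (Ug w (J + 1 + 1)).re = 1 + ∑ j ∈ Icc 1 (J + 1), (w ^ j).re := by
      unfold Ug
      rw [Finset.sum_range_succ', Complex.add_re, Complex.re_sum]
      rw [Finset.sum_bij (s := range (J + 1)) (t := Icc 1 (J + 1)) (fun j _ => j + 1) (g := fun j => (w ^ j).re)]
      · simp; ring
      · intro a ha; rw [Finset.mem_range] at ha; rw [Finset.mem_Icc]; omega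
      · intro a _ b _ h; omega
      · intro b hb; rw [Finset.mem_Icc] at hb; exact ⟨b - 1, by rw [Finset.mem_range]; omega, by omega⟩
      · intro a _; rfl
    rw [h1]
    have h2 : ∑ j ∈ Icc 1 (J + 1), (((J + 1 : ℕ) : ℝ) + 1 - j) * (w ^ j).re
        = ∑ j ∈ Icc 1 J, ((J : ℝ) + 1 - j) * (w ^ j).re + ∑ j ∈ Icc 1 (J + 1), (w ^ j).re := by
      rw [Finset.sum_Icc_succ_top (by omega), Finset.sum_Icc_succ_top (by omega)]
      have : ∑ j ∈ Icc 1 J, (((J + 1 : ℕ) : ℝ) + 1 - j) * (w ^ j).re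
          = ∑ j ∈ Icc 1 J, ((J : ℝ) + 1 - j) * (w ^ j).re + ∑ j ∈ Icc 1 J, (w ^ j).re := by
        rw [← Finset.sum_add_distrib]
        apply Finset.sum_congr rfl
        intro j _
        push_cast; ring
      rw [this]
      push_cast
      ring
    rw [h2]
    push_cast
    ring

theorem PJ_ge (J : ℕ) {w : ℂ} (hw : ‖w‖ ≤ 1) : -(1 / 2) ≤ PJ J w := by
  have h1 : 0 ≤ ∑ n ∈ range (J + 1), (2 * (Ug w (n + 1)).re - 1) := by
    have h2 : ∀ n ∈ range (J + 1), ‖Ug w (n + 1)‖ ^ 2 - ‖Ug w n‖ ^ 2 ≤ 2 * (Ug w (n + 1)).re - 1 := by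
      intro n _
      rw [two_re_Ug]
      have : ‖w‖ ^ 2 * ‖Ug w n‖ ^ 2 ≤ 1 * ‖Ug w n‖ ^ 2 := by
        apply mul_le_mul_of_nonneg_right _ (sq_nonneg _)
        have := norm_nonneg w
        nlinarith
      linarith
    refine le_trans ?_ (Finset.sum_le_sum h2)
    rw [Finset.sum_range_sub (fun n => ‖Ug w n‖ ^ 2)]
    have : Ug w 0 = 0 := by simp [Ug]
    rw [this]
    simp
  rw [sum_two_re_Ug] at h1
  have h3 : ∑ j ∈ Icc 1 J, ((J : ℝ) + 1 - j) * (w ^ j).re = (J + 1) * PJ J w := by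
    unfold PJ
    rw [Finset.mul_sum]
    apply Finset.sum_congr rfl
    intro j _
    have : (J : ℝ) + 1 ≠ 0 := by positivity
    field_simp
  rw [h3] at h1
  have h4 : (0 : ℝ) < J + 1 := by positivity
  by_contra hcon
  push Not at hcon
  nlinarith

theorem PJ_one (J : ℕ) : PJ J 1 = J / 2 := by
  unfold PJ
  simp only [one_pow, Complex.one_re, mul_one]
  rw [Finset.sum_sub_distrib, ← Finset.sum_div]
  have h1 : ∑ j ∈ Icc 1 J, (j : ℝ) = J * (J + 1) / 2 := by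
    induction J with
    | zero => simp
    | succ n ih => rw [Finset.sum_Icc_succ_top (by omega), ih]; push_cast; ring
  rw [h1]
  have : (J : ℝ) + 1 ≠ 0 := by positivity
  simp
  field_simp
  ring

theorem abs_PJ_le (J : ℕ) {w : ℂ} (hw : ‖w‖ ≤ 1 / 3) : |PJ J w| ≤ 3 / 2 * ‖w‖ := by
  have h0 := norm_nonneg w
  have h1 : |PJ J w| ≤ ∑ j ∈ Icc 1 J, ‖w‖ ^ j := by
    unfold PJ
    refine (Finset.abs_sum_le_sum_abs _ _).trans (Finset.sum_le_sum ?_)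
    intro j hj
    rw [Finset.mem_Icc] at hj
    rw [abs_mul]
    have a1 : |1 - (j : ℝ) / (J + 1)| ≤ 1 := by
      have hj1 : (j : ℝ) ≤ J := by exact_mod_cast hj.2
      have hJ : (0 : ℝ) < J + 1 := by positivity
      have h2 : (j : ℝ) / (J + 1) ≤ 1 := by rw [div_le_one hJ]; linarith
      have h3 : 0 ≤ (j : ℝ) / (J + 1) := by positivity
      rw [abs_le]; constructor <;> linarith
    have a2 : |(w ^ j).re| ≤ ‖w‖ ^ j := by
      refine (Complex.abs_re_le_norm _).trans ?_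
      rw [norm_pow]
    calc _ ≤ 1 * ‖w‖ ^ j := mul_le_mul a1 a2 (abs_nonneg _) zero_le_one
      _ = _ := one_mul _
  have h2 : ∀ J : ℕ, ∑ j ∈ Icc 1 J, ‖w‖ ^ j ≤ 3 / 2 * ‖w‖ * (1 - ‖w‖ ^ J) := by
    intro J
    induction J with
    | zero => simp
    | succ n ih =>
      rw [Finset.sum_Icc_succ_top (by omega)]
      have h3 : 0 ≤ ‖w‖ ^ n := pow_nonneg h0 n
      have h4 : ‖w‖ ^ (n + 1) = ‖w‖ ^ n * ‖w‖ := pow_succ _ _
      rw [h4]
      nlinarith [mul_nonneg h3 h0]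
  refine h1.trans ((h2 J).trans ?_)
  have h3 : 0 ≤ ‖w‖ ^ J := pow_nonneg h0 J
  nlinarith

/-- combination used for one term -/
theorem three_P_ge (J : ℕ) {w u : ℂ} (hw : ‖w‖ ≤ 1) (hu : ‖u‖ = 1) :
    -3 * ‖w‖ ≤ PJ J w + 1 / 2 * PJ J (w * u) + 1 / 2 * PJ J (w * (starRingEnd ℂ) u) := by
  have n1 : ‖w * u‖ = ‖w‖ := by rw [norm_mul, hu, mul_one]
  have n2 : ‖w * (starRingEnd ℂ) u‖ = ‖w‖ := by rw [norm_mul, RCLike.norm_conj, hu, mul_one]
  rcases le_or_gt ‖w‖ (1 / 3) with h | h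
  · have a1 := abs_PJ_le J h
    have a2 := abs_PJ_le J (w := w * u) (by rw [n1]; exact h)
    have a3 := abs_PJ_le J (w := w * (starRingEnd ℂ) u) (by rw [n2]; exact h)
    rw [n1] at a2
    rw [n2] at a3
    rw [abs_le] at a1 a2 a3
    linarith [a1.1, a2.1, a3.1]
  · have a1 := PJ_ge J hw
    have a2 := PJ_ge J (w := w * u) (by rw [n1]; exact hw)
    have a3 := PJ_ge J (w := w * (starRingEnd ℂ) u) (by rw [n2]; exact hw)
    linarith

theorem re_mul_re (a b : ℂ) : a.re * b.re = 1 / 2 * (b * a).re + 1 / 2 * (b * (starRingEnd ℂ) a).re := by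
  simp [Complex.mul_re]
  ring

/-- **Power sums** (Lagarias–Montgomery–Odlyzko), normalised form. -/
theorem power_sum_norm {ι : Type*} (S : Finset ι) (w : ι → ℂ) (b : ι → ℝ) (hb : ∀ i ∈ S, 0 ≤ b i)
    {i₁ : ι} (hi₁ : i₁ ∈ S) (hb1 : 1 ≤ b i₁) (hw1 : ‖w i₁‖ = 1) (hmax : ∀ i ∈ S, ‖w i‖ ≤ 1)
    {L : ℝ} (hL : ∑ i ∈ S, b i * ‖w i‖ ≤ L) :
    ∃ m : ℕ, 1 ≤ m ∧ (m : ℝ) ≤ 24 * L ∧ 1 / 8 ≤ (∑ i ∈ S, (b i : ℂ) * w i ^ m).re := by
  classical
  by_contra hcon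
  push Not at hcon
  set u := w i₁ with hu
  have hL1 : 1 ≤ L := by
    refine le_trans ?_ hL
    refine le_trans ?_ (Finset.single_le_sum (f := fun i => b i * ‖w i‖)
      (fun i hi => mul_nonneg (hb i hi) (norm_nonneg _)) hi₁)
    rw [← hu, hw1, mul_one]
    exact hb1
  set J := ⌊24 * L⌋₊ with hJ
  have hJle : (J : ℝ) ≤ 24 * L := Nat.floor_le (by linarith)
  have hJgt : 24 * L - 1 < J := by
    have := Nat.lt_floor_add_one (24 * L)
    linarith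
  -- the weighted sum
  set Sj : ℕ → ℝ := fun j => (∑ i ∈ S, (b i : ℂ) * w i ^ j).re with hSj
  have hT : ∑ j ∈ Icc 1 J, (1 - (j : ℝ) / (J + 1)) * ((1 + (u ^ j).re) * Sj j)
      = ∑ i ∈ S, b i * (PJ J (w i) + 1 / 2 * PJ J (w i * u) + 1 / 2 * PJ J (w i * (starRingEnd ℂ) u)) := by
    have e1 : ∀ i ∈ S, b i * (PJ J (w i) + 1 / 2 * PJ J (w i * u) + 1 / 2 * PJ J (w i * (starRingEnd ℂ) u))
        = ∑ j ∈ Icc 1 J, (1 - (j : ℝ) / (J + 1)) * ((1 + (u ^ j).re) * (b i * (w i ^ j).re)) := by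
      intro i _
      unfold PJ
      rw [Finset.mul_sum, Finset.mul_sum, ← Finset.sum_add_distrib, ← Finset.sum_add_distrib, Finset.mul_sum]
      apply Finset.sum_congr rfl
      intro j _
      have h1 := re_mul_re (u ^ j) (w i ^ j)
      rw [map_pow] at h1
      rw [mul_pow, mul_pow]
      have h2 : (1 + (u ^ j).re) * (b i * (w i ^ j).re) = b i * ((w i ^ j).re + (u ^ j).re * (w i ^ j).re) := by ring
      rw [h2, h1]
      ring
    rw [Finset.sum_congr rfl e1, Finset.sum_comm]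
    apply Finset.sum_congr rfl
    intro j _
    simp only [hSj]
    rw [Complex.re_sum, Finset.mul_sum, Finset.mul_sum]
    apply Finset.sum_congr rfl
    intro i _
    rw [Complex.re_ofReal_mul]
  -- upper bound
  have hup : ∑ j ∈ Icc 1 J, (1 - (j : ℝ) / (J + 1)) * ((1 + (u ^ j).re) * Sj j) ≤ J / 8 := by
    have h1 : ∀ j ∈ Icc 1 J, (1 - (j : ℝ) / (J + 1)) * ((1 + (u ^ j).re) * Sj j)
        ≤ (1 - (j : ℝ) / (J + 1)) * (1 / 4) := by
      intro j hj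
      rw [Finset.mem_Icc] at hj
      have hjJ : (j : ℝ) ≤ J := by exact_mod_cast hj.2
      have a1 : 0 ≤ 1 - (j : ℝ) / (J + 1) := by
        rw [sub_nonneg, div_le_one (by positivity)]; linarith
      apply mul_le_mul_of_nonneg_left _ a1
      have a2 : |(u ^ j).re| ≤ 1 := by
        refine (Complex.abs_re_le_norm _).trans ?_
        rw [norm_pow, hw1, one_pow]
      rw [abs_le] at a2
      have a3 : Sj j < 1 / 8 := hcon j hj.1 (hjJ.trans hJle)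
      have a4 : 0 ≤ 1 + (u ^ j).re := by linarith
      calc (1 + (u ^ j).re) * Sj j ≤ (1 + (u ^ j).re) * (1 / 8) := mul_le_mul_of_nonneg_left a3.le a4
        _ ≤ 2 * (1 / 8) := by linarith
        _ = 1 / 4 := by norm_num
    refine (Finset.sum_le_sum h1).trans ?_
    rw [← Finset.sum_mul]
    have h2 : ∑ j ∈ Icc 1 J, (1 - (j : ℝ) / (J + 1)) = J / 2 := by
      have := PJ_one J
      unfold PJ at this
      simpa using this
    rw [h2]
    linarith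
  -- lower bound
  have hlow : (J : ℝ) / 4 + 9 / 4 - 3 * L
      ≤ ∑ i ∈ S, b i * (PJ J (w i) + 1 / 2 * PJ J (w i * u) + 1 / 2 * PJ J (w i * (starRingEnd ℂ) u)) := by
    rw [← Finset.add_sum_erase S _ hi₁]
    have h1 : ∀ i ∈ S.erase i₁, -3 * (b i * ‖w i‖)
        ≤ b i * (PJ J (w i) + 1 / 2 * PJ J (w i * u) + 1 / 2 * PJ J (w i * (starRingEnd ℂ) u)) := by
      intro i hi
      have hiS := Finset.mem_of_mem_erase hi
      have := mul_le_mul_of_nonneg_left (three_P_ge J (hmax i hiS) hw1) (hb i hiS)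
      calc -3 * (b i * ‖w i‖) = b i * (-3 * ‖w i‖) := by ring
        _ ≤ _ := this
    have h2 := Finset.sum_le_sum h1
    rw [← Finset.mul_sum] at h2
    have h3 : ∑ i ∈ S.erase i₁, b i * ‖w i‖ ≤ L - b i₁ := by
      have := Finset.add_sum_erase S (fun i => b i * ‖w i‖) hi₁
      rw [← hu, hw1, mul_one] at this
      linarith
    have h4 : (J : ℝ) / 4 - 3 / 4 ≤ PJ J (w i₁) + 1 / 2 * PJ J (w i₁ * u) + 1 / 2 * PJ J (w i₁ * (starRingEnd ℂ) u) := by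
      have a1 := PJ_ge J (w := w i₁) (hmax i₁ hi₁)
      have a2 := PJ_ge J (w := w i₁ * u) (by rw [norm_mul, ← hu, hw1, mul_one])
      have a3 : w i₁ * (starRingEnd ℂ) u = 1 := by
        rw [← hu, Complex.mul_conj, Complex.normSq_eq_norm_sq, hw1]; simp
      rw [a3, PJ_one]
      linarith
    have h5 : (J : ℝ) / 4 - 3 / 4 ≤ b i₁ * (PJ J (w i₁) + 1 / 2 * PJ J (w i₁ * u) + 1 / 2 * PJ J (w i₁ * (starRingEnd ℂ) u))
        + 3 - 3 * b i₁ + 3 * (b i₁ - 1) := by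
      have hJ3 : (3 : ℝ) ≤ J := by linarith
      nlinarith
    have h6 : (J : ℝ) / 4 - 3 / 4 ≤ b i₁ * (PJ J (w i₁) + 1 / 2 * PJ J (w i₁ * u) + 1 / 2 * PJ J (w i₁ * (starRingEnd ℂ) u)) := by
      have hJ3 : (3 : ℝ) ≤ J := by linarith
      nlinarith
    nlinarith
  rw [hT] at hup
  linarith

/-- **Power sums** (Lagarias–Montgomery–Odlyzko). -/
theorem power_sum {ι : Type*} (S : Finset ι) (z : ι → ℂ) (b : ι → ℝ) (hb : ∀ i ∈ S, 0 ≤ b i)
    {i₁ : ι} (hi₁ : i₁ ∈ S) (hb1 : 1 ≤ b i₁) (hz1 : z i₁ ≠ 0) (hmax : ∀ i ∈ S, ‖z i‖ ≤ ‖z i₁‖)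
    {L : ℝ} (hL : ∑ i ∈ S, b i * ‖z i‖ ≤ L * ‖z i₁‖) :
    ∃ m : ℕ, 1 ≤ m ∧ (m : ℝ) ≤ 24 * L ∧ ‖z i₁‖ ^ m / 8 ≤ (∑ i ∈ S, (b i : ℂ) * z i ^ m).re := by
  have hr : 0 < ‖z i₁‖ := norm_pos_iff.mpr hz1
  set r := ‖z i₁‖ with hrdef
  obtain ⟨m, hm1, hm2, hm3⟩ := power_sum_norm S (fun i => z i / (r : ℂ)) b hb hi₁ hb1
    (by
      rw [norm_div, Complex.norm_real, Real.norm_eq_abs, abs_of_pos hr, ← hrdef, div_self hr.ne'])
    (by
      intro i hi
      rw [norm_div, Complex.norm_real, Real.norm_eq_abs, abs_of_pos hr, div_le_one hr]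
      exact hmax i hi)
    (L := L) (by
      have : ∀ i ∈ S, b i * ‖z i / (r : ℂ)‖ = b i * ‖z i‖ / r := by
        intro i _
        rw [norm_div, Complex.norm_real, Real.norm_eq_abs, abs_of_pos hr, mul_div_assoc]
      rw [Finset.sum_congr rfl this, ← Finset.sum_div, div_le_iff₀ hr]
      exact hL)
  refine ⟨m, hm1, hm2, ?_⟩
  have h1 : ∑ i ∈ S, (b i : ℂ) * (z i / (r : ℂ)) ^ m = (∑ i ∈ S, (b i : ℂ) * z i ^ m) / ((r ^ m : ℝ) : ℂ) := by
    rw [Finset.sum_div]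
    apply Finset.sum_congr rfl
    intro i _
    rw [div_pow]
    push_cast
    ring
  rw [h1, Complex.div_ofReal_re, le_div_iff₀ (by positivity)] at hm3
  linarith

end Vale.Agent.P026.H142
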