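import Vale.Agent.P026.H392.SieveB
import Vale.Agent.P026.H142.FormCop

open Finset ArithmeticFunction
open scoped ArithmeticFunction.Moebius BigOperators Pointwise

namespace Vale.Agent.P026.H142

open Vale.Agent.P026.H392

/-- The sieve sum with weights supported on integers coprime to `r` (adapted from
helper392's `sieve_sum`). -/
theorem sieve_sum_cop {u v : ℕ → ℂ} (hu : ∀ m n, u (m * n) = u m * u n) (hv : ∀ m n, v (m * n) = v m * v n)
    {x : ℕ → ℝ} (hx1 : x 1 = 1) (hxm : ∀ m n, x (m * n) = x m * x n) {w : ℕ → ℝ} {N : ℕ} (hN : 1 ≤ N)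
    (hw : ∀ d, |w d| ≤ 1) {r : ℕ} (hws : ∀ d, w d ≠ 0 → Squarefree d ∧ d ≤ N ∧ Nat.Coprime d r) {s c : ℂ} {δ E Y₀ X : ℝ}
    (hδ : 0 ≤ δ) (hδ1 : δ ≤ 1)
    (hub : ∀ n : ℕ, 1 ≤ n → ‖u n‖ ≤ (n:ℝ) ^ (-(1 - δ))) (hvb : ∀ n : ℕ, 1 ≤ n → ‖v n‖ ≤ (n:ℝ) ^ (-(1 - δ)))
    (hmain : ∀ n : ℕ, 1 ≤ n → Nat.Coprime n r → u n = pw s n ∧ v n = x n * pw s n) (hE : 0 ≤ E) (hY₀ : 1 ≤ Y₀)
    (hest : ∀ y, Y₀ ≤ y → y ≤ X → ‖cv u v y - c * pw (s - 1) y‖ ≤ E)
    (hX : ((N:ℝ)) ^ 4 * Y₀ ≤ X) :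
    ‖(∑ n ∈ Icc 1 ⌊X⌋₊, (((∑ d ∈ n.divisors, w d) ^ 2 : ℝ) : ℂ) * ∑ d ∈ n.divisors, u d * v (n / d))
      - c * pw (s - 1) X * ((∑ d ∈ Icc 1 N, ∑ e ∈ Icc 1 N, w d * w e * nuE x (Nat.lcm d e) : ℝ) : ℂ)‖
      ≤ E * (N:ℝ) ^ (2 * δ) * (1 + 2 * Real.log N) ^ 16 := by
  classical
  have hN1 : (1:ℝ) ≤ N := by exact_mod_cast hN
  have hX0 : 0 < X := lt_of_lt_of_le (by positivity) hX
  -- S(n)^2 expansion
  have hS : ∀ n ∈ Icc 1 ⌊X⌋₊, ((((∑ d ∈ n.divisors, w d) ^ 2 : ℝ)) : ℂ)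
      = ∑ d ∈ Icc 1 N, ∑ e ∈ Icc 1 N, if Nat.lcm d e ∣ n then ((w d * w e : ℝ) : ℂ) else 0 := by
    intro n hn
    rw [Finset.mem_Icc] at hn
    have h1 : ∑ d ∈ n.divisors, w d = ∑ d ∈ Icc 1 N, if d ∣ n then w d else 0 := by
      rw [← Finset.sum_filter]
      rw [← Finset.sum_filter_of_ne (s := n.divisors) (p := fun d => w d ≠ 0) (fun d _ h => h),
        ← Finset.sum_filter_of_ne (s := (Icc 1 N).filter (fun d => d ∣ n)) (p := fun d => w d ≠ 0)
          (fun d _ h => h)]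
      refine Finset.sum_congr ?_ fun _ _ => rfl
      ext d
      simp only [Finset.mem_filter, Nat.mem_divisors, Finset.mem_Icc]
      constructor
      · rintro ⟨⟨h2, h3⟩, h4⟩
        exact ⟨⟨⟨Nat.pos_of_dvd_of_pos h2 (by omega), (hws d h4).2.1⟩, h2⟩, h4⟩
      · rintro ⟨⟨_, h2⟩, h4⟩
        exact ⟨⟨h2, by omega⟩, h4⟩
    rw [h1, sq, Finset.sum_mul_sum]
    push_cast
    refine Finset.sum_congr rfl fun d _ => Finset.sum_congr rfl fun e _ => ?_
    by_cases h2 : d ∣ n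
    · by_cases h3 : e ∣ n
      · rw [if_pos h2, if_pos h3, if_pos (Nat.lcm_dvd h2 h3)]
      · rw [if_neg h3, if_neg (fun h => h3 ((Nat.dvd_lcm_right d e).trans h)), Complex.ofReal_zero, mul_zero]
    · rw [if_neg h2, if_neg (fun h => h2 ((Nat.dvd_lcm_left d e).trans h)), Complex.ofReal_zero, zero_mul]
  have hexp : (∑ n ∈ Icc 1 ⌊X⌋₊, (((∑ d ∈ n.divisors, w d) ^ 2 : ℝ) : ℂ) * ∑ d ∈ n.divisors, u d * v (n / d))
      = ∑ d ∈ Icc 1 N, ∑ e ∈ Icc 1 N, ((w d * w e : ℝ) : ℂ) *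
          ∑ n ∈ (Icc 1 ⌊X⌋₊).filter (fun n => Nat.lcm d e ∣ n), ∑ b ∈ n.divisors, u b * v (n / b) := by
    rw [Finset.sum_congr rfl fun n hn => by rw [hS n hn]]
    simp_rw [Finset.sum_mul]
    rw [Finset.sum_comm]
    refine Finset.sum_congr rfl fun d _ => ?_
    rw [Finset.sum_comm]
    refine Finset.sum_congr rfl fun e _ => ?_
    rw [Finset.mul_sum, Finset.sum_filter]
    refine Finset.sum_congr rfl fun n _ => ?_
    split_ifs <;> simp
  -- the estimate for one D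
  have hD : ∀ D : ℕ, Squarefree D → D ≤ N * N → Nat.Coprime D r →
      ‖(∑ n ∈ (Icc 1 ⌊X⌋₊).filter (fun n => D ∣ n), ∑ b ∈ n.divisors, u b * v (n / b))
        - c * pw (s - 1) X * ((nuE x D : ℝ) : ℂ)‖
        ≤ E * (((D.divisors.card : ℝ)) ^ 2 * (D:ℝ) ^ (-(1 - δ))) := by
    intro D hDsq hDN hDr
    have hD0 : D ≠ 0 := hDsq.ne_zero
    have hDpos : (0:ℝ) < D := by exact_mod_cast Nat.pos_of_ne_zero hD0
    rw [ED_expand hu hv hD0 X]
    have hmain' : c * pw (s - 1) X * ((nuE x D : ℝ) : ℂ)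
        = ∑ k ∈ D.divisors, ∑ l ∈ (D / k).divisors,
          ((μ l : ℤ) : ℂ) * (u (D / k) * v (k * l)) * (c * pw (s - 1) (X / ((D * l : ℕ) : ℝ))) := by
      · rw [← nuE_identity hx1 hxm hDsq]
        push_cast
        rw [Finset.mul_sum]
        refine Finset.sum_congr rfl fun k hk => ?_
        rw [Finset.mul_sum]
        refine Finset.sum_congr rfl fun l hl => ?_
        have hkD := Nat.dvd_of_mem_divisors hk
        have hk0 : 0 < k := Nat.pos_of_mem_divisors hk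
        have hl0 : 0 < l := Nat.pos_of_mem_divisors hl
        have hDk : 0 < D / k := Nat.div_pos (Nat.le_of_dvd (Nat.pos_of_ne_zero hD0) hkD) hk0
        have hkl : k * l ∣ D := by
          have h9 := Nat.mul_dvd_mul_left k (Nat.dvd_of_mem_divisors hl)
          rwa [Nat.mul_div_cancel' hkD] at h9
        obtain ⟨e1, _⟩ := hmain (D / k) hDk (Nat.Coprime.coprime_dvd_left (Nat.div_dvd_of_dvd hkD) hDr)
        obtain ⟨_, e2⟩ := hmain (k * l) (Nat.mul_pos hk0 hl0) (Nat.Coprime.coprime_dvd_left hkl hDr)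
        have hDl : (0:ℝ) < (D:ℝ) * l := by
          have : (0:ℝ) < l := by exact_mod_cast hl0
          positivity
        have e3 : pw s ((D / k : ℕ) : ℝ) * pw s ((k * l : ℕ) : ℝ) = pw s ((D:ℝ) * l) := by
          rw [← pw_mul (by exact_mod_cast hDk) (by exact_mod_cast Nat.mul_pos hk0 hl0)]
          congr 1
          have : (D / k * (k * l) : ℕ) = D * l := by rw [← mul_assoc, Nat.div_mul_cancel hkD]
          exact_mod_cast this
        have e4 : pw (s - 1) (X / ((D:ℝ) * l)) = pw (s - 1) X * pw (1 - s) ((D:ℝ) * l) := by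
          rw [div_eq_mul_inv, pw_mul hX0 (inv_pos.2 hDl)]
          congr 1
          unfold pw
          rw [Complex.ofReal_inv, Complex.inv_cpow, ← Complex.cpow_neg]
          · congr 1; ring
          · rw [Complex.arg_ofReal_of_nonneg hDl.le]
            exact Real.pi_pos.ne
        have e5 : pw s ((D:ℝ) * l) * pw (1 - s) ((D:ℝ) * l) = 1 / (((D:ℝ) * l : ℝ) : ℂ) := by
          unfold pw
          have hne : ((((D:ℝ) * l : ℝ)) : ℂ) ≠ 0 := by exact_mod_cast hDl.ne'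
          rw [← Complex.cpow_add _ _ hne, show -s + -(1 - s) = -1 by ring, Complex.cpow_neg_one, one_div]
        have hprod : u (D / k) * v (k * l) * pw (s - 1) (X / ((D:ℝ) * l))
            = pw (s - 1) X * ((x (k * l) : ℝ) : ℂ) * (1 / (((D:ℝ) * l : ℝ) : ℂ)) := by
          rw [e1, e2, e4, ← e5, ← e3]; ring
        calc c * pw (s - 1) X * (((μ l : ℤ) : ℂ) * ((x (k * l) : ℝ) : ℂ) / ((D:ℂ) * (l:ℂ)))
            = ((μ l : ℤ) : ℂ) * c * (pw (s - 1) X * ((x (k * l) : ℝ) : ℂ) * (1 / (((D:ℝ) * l : ℝ) : ℂ))) := by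
              push_cast; ring
          _ = _ := by rw [← hprod]; ring
    rw [hmain', ← Finset.sum_sub_distrib]
    have hterm : ∀ k ∈ D.divisors, ‖(∑ l ∈ (D / k).divisors,
          ((μ l : ℤ) : ℂ) * (u (D / k) * v (k * l)) * cv u v (X / ((D * l : ℕ) : ℝ)))
        - (∑ l ∈ (D / k).divisors,
          ((μ l : ℤ) : ℂ) * (u (D / k) * v (k * l)) * (c * pw (s - 1) (X / ((D * l : ℕ) : ℝ))))‖
        ≤ (D.divisors.card : ℝ) * (E * (D:ℝ) ^ (-(1 - δ))) := by
      intro k hk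
      have hkD := Nat.dvd_of_mem_divisors hk
      have hk0 : 0 < k := Nat.pos_of_mem_divisors hk
      have hDk : 0 < D / k := Nat.div_pos (Nat.le_of_dvd (Nat.pos_of_ne_zero hD0) hkD) hk0
      rw [← Finset.sum_sub_distrib]
      have hl : ∀ l ∈ (D / k).divisors,
          ‖((μ l : ℤ) : ℂ) * (u (D / k) * v (k * l)) * cv u v (X / ((D * l : ℕ) : ℝ))
            - ((μ l : ℤ) : ℂ) * (u (D / k) * v (k * l)) * (c * pw (s - 1) (X / ((D * l : ℕ) : ℝ)))‖
          ≤ E * (D:ℝ) ^ (-(1 - δ)) := by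
        intro l hl
        have hl0 : 0 < l := Nat.pos_of_mem_divisors hl
        have hlR : (1:ℝ) ≤ l := by exact_mod_cast hl0
        have hlD : l ≤ D := (Nat.divisor_le hl).trans (Nat.div_le_self D k)
        rw [← mul_sub, norm_mul, norm_mul, norm_mul]
        have b1 : ‖((μ l : ℤ) : ℂ)‖ ≤ 1 := by
          rw [Complex.norm_intCast]
          exact_mod_cast ArithmeticFunction.abs_moebius_le_one
        have b2 : ‖u (D / k)‖ * ‖v (k * l)‖ ≤ (D:ℝ) ^ (-(1 - δ)) := by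
          have c1 := hub (D / k) hDk
          have c2 := hvb (k * l) (Nat.mul_pos hk0 hl0)
          calc ‖u (D / k)‖ * ‖v (k * l)‖
              ≤ ((D / k : ℕ) : ℝ) ^ (-(1 - δ)) * ((k * l : ℕ) : ℝ) ^ (-(1 - δ)) :=
                mul_le_mul c1 c2 (norm_nonneg _) (by positivity)
            _ = ((D:ℝ) * l) ^ (-(1 - δ)) := by
                rw [← Real.mul_rpow (Nat.cast_nonneg _) (Nat.cast_nonneg _)]
                congr 1
                have : (D / k * (k * l) : ℕ) = D * l := by rw [← mul_assoc, Nat.div_mul_cancel hkD]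
                exact_mod_cast this
            _ ≤ (D:ℝ) ^ (-(1 - δ)) := by
                refine Real.rpow_le_rpow_of_nonpos hDpos ?_ (by linarith)
                nlinarith
        have b3 : ‖cv u v (X / ((D * l : ℕ) : ℝ)) - c * pw (s - 1) (X / ((D * l : ℕ) : ℝ))‖ ≤ E := by
          have hDl1 : (1:ℝ) ≤ ((D * l : ℕ) : ℝ) := by
            exact_mod_cast Nat.mul_pos (Nat.pos_of_ne_zero hD0) hl0
          have hDl2 : ((D * l : ℕ) : ℝ) ≤ (N:ℝ)^4 := by
            have : D * l ≤ N^4 := by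
              calc D * l ≤ (N * N) * (N * N) := Nat.mul_le_mul hDN (hlD.trans hDN)
                _ = N^4 := by ring
            exact_mod_cast this
          refine hest _ ?_ (div_le_self hX0.le hDl1)
          rw [le_div_iff₀ (by linarith)]
          calc Y₀ * ((D * l : ℕ) : ℝ) ≤ Y₀ * (N:ℝ)^4 := mul_le_mul_of_nonneg_left hDl2 (by linarith)
            _ = (N:ℝ)^4 * Y₀ := mul_comm _ _
            _ ≤ X := hX
        calc ‖((μ l : ℤ) : ℂ)‖ * (‖u (D / k)‖ * ‖v (k * l)‖)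
              * ‖cv u v (X / ((D * l : ℕ) : ℝ)) - c * pw (s - 1) (X / ((D * l : ℕ) : ℝ))‖
            ≤ (1 * (D:ℝ) ^ (-(1 - δ))) * E :=
              mul_le_mul (mul_le_mul b1 b2 (by positivity) zero_le_one) b3 (norm_nonneg _) (by positivity)
          _ = _ := by ring
      calc _ ≤ ∑ l ∈ (D / k).divisors, E * (D:ℝ) ^ (-(1 - δ)) :=
            (norm_sum_le _ _).trans (Finset.sum_le_sum hl)
        _ = ((D / k).divisors.card : ℝ) * (E * (D:ℝ) ^ (-(1 - δ))) := by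
            rw [Finset.sum_const, nsmul_eq_mul]
        _ ≤ _ := by
            refine mul_le_mul_of_nonneg_right ?_ (by positivity)
            have : (D / k).divisors ⊆ D.divisors := Nat.divisors_subset_of_dvd hD0 (Nat.div_dvd_of_dvd hkD)
            exact_mod_cast Finset.card_le_card this
    calc _ ≤ ∑ k ∈ D.divisors, (D.divisors.card : ℝ) * (E * (D:ℝ) ^ (-(1 - δ))) :=
          (norm_sum_le _ _).trans (Finset.sum_le_sum hterm)
      _ = _ := by rw [Finset.sum_const, nsmul_eq_mul]; ring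
  -- assemble
  rw [hexp]
  have hsub : (∑ d ∈ Icc 1 N, ∑ e ∈ Icc 1 N, ((w d * w e : ℝ) : ℂ) *
          ∑ n ∈ (Icc 1 ⌊X⌋₊).filter (fun n => Nat.lcm d e ∣ n), ∑ b ∈ n.divisors, u b * v (n / b))
      - c * pw (s - 1) X * ((∑ d ∈ Icc 1 N, ∑ e ∈ Icc 1 N, w d * w e * nuE x (Nat.lcm d e) : ℝ) : ℂ)
      = ∑ d ∈ Icc 1 N, ∑ e ∈ Icc 1 N, ((w d * w e : ℝ) : ℂ) *
          ((∑ n ∈ (Icc 1 ⌊X⌋₊).filter (fun n => Nat.lcm d e ∣ n), ∑ b ∈ n.divisors, u b * v (n / b))
            - c * pw (s - 1) X * ((nuE x (Nat.lcm d e) : ℝ) : ℂ)) := by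
    push_cast
    rw [Finset.mul_sum, ← Finset.sum_sub_distrib]
    refine Finset.sum_congr rfl fun d _ => ?_
    rw [Finset.mul_sum, ← Finset.sum_sub_distrib]
    refine Finset.sum_congr rfl fun e _ => ?_
    ring
  rw [hsub]
  have hpair : ∀ d ∈ Icc 1 N, ∀ e ∈ Icc 1 N, ‖((w d * w e : ℝ) : ℂ) *
          ((∑ n ∈ (Icc 1 ⌊X⌋₊).filter (fun n => Nat.lcm d e ∣ n), ∑ b ∈ n.divisors, u b * v (n / b))
            - c * pw (s - 1) X * ((nuE x (Nat.lcm d e) : ℝ) : ℂ))‖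
      ≤ E * ((((Nat.lcm d e).divisors.card : ℝ)) ^ 2 * ((Nat.lcm d e : ℕ):ℝ) ^ (-(1 - δ))) := by
    intro d hd e he
    rw [Finset.mem_Icc] at hd he
    by_cases h0 : w d * w e = 0
    · rw [h0, Complex.ofReal_zero, zero_mul, norm_zero]
      positivity
    · have hwd : w d ≠ 0 := left_ne_zero_of_mul h0
      have hwe : w e ≠ 0 := right_ne_zero_of_mul h0
      have hle : Nat.lcm d e ≤ N * N :=
        (Nat.le_of_dvd (Nat.mul_pos (by omega) (by omega)) (Nat.lcm_dvd_mul d e)).trans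
          (Nat.mul_le_mul hd.2 he.2)
      rw [norm_mul]
      have b1 : ‖((w d * w e : ℝ) : ℂ)‖ ≤ 1 := by
        rw [Complex.norm_real, Real.norm_eq_abs, abs_mul]
        calc |w d| * |w e| ≤ 1 * 1 := mul_le_mul (hw d) (hw e) (abs_nonneg _) zero_le_one
          _ = 1 := one_mul 1
      calc _ ≤ 1 * (E * ((((Nat.lcm d e).divisors.card : ℝ)) ^ 2 * ((Nat.lcm d e : ℕ):ℝ) ^ (-(1 - δ)))) :=
            mul_le_mul b1 (hD _ (squarefree_lcm (hws d hwd).1 (hws e hwe).1) hle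
              (Nat.Coprime.coprime_dvd_left (Nat.lcm_dvd_mul d e)
                (Nat.Coprime.mul_left (hws d hwd).2.2 (hws e hwe).2.2))) (norm_nonneg _) zero_le_one
        _ = _ := one_mul _
  have hlogN : 0 ≤ Real.log N := Real.log_nonneg hN1
  calc _ ≤ ∑ d ∈ Icc 1 N, ∑ e ∈ Icc 1 N,
        E * ((((Nat.lcm d e).divisors.card : ℝ)) ^ 2 * ((Nat.lcm d e : ℕ):ℝ) ^ (-(1 - δ))) := by
        refine (norm_sum_le _ _).trans (Finset.sum_le_sum fun d hd => ?_)
        exact (norm_sum_le _ _).trans (Finset.sum_le_sum fun e he => hpair d hd e he)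
    _ = E * ∑ d ∈ Icc 1 N, ∑ e ∈ Icc 1 N,
        ((((Nat.lcm d e).divisors.card : ℝ)) ^ 2 * ((Nat.lcm d e : ℕ):ℝ) ^ (-(1 - δ))) := by
        rw [Finset.mul_sum]
        exact Finset.sum_congr rfl fun d _ => by rw [Finset.mul_sum]
    _ ≤ E * ∑ D ∈ Icc 1 (N * N), ((D.divisors.card : ℝ)) ^ 2 *
          (((D.divisors.card : ℝ)) ^ 2 * (D:ℝ) ^ (-(1 - δ))) :=
        mul_le_mul_of_nonneg_left
          (lcm_fiber (F := fun D => ((D.divisors.card : ℝ)) ^ 2 * (D:ℝ) ^ (-(1 - δ)))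
            (fun n => by positivity)) hE
    _ ≤ E * ∑ D ∈ Icc 1 (N * N), (N:ℝ) ^ (2 * δ) * (((D.divisors.card : ℝ)) ^ 4 / D) := by
        refine mul_le_mul_of_nonneg_left (Finset.sum_le_sum fun D hD => ?_) hE
        rw [Finset.mem_Icc] at hD
        have hD0 : (0:ℝ) < D := by exact_mod_cast hD.1
        have hDN : (D:ℝ) ≤ (N:ℝ) * N := by exact_mod_cast hD.2
        have h1 : (D:ℝ) ^ (-(1 - δ)) ≤ (N:ℝ) ^ (2 * δ) / D := by
          rw [show -(1 - δ) = δ + -1 by ring, Real.rpow_add hD0, Real.rpow_neg_one, ← div_eq_mul_inv]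
          refine div_le_div_of_nonneg_right ?_ hD0.le
          calc (D:ℝ) ^ δ ≤ ((N:ℝ) * N) ^ δ := Real.rpow_le_rpow hD0.le hDN hδ
            _ = (N:ℝ) ^ (2 * δ) := by
              rw [Real.mul_rpow (by linarith) (by linarith), ← Real.rpow_add (by linarith)]
              congr 1; ring
        calc ((D.divisors.card : ℝ)) ^ 2 * (((D.divisors.card : ℝ)) ^ 2 * (D:ℝ) ^ (-(1 - δ)))
            = ((D.divisors.card : ℝ)) ^ 4 * (D:ℝ) ^ (-(1 - δ)) := by ring
          _ ≤ ((D.divisors.card : ℝ)) ^ 4 * ((N:ℝ) ^ (2 * δ) / D) :=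
              mul_le_mul_of_nonneg_left h1 (by positivity)
          _ = _ := by ring
    _ = E * (N:ℝ) ^ (2 * δ) * ∑ D ∈ Icc 1 (N * N), (((D.divisors.card : ℝ)) ^ 4 / D) := by
        rw [← Finset.mul_sum]; ring
    _ ≤ E * (N:ℝ) ^ (2 * δ) * (1 + 2 * Real.log N) ^ 16 := by
        refine mul_le_mul_of_nonneg_left ?_ (by positivity)
        have h1 := tau_pow_sum 4 (N := N * N) (Nat.mul_pos hN hN)
        have h2 : Real.log ((N * N : ℕ) : ℝ) = 2 * Real.log N := by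
          push_cast
          rw [Real.log_mul (by linarith) (by linarith)]; ring
        rw [h2] at h1
        norm_num at h1
        exact h1

end Vale.Agent.P026.H142
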