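import Vale.Agent.P026.H142.SieveCop
import Vale.Agent.P026.H392.KElink

open Finset Complex Filter Topology

namespace Vale.Agent.P026.H142

open Vale.Agent.P026.H392

/-- the indicator of integers coprime to `q`. -/
noncomputable def prq (q n : ℕ) : ℂ := if Nat.Coprime n q then 1 else 0

lemma norm_prq_le (q n : ℕ) : ‖prq q n‖ ≤ 1 := by
  unfold prq; split_ifs <;> simp

lemma prq_per (q n : ℕ) : prq q (n + q) = prq q n := by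
  unfold prq
  simp only [Nat.coprime_add_self_left]

lemma mean_prq (q : ℕ) : mean q (prq q) = (Nat.totient q : ℂ) / q := by
  unfold mean prq
  congr 1
  rw [← Finset.sum_filter, Finset.sum_const, nsmul_eq_mul, mul_one, Nat.totient_eq_card_coprime]
  congr 2
  ext n
  simp [Nat.coprime_comm]

lemma prq_mul (q m n : ℕ) : prq q (m * n) = prq q m * prq q n := by
  unfold prq
  by_cases h1 : Nat.Coprime m q
  · by_cases h2 : Nat.Coprime n q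
    · rw [if_pos h1, if_pos h2, if_pos (Nat.Coprime.mul_left h1 h2), one_mul]
    · rw [if_neg h2, if_neg, mul_zero]
      exact fun h => h2 (Nat.Coprime.coprime_mul_left h)
  · rw [if_neg h1, if_neg, zero_mul]
    exact fun h => h1 (Nat.Coprime.coprime_mul_right h)

/-- Partial sums for a non-principal character and for the principal one. -/
theorem KE_cop {C c : ℝ} (hC : 0 < C) (hc : 0 < c) (hVK : VKSum C c) {A : ℝ} (hA : 1 ≤ A) :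
    ∃ κ d₀ M₀ : ℝ, 10 ≤ κ ∧ 0 < d₀ ∧ d₀ ≤ 1/8 ∧ 1 ≤ M₀ ∧
      ∀ Q T d : ℝ, 1 ≤ Q → 3 ≤ T → 0 ≤ d → d ≤ d₀ →
      ∀ (q : ℕ) [NeZero q] (χ : DirichletCharacter ℂ q), (q:ℝ) ≤ Q^2 → χ ≠ 1 →
        ∀ s : ℂ, s ≠ 1 → 1 - 2 * d ≤ s.re → s.re ≤ 2 → |s.im| ≤ 4 * T →
        (∀ t : ℝ, Real.exp (κ * MM M₀ Q T d) ≤ t →
          ‖(∑ n ∈ Finset.Icc 1 ⌊t⌋₊, χ (n : ZMod q) * pw s n) - DirichletCharacter.LFunction χ s‖
            ≤ (MM M₀ Q T d) ^ (-A) * Real.exp (-A * κ * d * MM M₀ Q T d)) ∧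
        (∀ t : ℝ, Real.exp (κ * MM M₀ Q T d) ≤ t →
          ‖(∑ n ∈ Finset.Icc 1 ⌊t⌋₊, χ (n : ZMod q) * pw 1 n) - DirichletCharacter.LFunction χ 1‖
            ≤ (MM M₀ Q T d) ^ (-A) * Real.exp (-A * κ * d * MM M₀ Q T d)) ∧
        ∃ α : ℂ, ∀ t : ℝ, Real.exp (κ * MM M₀ Q T d) ≤ t →
          ‖(∑ n ∈ Finset.Icc 1 ⌊t⌋₊, prq q n * pw s n) - α
            - ((Nat.totient q : ℂ) / q / (1 - s)) * pw (s - 1) t‖
            ≤ (MM M₀ Q T d) ^ (-A) * Real.exp (-A * κ * d * MM M₀ Q T d) := by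
  obtain ⟨κ, d₀, M₀, hκ, hd₀, hd₀', hM₀, H⟩ := KE hC hc hVK hA
  refine ⟨κ, min d₀ (1/8), M₀, hκ, lt_min hd₀ (by norm_num), min_le_right _ _, hM₀, ?_⟩
  intro Q T d hQ hT hd hdd q _ χ hq hχ s hs hs1 hs2 him
  have hd1 : d ≤ d₀ := hdd.trans (min_le_left _ _)
  have hd2 : d ≤ 1/8 := hdd.trans (min_le_right _ _)
  have hq0 : 0 < q := Nat.pos_of_ne_zero (NeZero.ne q)
  have key : ∀ s : ℂ, 1 - 2 * d ≤ s.re → s.re ≤ 2 → |s.im| ≤ 4 * T →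
      ∀ t : ℝ, Real.exp (κ * MM M₀ Q T d) ≤ t →
          ‖(∑ n ∈ Finset.Icc 1 ⌊t⌋₊, χ (n : ZMod q) * pw s n) - DirichletCharacter.LFunction χ s‖
            ≤ (MM M₀ Q T d) ^ (-A) * Real.exp (-A * κ * d * MM M₀ Q T d) := by
    intro s hs1 hs2 him t ht
    obtain ⟨ℓ, h1, h2⟩ := H Q T d hQ hT hd hd1 q hq0 hq (fun n => χ (n : ZMod q))
      (fun n => DirichletCharacter.norm_le_one χ _) (fun n => by simp) s hs1 hs2 him
    have e : DirichletCharacter.LFunction χ s = ℓ :=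
      tendsto_nhds_unique (link_char hχ (by linarith)) h1
    have h3 := h2 t ht
    rw [mean_char hχ, zero_mul, sub_zero, ← e] at h3
    exact h3
  refine ⟨key s hs1 hs2 him, key 1 (by simp; linarith) (by simp) (by simp; linarith), ?_⟩
  obtain ⟨ℓ, h1, h2⟩ := H Q T d hQ hT hd hd1 q hq0 hq (prq q) (norm_prq_le q) (prq_per q) s hs1 hs2 him
  refine ⟨ℓ - (Nat.totient q : ℂ) / q / (1 - s), fun t ht => ?_⟩
  have h3 := h2 t ht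
  have ht0 : 0 < t := (Real.exp_pos _).trans_le ht
  rw [mean_prq q, integral_pw hs one_pos ht0] at h3
  refine le_of_eq_of_le (congrArg norm ?_) h3
  have a1 : (1 - s) ≠ 0 := sub_ne_zero.2 (Ne.symm hs)
  have a3 : pw (s - 1) 1 = 1 := by simp [pw]
  have a4 : (q:ℂ) ≠ 0 := by exact_mod_cast hq0.ne'
  rw [a3]
  field_simp
  ring

section

variable {q : ℕ} [NeZero q] {χ : DirichletCharacter ℂ q} {x : ℕ → ℝ}

lemma q_ne_one (hχ : χ ≠ 1) : q ≠ 1 := by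
  rintro rfl
  exact hχ (DirichletCharacter.level_one χ)

omit [NeZero q] in
lemma char_zero_of_not_coprime {n : ℕ} (h : ¬ Nat.Coprime n q) : χ (n : ZMod q) = 0 := by
  apply MulChar.map_nonunit
  rwa [ZMod.isUnit_iff_coprime]

lemma pw_nat_mul (ρ : ℂ) {m n : ℕ} (hm : 1 ≤ m) (hn : 1 ≤ n) :
    pw ρ ((m * n : ℕ) : ℝ) = pw ρ m * pw ρ n := by
  rw [← pw_mul (by exact_mod_cast hm) (by exact_mod_cast hn)]
  push_cast
  rfl

lemma uC_mul (hχ : χ ≠ 1) (ρ : ℂ) (m n : ℕ) :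
    prq q (m * n) * pw ρ ((m * n : ℕ) : ℝ) = (prq q m * pw ρ m) * (prq q n * pw ρ n) := by
  have h0 : prq q 0 = 0 := by
    unfold prq
    rw [if_neg]
    rw [Nat.coprime_zero_left]
    exact q_ne_one hχ
  rcases Nat.eq_zero_or_pos m with rfl | hm
  · rw [zero_mul, h0]; ring
  rcases Nat.eq_zero_or_pos n with rfl | hn
  · rw [mul_zero, h0]; ring
  rw [prq_mul, pw_nat_mul ρ hm hn]
  ring

lemma vC_mul (hχ : χ ≠ 1) (ρ : ℂ) (m n : ℕ) :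
    χ ((m * n : ℕ) : ZMod q) * pw ρ ((m * n : ℕ) : ℝ)
      = (χ (m : ZMod q) * pw ρ m) * (χ (n : ZMod q) * pw ρ n) := by
  have h0 : χ ((0 : ℕ) : ZMod q) = 0 := by
    apply char_zero_of_not_coprime
    rw [Nat.coprime_zero_left]
    exact q_ne_one hχ
  rcases Nat.eq_zero_or_pos m with rfl | hm
  · rw [zero_mul, h0]; ring
  rcases Nat.eq_zero_or_pos n with rfl | hn
  · rw [mul_zero, h0]; ring
  rw [pw_nat_mul ρ hm hn]
  push_cast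
  rw [map_mul]
  ring

omit [NeZero q] in
lemma conv_cop (hx : ∀ n : ℕ, χ (n : ZMod q) = (x n : ℂ)) (ρ : ℂ) {n : ℕ} (hn : 1 ≤ n) :
    ∑ b ∈ n.divisors, (prq q b * pw ρ b) * (χ ((n / b : ℕ) : ZMod q) * pw ρ ((n / b : ℕ) : ℝ))
      = prq q n * ((fE x n : ℝ) : ℂ) * pw ρ n := by
  have hterm : ∀ b ∈ n.divisors, (prq q b * pw ρ b) * (χ ((n / b : ℕ) : ZMod q) * pw ρ ((n / b : ℕ) : ℝ))
      = prq q n * ((x (n / b) : ℝ) : ℂ) * pw ρ n := by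
    intro b hb
    have hbd := Nat.dvd_of_mem_divisors hb
    have hb0 : 0 < b := Nat.pos_of_mem_divisors hb
    have hnb : 0 < n / b := Nat.div_pos (Nat.le_of_dvd (by omega) hbd) hb0
    have hmul : b * (n / b) = n := Nat.mul_div_cancel' hbd
    have e1 : pw ρ b * pw ρ ((n / b : ℕ) : ℝ) = pw ρ n := by
      rw [← pw_nat_mul ρ hb0 hnb, hmul]
    rw [← hx, ← e1]
    by_cases hcop : Nat.Coprime n q
    · have h1 : Nat.Coprime b q := Nat.Coprime.coprime_dvd_left hbd hcop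
      unfold prq
      rw [if_pos hcop, if_pos h1]; ring
    · by_cases h1 : Nat.Coprime b q
      · have h2 : ¬ Nat.Coprime (n / b) q := by
          intro h3
          apply hcop
          rw [← hmul]
          exact Nat.Coprime.mul_left h1 h3
        rw [char_zero_of_not_coprime h2]; ring
      · unfold prq
        rw [if_neg hcop, if_neg h1]; ring
  rw [Finset.sum_congr rfl hterm, ← Finset.sum_mul, ← Finset.mul_sum]
  congr 2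
  unfold fE
  push_cast
  exact Nat.sum_div_divisors n (fun b => ((x b : ℝ) : ℂ))

end

/-- numerics for the error term -/
lemma err_numerics {A κ d M k n₀ c₁ X : ℝ} {N : ℕ} {kap : ℝ} (hM : 1 ≤ M) (hA : 18 ≤ A) (hd : 0 ≤ d)
    (hk0 : 0 ≤ k) (hn₀ : 0 ≤ n₀) (hc₁ : 0 < c₁) (hAk : k + 2 * n₀ ≤ A * κ)
    (hX : X = Real.exp (k * M)) (hN : 1 ≤ N) (hNM : (N:ℝ) ≤ Real.exp (n₀ * M)) (hkap0 : 0 ≤ kap)
    (hkap : kap ≤ (M + 3) / c₁) :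
    (M ^ (-A) * Real.exp (-A * κ * d * M)) * X ^ d * (3 + 2 * Real.log X + 2 * kap) * (N:ℝ) ^ (2 * d)
      * (1 + 2 * Real.log N) ^ 16 ≤ (3 + 2 * k + 8 / c₁) * (1 + 2 * n₀) ^ 16 / M := by
  have hM0 : 0 < M := by linarith
  have hN0 : (0:ℝ) < N := by exact_mod_cast hN
  have hN1 : (1:ℝ) ≤ N := by exact_mod_cast hN
  have hlogN : Real.log N ≤ n₀ * M := by
    have := Real.log_le_log hN0 hNM
    rwa [Real.log_exp] at this
  have hlogN0 : 0 ≤ Real.log N := Real.log_nonneg hN1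
  have hlogX : Real.log X = k * M := by rw [hX, Real.log_exp]
  have e1 : X ^ d = Real.exp (k * M * d) := by rw [hX, ← Real.exp_mul]
  have e2 : (N:ℝ) ^ (2 * d) ≤ Real.exp (n₀ * M * (2 * d)) := by
    calc (N:ℝ) ^ (2 * d) ≤ (Real.exp (n₀ * M)) ^ (2 * d) := Real.rpow_le_rpow hN0.le hNM (by positivity)
      _ = _ := by rw [← Real.exp_mul]
  have e3 : 3 + 2 * Real.log X + 2 * kap ≤ (3 + 2 * k + 8 / c₁) * M := by
    rw [hlogX]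
    have h1 : (M + 3) / c₁ ≤ 4 * M / c₁ := div_le_div_of_nonneg_right (by linarith) hc₁.le
    have h2 : 4 * M / c₁ = 4 / c₁ * M := by ring
    have h3 : (3 + 2 * k + 8 / c₁) * M = 3 * M + 2 * (k * M) + 2 * (4 / c₁ * M) := by ring
    rw [h3]
    linarith
  have e4 : (1 + 2 * Real.log N) ^ 16 ≤ (1 + 2 * n₀) ^ 16 * M ^ 16 := by
    rw [← mul_pow]
    apply pow_le_pow_left₀ (by linarith)
    nlinarith
  have e5 : Real.exp (-A * κ * d * M) * Real.exp (k * M * d) * Real.exp (n₀ * M * (2 * d)) ≤ 1 := by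
    rw [← Real.exp_add, ← Real.exp_add, Real.exp_le_one_iff]
    have : -A * κ * d * M + k * M * d + n₀ * M * (2 * d) = (k + 2 * n₀ - A * κ) * (d * M) := by ring
    rw [this]
    exact mul_nonpos_of_nonpos_of_nonneg (by linarith) (by positivity)
  have e6 : M ^ (-A) * (M * M ^ 16) ≤ 1 / M := by
    have h1 : M ^ (-A) ≤ M ^ (-(18:ℝ)) := Real.rpow_le_rpow_of_exponent_le hM (by linarith)
    have h2 : M ^ (-(18:ℝ)) = (M ^ 18)⁻¹ := by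
      rw [Real.rpow_neg hM0.le]
      congr 1
      exact_mod_cast Real.rpow_natCast M 18
    calc M ^ (-A) * (M * M ^ 16) ≤ (M ^ 18)⁻¹ * (M * M ^ 16) := by
          rw [← h2]; exact mul_le_mul_of_nonneg_right h1 (by positivity)
      _ = 1 / M := by field_simp
  have hMA : 0 < M ^ (-A) := Real.rpow_pos_of_pos hM0 _
  set K1 := 3 + 2 * k + 8 / c₁ with hK1
  have hK1p : 0 < K1 := by positivity
  calc (M ^ (-A) * Real.exp (-A * κ * d * M)) * X ^ d * (3 + 2 * Real.log X + 2 * kap) * (N:ℝ) ^ (2 * d)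
      * (1 + 2 * Real.log N) ^ 16
      ≤ (M ^ (-A) * Real.exp (-A * κ * d * M)) * Real.exp (k * M * d) * (K1 * M) * Real.exp (n₀ * M * (2 * d))
        * ((1 + 2 * n₀) ^ 16 * M ^ 16) := by
        rw [e1]
        have hlogX0 : 0 ≤ 3 + 2 * Real.log X + 2 * kap := by rw [hlogX]; positivity
        gcongr
    _ = (Real.exp (-A * κ * d * M) * Real.exp (k * M * d) * Real.exp (n₀ * M * (2 * d)))
        * (M ^ (-A) * (M * M ^ 16)) * (K1 * (1 + 2 * n₀) ^ 16) := by ring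
    _ ≤ 1 * (1 / M) * (K1 * (1 + 2 * n₀) ^ 16) := by
        apply mul_le_mul_of_nonneg_right _ (by positivity)
        exact mul_le_mul e5 e6 (by positivity) zero_le_one
    _ = _ := by ring

/-- `φ(q)/q` as the product over the primes dividing `q`. -/
lemma totient_div_eq {q N : ℕ} (hq : 0 < q) (hqN : q ≤ N) {x : ℕ → ℝ}
    (hx : ∀ p : ℕ, p.Prime → p ∣ q → x p = 0) :
    ∏ p ∈ (Icc 1 N).filter Nat.Prime ∩ q.primeFactors, (1 - nuE x p) = (Nat.totient q : ℝ) / q := by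
  have h1 : (Icc 1 N).filter Nat.Prime ∩ q.primeFactors = q.primeFactors := by
    apply Finset.inter_eq_right.2
    intro p hp
    have hpp := Nat.prime_of_mem_primeFactors hp
    have hpd := Nat.le_of_dvd hq (Nat.dvd_of_mem_primeFactors hp)
    exact Finset.mem_filter.2 ⟨Finset.mem_Icc.2 ⟨hpp.one_lt.le, hpd.trans hqN⟩, hpp⟩
  rw [h1]
  have h2 : ∀ p ∈ q.primeFactors, (1 - nuE x p) = 1 - ((p:ℝ))⁻¹ := by
    intro p hp
    have hpp := Nat.prime_of_mem_primeFactors hp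
    rw [nuE_prime x hpp, hx p hpp (Nat.dvd_of_mem_primeFactors hp)]
    ring
  rw [Finset.prod_congr rfl h2]
  have h3 := Nat.totient_eq_mul_prod_factors q
  have h4 : ((Nat.totient q : ℚ) : ℝ) = ((q * ∏ p ∈ q.primeFactors, (1 - (p:ℚ)⁻¹) : ℚ) : ℝ) := by rw [h3]
  push_cast at h4
  rw [h4]
  have hq0 : (q:ℝ) ≠ 0 := by exact_mod_cast hq.ne'
  field_simp

section

variable {q : ℕ} [NeZero q] {χ : DirichletCharacter ℂ q} {x : ℕ → ℝ} {ρ : ℂ} {d : ℝ}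

lemma norm_pw_le' (hρ1 : 1 - d ≤ ρ.re) {n : ℕ} (hn : 1 ≤ n) : ‖pw ρ n‖ ≤ (n:ℝ) ^ (-(1 - d)) := by
  have hn0 : (0:ℝ) < n := by exact_mod_cast hn
  rw [norm_pw hn0]
  exact Real.rpow_le_rpow_of_exponent_le (by exact_mod_cast hn) (by linarith)

omit [NeZero q] in
lemma norm_uC_le (hρ1 : 1 - d ≤ ρ.re) {n : ℕ} (hn : 1 ≤ n) :
    ‖prq q n * pw ρ n‖ ≤ (n:ℝ) ^ (-(1 - d)) := by
  rw [norm_mul]
  calc _ ≤ 1 * ‖pw ρ n‖ := mul_le_mul_of_nonneg_right (norm_prq_le q n) (norm_nonneg _)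
    _ ≤ _ := by rw [one_mul]; exact norm_pw_le' hρ1 hn

omit [NeZero q] in
lemma norm_vC_le (hρ1 : 1 - d ≤ ρ.re) {n : ℕ} (hn : 1 ≤ n) :
    ‖χ (n : ZMod q) * pw ρ n‖ ≤ (n:ℝ) ^ (-(1 - d)) := by
  rw [norm_mul]
  calc _ ≤ 1 * ‖pw ρ n‖ := mul_le_mul_of_nonneg_right (DirichletCharacter.norm_le_one χ _) (norm_nonneg _)
    _ ≤ _ := by rw [one_mul]; exact norm_pw_le' hρ1 hn

lemma cv_bound_cop {ε x₀ X : ℝ} {α κ₀ : ℂ} (hd : 0 ≤ d) (hρ : DirichletCharacter.LFunction χ ρ = 0)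
    (hρ1 : 1 - d ≤ ρ.re) (hε0 : 0 ≤ ε) (hε1 : ε ≤ 1) (hx₀1 : 1 ≤ x₀)
    (HB : ∀ t : ℝ, x₀ ≤ t → ‖(∑ n ∈ Finset.Icc 1 ⌊t⌋₊, χ (n : ZMod q) * pw ρ n)
      - DirichletCharacter.LFunction χ ρ‖ ≤ ε)
    (HB1 : ∀ t : ℝ, x₀ ≤ t → ‖(∑ n ∈ Finset.Icc 1 ⌊t⌋₊, χ (n : ZMod q) * pw 1 n)
      - DirichletCharacter.LFunction χ 1‖ ≤ ε)
    (HA : ∀ t : ℝ, x₀ ≤ t → ‖(∑ n ∈ Finset.Icc 1 ⌊t⌋₊, prq q n * pw ρ n) - α
            - κ₀ * pw (ρ - 1) t‖ ≤ ε) {y : ℝ} (hy1 : x₀ ^ 2 ≤ y) (hy2 : y ≤ X) :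
    ‖cv (fun n => prq q n * pw ρ n) (fun n => χ (n : ZMod q) * pw ρ n) y
      - (κ₀ * DirichletCharacter.LFunction χ 1) * pw (ρ - 1) y‖
      ≤ ε * X ^ d * (3 + 2 * Real.log X + 2 * ‖κ₀‖) := by
  have h1 := hyper_est (u := fun n : ℕ => prq q n * pw ρ n) (v := fun n : ℕ => χ (n : ZMod q) * pw ρ n)
    (s := ρ) (α := α) (β := 0) (κ₀ := κ₀) (lam := DirichletCharacter.LFunction χ 1) (d := d)
    (ε := ε) (x₀ := x₀) (y := y) hd hρ1 (fun n hn => norm_uC_le hρ1 hn) (fun n hn => norm_vC_le hρ1 hn)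
    hε0 hε1 hx₀1 hy1
    (fun t ht => HA t ht)
    (fun t ht => by
      have := HB t ht
      rw [hρ] at this
      exact this)
    (Or.inr (fun t ht => by
      have h2 := HB1 t ht
      have h3 : ∑ n ∈ Finset.Icc 1 ⌊t⌋₊, (χ (n : ZMod q) * pw ρ n) * pw (1 - ρ) n
          = ∑ n ∈ Finset.Icc 1 ⌊t⌋₊, χ (n : ZMod q) * pw 1 n := by
        refine Finset.sum_congr rfl fun n hn => ?_
        rw [Finset.mem_Icc] at hn
        have hn0 : ((n:ℝ):ℂ) ≠ 0 := by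
          have : (n:ℝ) ≠ 0 := by exact_mod_cast (by omega : n ≠ 0)
          exact_mod_cast this
        simp only [pw]
        rw [mul_assoc, ← Complex.cpow_add _ _ hn0]
        congr 2
        ring
      rw [h3]
      exact h2))
  rw [mul_zero, sub_zero] at h1
  have hy0 : 1 ≤ y := le_trans (one_le_pow₀ hx₀1) hy1
  refine h1.trans ?_
  have h4 : y ^ d ≤ X ^ d := Real.rpow_le_rpow (by linarith) hy2 hd
  have h5 : Real.log y ≤ Real.log X := Real.log_le_log (by linarith) hy2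
  have h6 : 0 ≤ Real.log y := Real.log_nonneg hy0
  have hX0 : 0 ≤ X ^ d := Real.rpow_nonneg (by linarith) _
  have h7 : 0 ≤ ε * X ^ d := mul_nonneg hε0 hX0
  gcongr

/-- the restricted weights -/
noncomputable def wq (q : ℕ) (w : ℕ → ℝ) (d : ℕ) : ℝ := if Nat.Coprime d q then w d else 0

omit [NeZero q] in
lemma sum_wq_ident (hx : ∀ n : ℕ, χ (n : ZMod q) = (x n : ℂ)) (w : ℕ → ℝ) (M : ℕ) :
    ∑ n ∈ Icc 1 M, (((∑ d ∈ n.divisors, wq q w d) ^ 2 : ℝ) : ℂ) *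
        ∑ b ∈ n.divisors, (prq q b * pw ρ b) * (χ ((n / b : ℕ) : ZMod q) * pw ρ ((n / b : ℕ) : ℝ))
      = ∑ n ∈ Icc 1 M, (((∑ d ∈ n.divisors, w d) ^ 2 : ℝ) : ℂ) * (prq q n * ((fE x n : ℝ) : ℂ) * pw ρ n) := by
  refine Finset.sum_congr rfl fun n hn => ?_
  rw [Finset.mem_Icc] at hn
  rw [conv_cop hx ρ hn.1]
  by_cases hcop : Nat.Coprime n q
  · have h2 : ∑ d ∈ n.divisors, wq q w d = ∑ d ∈ n.divisors, w d := by
      refine Finset.sum_congr rfl fun d hd => ?_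
      unfold wq
      rw [if_pos (Nat.Coprime.coprime_dvd_left (Nat.dvd_of_mem_divisors hd) hcop)]
    rw [h2]
  · have h3 : prq q n = 0 := by unfold prq; rw [if_neg hcop]
    rw [h3]; ring

lemma form_wq_le (hx : ∀ n : ℕ, χ (n : ZMod q) = (x n : ℂ)) {w : ℕ → ℝ} {N : ℕ} (hqN : q ≤ N)
    (hws : ∀ d, w d ≠ 0 → Squarefree d ∧ d ≤ N) :
    0 ≤ (∑ d ∈ Icc 1 N, ∑ e ∈ Icc 1 N, wq q w d * wq q w e * nuE x (Nat.lcm d e)) ∧
    (Nat.totient q : ℝ) / q * (∑ d ∈ Icc 1 N, ∑ e ∈ Icc 1 N, wq q w d * wq q w e * nuE x (Nat.lcm d e))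
      ≤ ∑ d ∈ Icc 1 N, ∑ e ∈ Icc 1 N, w d * w e * nuE x (Nat.lcm d e) := by
  classical
  have hq0 : 0 < q := Nat.pos_of_ne_zero (NeZero.ne q)
  have hxabs : ∀ n, |x n| ≤ 1 := by
    intro n
    have h1 := DirichletCharacter.norm_le_one χ (n : ZMod q)
    rw [hx n, Complex.norm_real, Real.norm_eq_abs] at h1
    exact h1
  have hform := form_coprime_le (nu := nuE x) (nuE_mult x) (fun p hp => (nuE_pos hxabs hp).le)
    (fun p hp => nuE_lt_one hxabs hp) (N := N) (q := q) hq0.ne' w (fun d hd => (hws d hd).1)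
  have hFeq : (∑ d ∈ Icc 1 N, ∑ e ∈ Icc 1 N, if (Nat.Coprime d q ∧ Nat.Coprime e q) then
        w d * w e * nuE x (Nat.lcm d e) else 0)
        = ∑ d ∈ Icc 1 N, ∑ e ∈ Icc 1 N, wq q w d * wq q w e * nuE x (Nat.lcm d e) := by
    refine Finset.sum_congr rfl fun d _ => Finset.sum_congr rfl fun e _ => ?_
    unfold wq
    by_cases h1 : Nat.Coprime d q
    · by_cases h2 : Nat.Coprime e q
      · rw [if_pos ⟨h1, h2⟩, if_pos h1, if_pos h2]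
      · rw [if_neg (fun h => h2 h.2), if_neg h2]; ring
    · rw [if_neg (fun h => h1 h.1), if_neg h1]; ring
  rw [hFeq, totient_div_eq hq0 hqN (fun p hp hpq => by
    have h1 := char_zero_of_not_coprime (χ := χ) (n := p) (by
      rw [Nat.Prime.coprime_iff_not_dvd hp]
      exact fun h => h hpq)
    rw [hx p] at h1
    exact_mod_cast h1)] at hform
  exact hform

end

lemma main_term_le {φq F F' X d a : ℝ} {lam ρ κ₀ : ℂ} (hκ₀ : ‖κ₀‖ = φq / ‖1 - ρ‖) (hφ : 0 ≤ φq)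
    (hF' : 0 ≤ F') (hFF : φq * F' ≤ F) (hX1 : 1 ≤ X) (hρ1 : 1 - d ≤ ρ.re) (ha : ‖lam‖ = a) :
    ‖κ₀ * lam * pw (ρ - 1) X * ((F' : ℝ) : ℂ)‖ ≤ F * (a * X ^ d / ‖1 - ρ‖) := by
  have hX0 : 0 < X := by linarith
  rw [norm_mul, norm_mul, norm_mul, hκ₀, Complex.norm_real, Real.norm_eq_abs, abs_of_nonneg hF', ha]
  have ha0 : 0 ≤ a := ha ▸ norm_nonneg _
  have h1 : ‖pw (ρ - 1) X‖ ≤ X ^ d := by
    rw [norm_pw hX0]
    refine Real.rpow_le_rpow_of_exponent_le hX1 ?_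
    rw [Complex.sub_re, Complex.one_re]; linarith
  calc φq / ‖1 - ρ‖ * a * ‖pw (ρ - 1) X‖ * F'
      = (φq * F') * (a * ‖pw (ρ - 1) X‖ / ‖1 - ρ‖) := by ring
    _ ≤ F * (a * X ^ d / ‖1 - ρ‖) := by
        apply mul_le_mul hFF _ (by positivity)
        · exact le_trans (mul_nonneg hφ hF') hFF
        · gcongr

lemma twist_cop_core' {q : ℕ} [NeZero q] {χ : DirichletCharacter ℂ q} {x : ℕ → ℝ} {ρ α κ₀ : ℂ}
    {d ε X x₀ b : ℝ} {N : ℕ} {w : ℕ → ℝ} (hX4 : (N:ℝ) ^ 4 * x₀ ^ 2 ≤ X) (hε0 : 0 ≤ ε) (hε1 : ε ≤ 1)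
    (hx₀1 : 1 ≤ x₀) (hX1 : 1 ≤ X) (hχ : χ ≠ 1) (hx : ∀ n : ℕ, χ (n : ZMod q) = (x n : ℂ))
    (hqN : q ≤ N) (hw : ∀ d, |w d| ≤ 1) (hws : ∀ d, w d ≠ 0 → Squarefree d ∧ d ≤ N)
    (hd : 0 ≤ d) (hd1 : d ≤ 1) (hρ : DirichletCharacter.LFunction χ ρ = 0) (hρ1 : 1 - d ≤ ρ.re)
    (hκ₀n : ‖κ₀‖ = (Nat.totient q : ℝ) / q / ‖1 - ρ‖)
    (HB : ∀ t : ℝ, x₀ ≤ t → ‖(∑ n ∈ Finset.Icc 1 ⌊t⌋₊, χ (n : ZMod q) * pw ρ n)
      - DirichletCharacter.LFunction χ ρ‖ ≤ ε)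
    (HB1 : ∀ t : ℝ, x₀ ≤ t → ‖(∑ n ∈ Finset.Icc 1 ⌊t⌋₊, χ (n : ZMod q) * pw 1 n)
      - DirichletCharacter.LFunction χ 1‖ ≤ ε)
    (HA : ∀ t : ℝ, x₀ ≤ t → ‖(∑ n ∈ Finset.Icc 1 ⌊t⌋₊, prq q n * pw ρ n) - α
            - κ₀ * pw (ρ - 1) t‖ ≤ ε)
    (herr : (ε * X ^ d * (3 + 2 * Real.log X + 2 * ‖κ₀‖)) * (N:ℝ) ^ (2 * d) * (1 + 2 * Real.log N) ^ 16
      ≤ b) :
    ∃ mn : ℂ, ‖mn‖ ≤ (∑ d ∈ Icc 1 N, ∑ e ∈ Icc 1 N, w d * w e * nuE x (Nat.lcm d e))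
              * (‖DirichletCharacter.LFunction χ 1‖ * X ^ d / ‖1 - ρ‖) ∧
      ‖(∑ n ∈ Icc 1 ⌊X⌋₊, (((∑ d ∈ n.divisors, w d) ^ 2 : ℝ) : ℂ) * (prq q n * ((fE x n : ℝ) : ℂ) * pw ρ n))
        - mn‖ ≤ b := by
  have hq0 : 0 < q := Nat.pos_of_ne_zero (NeZero.ne q)
  have hlogX0 : 0 ≤ Real.log X := Real.log_nonneg hX1
  have hE0 : 0 ≤ ε * X ^ d * (3 + 2 * Real.log X + 2 * ‖κ₀‖) := by positivity
  have hN1 : 1 ≤ N := by omega
  have hx1 : x 1 = 1 := by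
    have := hx 1
    simp only [Nat.cast_one, map_one] at this
    exact_mod_cast this.symm
  have hxm : ∀ m n, x (m * n) = x m * x n := by
    intro m n
    have h1 := hx (m * n)
    have h2 := hx m
    have h3 := hx n
    push_cast at h1
    rw [map_mul, h2, h3] at h1
    exact_mod_cast h1.symm
  have hsieve := sieve_sum_cop (u := fun n : ℕ => prq q n * pw ρ n)
    (v := fun n : ℕ => χ (n : ZMod q) * pw ρ n)
    (uC_mul hχ ρ) (vC_mul hχ ρ) hx1 hxm (w := wq q w) (N := N) hN1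
    (fun d => by
      unfold wq
      split_ifs
      · exact hw d
      · simp)
    (r := q)
    (fun d hd => by
      unfold wq at hd
      by_cases h : Nat.Coprime d q
      · rw [if_pos h] at hd
        exact ⟨(hws d hd).1, (hws d hd).2, h⟩
      · rw [if_neg h] at hd
        exact absurd rfl hd)
    (s := ρ) (c := κ₀ * DirichletCharacter.LFunction χ 1) (δ := d)
    (E := ε * X ^ d * (3 + 2 * Real.log X + 2 * ‖κ₀‖)) (Y₀ := x₀ ^ 2) (X := X)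
    hd hd1 (fun n hn => norm_uC_le hρ1 hn) (fun n hn => norm_vC_le hρ1 hn)
    (fun n hn hcop => by
      refine ⟨?_, ?_⟩
      · unfold prq; rw [if_pos hcop, one_mul]
      · rw [hx n])
    hE0 (one_le_pow₀ hx₀1)
    (fun y hy1 hy2 => cv_bound_cop hd hρ hρ1 hε0 hε1 hx₀1 HB HB1 HA hy1 hy2) hX4
  have hsum := sum_wq_ident (χ := χ) (ρ := ρ) hx w ⌊X⌋₊
  rw [hsum] at hsieve
  have hform := form_wq_le (χ := χ) hx hqN hws
  have hmainn := main_term_le (lam := DirichletCharacter.LFunction χ 1) hκ₀n (by positivity) hform.1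
    hform.2 hX1 hρ1 rfl
  exact ⟨_, hmainn, hsieve.trans herr⟩

lemma twist_cop_core {q : ℕ} [NeZero q] {χ : DirichletCharacter ℂ q} {x : ℕ → ℝ} {ρ α κ₀ : ℂ}
    {d ε X x₀ : ℝ} {N : ℕ} {w : ℕ → ℝ} (hX4 : (N:ℝ) ^ 4 * x₀ ^ 2 ≤ X) (hε0 : 0 ≤ ε) (hε1 : ε ≤ 1)
    (hx₀1 : 1 ≤ x₀) (hX1 : 1 ≤ X) (hχ : χ ≠ 1) (hx : ∀ n : ℕ, χ (n : ZMod q) = (x n : ℂ))
    (hqN : q ≤ N) (hw : ∀ d, |w d| ≤ 1) (hws : ∀ d, w d ≠ 0 → Squarefree d ∧ d ≤ N)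
    (hd : 0 ≤ d) (hd1 : d ≤ 1) (hρ : DirichletCharacter.LFunction χ ρ = 0) (hρ1 : 1 - d ≤ ρ.re)
    (hκ₀n : ‖κ₀‖ = (Nat.totient q : ℝ) / q / ‖1 - ρ‖)
    (HB : ∀ t : ℝ, x₀ ≤ t → ‖(∑ n ∈ Finset.Icc 1 ⌊t⌋₊, χ (n : ZMod q) * pw ρ n)
      - DirichletCharacter.LFunction χ ρ‖ ≤ ε)
    (HB1 : ∀ t : ℝ, x₀ ≤ t → ‖(∑ n ∈ Finset.Icc 1 ⌊t⌋₊, χ (n : ZMod q) * pw 1 n)
      - DirichletCharacter.LFunction χ 1‖ ≤ ε)
    (HA : ∀ t : ℝ, x₀ ≤ t → ‖(∑ n ∈ Finset.Icc 1 ⌊t⌋₊, prq q n * pw ρ n) - α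
            - κ₀ * pw (ρ - 1) t‖ ≤ ε)
    (herr : (ε * X ^ d * (3 + 2 * Real.log X + 2 * ‖κ₀‖)) * (N:ℝ) ^ (2 * d) * (1 + 2 * Real.log N) ^ 16
      ≤ 1 / 4) :
    ‖∑ n ∈ Icc 1 ⌊X⌋₊, (((∑ d ∈ n.divisors, w d) ^ 2 : ℝ) : ℂ) * (prq q n * ((fE x n : ℝ) : ℂ) * pw ρ n)‖
      ≤ 1 / 4 + (∑ d ∈ Icc 1 N, ∑ e ∈ Icc 1 N, w d * w e * nuE x (Nat.lcm d e))
              * (‖DirichletCharacter.LFunction χ 1‖ * X ^ d / ‖1 - ρ‖) := by
  obtain ⟨mn, h1, h2⟩ := twist_cop_core' hX4 hε0 hε1 hx₀1 hX1 hχ hx hqN hw hws hd hd1 hρ hρ1 hκ₀n HB HB1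
    HA herr
  have hfin := norm_sub_norm_le (∑ n ∈ Icc 1 ⌊X⌋₊, (((∑ d ∈ n.divisors, w d) ^ 2 : ℝ) : ℂ) *
    (prq q n * ((fE x n : ℝ) : ℂ) * pw ρ n)) mn
  linarith

lemma param_X4 {κ n₀ k M : ℝ} {N : ℕ} (hM0 : 0 < M) (hk : 2 * κ + 4 * n₀ ≤ k)
    (hNM : (N:ℝ) ≤ Real.exp (n₀ * M)) :
    (N:ℝ) ^ 4 * Real.exp (κ * M) ^ 2 ≤ Real.exp (k * M) := by
  have h1 : (N:ℝ) ^ 4 ≤ Real.exp (4 * (n₀ * M)) := by
    calc (N:ℝ) ^ 4 ≤ (Real.exp (n₀ * M)) ^ 4 := pow_le_pow_left₀ (Nat.cast_nonneg _) hNM 4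
      _ = Real.exp (4 * (n₀ * M)) := by rw [← Real.exp_nat_mul]; norm_num
  have h2 : Real.exp (κ * M) ^ 2 = Real.exp (2 * (κ * M)) := by rw [← Real.exp_nat_mul]; norm_num
  calc (N:ℝ) ^ 4 * Real.exp (κ * M) ^ 2 ≤ Real.exp (4 * (n₀ * M)) * Real.exp (2 * (κ * M)) := by
        rw [h2]; exact mul_le_mul_of_nonneg_right h1 (Real.exp_pos _).le
    _ = Real.exp (4 * (n₀ * M) + 2 * (κ * M)) := by rw [Real.exp_add]
    _ ≤ Real.exp (k * M) := by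
        rw [Real.exp_le_exp]
        nlinarith

lemma eps_le_one {A κ d M : ℝ} (hM1 : 1 ≤ M) (hA : 0 ≤ A) (hκ : 0 ≤ κ) (hd : 0 ≤ d) :
    M ^ (-A) * Real.exp (-A * κ * d * M) ≤ 1 := by
  have h1 : M ^ (-A) ≤ 1 := Real.rpow_le_one_of_one_le_of_nonpos hM1 (by linarith)
  have h2 : Real.exp (-A * κ * d * M) ≤ 1 := by
    rw [Real.exp_le_one_iff]
    have : 0 ≤ A * κ * d * M := by positivity
    linarith
  calc _ ≤ 1 * 1 := mul_le_mul h1 h2 (Real.exp_pos _).le zero_le_one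
    _ = 1 := one_mul 1

/-- The twisted sum for `χ₁` itself at a zero of `L(s, χ₁)`. -/
theorem twist_cop {C c : ℝ} (hC : 0 < C) (hc : 0 < c) (hVK : VKSum C c) {n₀ c₁ : ℝ} (hn₀ : 1 ≤ n₀)
    (hc₁ : 0 < c₁) :
    ∃ κ d₀ M₀ M₁ : ℝ, 10 ≤ κ ∧ 0 < d₀ ∧ d₀ ≤ 1/8 ∧ 1 ≤ M₀ ∧
      ∀ Q T d : ℝ, 1 ≤ Q → 3 ≤ T → 0 ≤ d → d ≤ d₀ → M₁ ≤ MM M₀ Q T d →
      ∀ (q : ℕ) [NeZero q] (χ : DirichletCharacter ℂ q) (x : ℕ → ℝ), (q:ℝ) ≤ Q → χ ≠ 1 →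
        (∀ n : ℕ, χ (n : ZMod q) = (x n : ℂ)) →
      ∀ (N : ℕ) (w : ℕ → ℝ), q ≤ N → (N:ℝ) ≤ Real.exp (n₀ * MM M₀ Q T d) → (∀ d, |w d| ≤ 1) →
        (∀ d, w d ≠ 0 → Squarefree d ∧ d ≤ N) →
      ∀ ρ : ℂ, DirichletCharacter.LFunction χ ρ = 0 → 1 - d ≤ ρ.re → ρ.re ≤ 2 → |ρ.im| ≤ T →
        c₁ / (MM M₀ Q T d + 3) ≤ ‖1 - ρ‖ →
        ‖∑ n ∈ Icc 1 ⌊Real.exp ((2 * κ + 4 * n₀ + 200) * MM M₀ Q T d)⌋₊,
            (((∑ d ∈ n.divisors, w d) ^ 2 : ℝ) : ℂ) * (prq q n * ((fE x n : ℝ) : ℂ) * pw ρ n)‖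
          ≤ 1 / 4 + (∑ d ∈ Icc 1 N, ∑ e ∈ Icc 1 N, w d * w e * nuE x (Nat.lcm d e))
              * (‖DirichletCharacter.LFunction χ 1‖
                * (Real.exp ((2 * κ + 4 * n₀ + 200) * MM M₀ Q T d)) ^ d / ‖1 - ρ‖) := by
  set A : ℝ := 18 + (202 + 6 * n₀) with hA
  obtain ⟨κ, d₀, M₀, hκ, hd₀, hd₀', hM₀, H⟩ := KE_cop hC hc hVK (A := A) (by rw [hA]; linarith)
  set k : ℝ := 2 * κ + 4 * n₀ + 200 with hk
  refine ⟨κ, d₀, M₀, 4 * ((3 + 2 * k + 8 / c₁) * (1 + 2 * n₀) ^ 16), hκ, hd₀, hd₀', hM₀, ?_⟩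
  intro Q T d hQ hT hd hdd hM₁ q _ χ x hqQ hχ hx N w hqN hNM hw hws ρ hρ hρ1 hρ2 him hfar
  have hq0 : 0 < q := Nat.pos_of_ne_zero (NeZero.ne q)
  have hq0R : (0:ℝ) < q := by exact_mod_cast hq0
  have hM1 : 1 ≤ MM M₀ Q T d := by
    have hLL := LL_nonneg hQ hT
    have hlT := log_T_pos hT
    have h2 : 0 ≤ Real.sqrt d * Real.log T := by positivity
    unfold MM; linarith
  have hM0 : 0 < MM M₀ Q T d := by linarith
  have hk0 : 0 ≤ k := by rw [hk]; linarith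
  have hρne : ρ ≠ 1 := by
    intro h
    rw [h, sub_self, norm_zero] at hfar
    have : 0 < c₁ / (MM M₀ Q T d + 3) := by positivity
    linarith
  have h1ρ : 0 < ‖1 - ρ‖ := norm_pos_iff.2 (sub_ne_zero.2 (Ne.symm hρne))
  obtain ⟨HB, HB1, α, HA⟩ := H Q T d hQ hT hd hdd q χ (by nlinarith) hχ ρ hρne (by linarith) hρ2 (by linarith)
  have hκ₀n : ‖(Nat.totient q : ℂ) / q / (1 - ρ)‖ = (Nat.totient q : ℝ) / q / ‖1 - ρ‖ := by
    rw [norm_div, norm_div, Complex.norm_natCast, Complex.norm_natCast]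
  have hφ1 : (Nat.totient q : ℝ) / q ≤ 1 := by
    rw [div_le_one hq0R]
    exact_mod_cast Nat.totient_le q
  have hκ₀le : ‖(Nat.totient q : ℂ) / q / (1 - ρ)‖ ≤ (MM M₀ Q T d + 3) / c₁ := by
    rw [hκ₀n]
    calc (Nat.totient q : ℝ) / q / ‖1 - ρ‖ ≤ 1 / ‖1 - ρ‖ := div_le_div_of_nonneg_right hφ1 h1ρ.le
      _ ≤ 1 / (c₁ / (MM M₀ Q T d + 3)) := one_div_le_one_div_of_le (by positivity) hfar
      _ = (MM M₀ Q T d + 3) / c₁ := by rw [one_div_div]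
  refine twist_cop_core (κ₀ := (Nat.totient q : ℂ) / q / (1 - ρ)) (α := α)
    (ε := MM M₀ Q T d ^ (-A) * Real.exp (-A * κ * d * MM M₀ Q T d))
    (x₀ := Real.exp (κ * MM M₀ Q T d))
    (param_X4 hM0 (by linarith) hNM) (by positivity) (eps_le_one hM1 (by linarith) (by linarith) hd)
    (Real.one_le_exp (by positivity)) (Real.one_le_exp (by positivity)) hχ hx hqN hw hws hd
    (by linarith) hρ hρ1 hκ₀n HB HB1 HA ?_
  have h1 := err_numerics (A := A) (κ := κ) (d := d) (M := MM M₀ Q T d) (k := k) (n₀ := n₀) (c₁ := c₁)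
    (X := Real.exp (k * MM M₀ Q T d))
    (N := N) (kap := ‖(Nat.totient q : ℂ) / q / (1 - ρ)‖) hM1 (by rw [hA]; linarith) hd hk0 (by linarith) hc₁
    (by
      rw [hA, hk]
      have : 0 ≤ (202 + 6 * n₀) := by linarith
      nlinarith)
    rfl (by omega) hNM (norm_nonneg _) hκ₀le
  refine h1.trans ?_
  rw [div_le_iff₀ hM0]
  linarith

end Vale.Agent.P026.H142
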