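import Vale.Agent.P026.H142.TwistC
import Vale.Agent.P026.H392.Twist

open Finset Complex Filter Topology

namespace Vale.Agent.P026.H142

open Vale.Agent.P026.H392

/-- `χ₁(n) f(n) = 1_{(n,q₁)=1} f(n)` for a quadratic character. -/
lemma char_mul_fE {q : ℕ} {χ : DirichletCharacter ℂ q} {x : ℕ → ℝ} (hsq : χ ^ 2 = 1)
    (hx : RealChar χ x) {n : ℕ} :
    χ (n : ZMod q) * ((fE x n : ℝ) : ℂ) = prq q n * ((fE x n : ℝ) : ℂ) := by
  by_cases hcop : Nat.Coprime n q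
  · have h1 : x n * fE x n = fE x n := by
      unfold fE
      rw [Finset.mul_sum, ← Nat.sum_div_divisors n (fun b => x b)]
      refine Finset.sum_congr rfl fun b hb => ?_
      have hbd := Nat.dvd_of_mem_divisors hb
      have hbc : Nat.Coprime b q := Nat.Coprime.coprime_dvd_left hbd hcop
      have h2 : x b * x b = 1 := by
        have h3 : χ (b : ZMod q) * χ (b : ZMod q) = 1 := by
          have h4 : (χ ^ 2) (b : ZMod q) = 1 := by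
            rw [hsq]
            exact MulChar.one_apply ((ZMod.isUnit_iff_coprime b q).2 hbc)
          rw [sq, MulChar.mul_apply] at h4
          exact h4
        rw [hx.eq b] at h3
        exact_mod_cast h3
      have h5 : x n = x b * x (n / b) := by
        rw [← hx.mul, Nat.mul_div_cancel' hbd]
      calc x n * x b = (x b * x b) * x (n / b) := by rw [h5]; ring
        _ = x (n / b) := by rw [h2, one_mul]
    have h6 : prq q n = 1 := by unfold prq; rw [if_pos hcop]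
    rw [h6, one_mul, hx.eq n]
    exact_mod_cast h1
  · have h1 := char_zero_of_not_coprime (χ := χ) hcop
    have h2 : prq q n = 0 := by unfold prq; rw [if_neg hcop]
    rw [h1, h2]

/-- The twisted sum for `χ₁` itself at a zero of `L(s, χ₁)`, in the shape of `twist_generic`. -/
theorem twist_self {κ d₀ M₁ : ℝ} (H : KEH κ d₀ M₁) (hκ : 10 ≤ κ) (hd₀' : d₀ ≤ 1/8) (hM₁ : 1 ≤ M₁)
    {c₁ : ℝ} (hc₁ : 0 < c₁) {M₀ : ℝ} (hM₀1 : M₁ ≤ M₀)
    (hM₀2 : 8 * ((3 + 20 * κ + 8 / c₁) * (1 + 4 * κ) ^ 16) ≤ M₀)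
    {Q T d : ℝ} (hQ : 1 ≤ Q) (hT : 3 ≤ T) (hd : 0 ≤ d) (hdd : d ≤ d₀)
    {q₁ : ℕ} [NeZero q₁] {χ₁ : DirichletCharacter ℂ q₁} {x : ℕ → ℝ} (hq₁ : (q₁:ℝ) ≤ Q)
    (hχ₁ : χ₁ ≠ 1) (hsq : χ₁ ^ 2 = 1) (hx : RealChar χ₁ x) {w : ℕ → ℝ} (hw : ∀ e, |w e| ≤ 1)
    (hws : ∀ e, w e ≠ 0 → Squarefree e ∧ e ≤ ⌊Real.exp (2 * κ * MM M₀ Q T d)⌋₊)
    (hG : ∑ a ∈ Finset.Icc 1 ⌊Real.exp (2 * κ * MM M₀ Q T d)⌋₊,
            ∑ b ∈ Finset.Icc 1 ⌊Real.exp (2 * κ * MM M₀ Q T d)⌋₊, w a * w b * nuE x (Nat.lcm a b)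
            = 1 / GS (nuE x) ⌊Real.exp (2 * κ * MM M₀ Q T d)⌋₊)
    {ρ : ℂ} (hzero : DirichletCharacter.LFunction χ₁ ρ = 0) (hre : 1 - d ≤ ρ.re) (him : |ρ.im| ≤ T)
    (hfar : c₁ / (MM M₀ Q T d + 3) ≤ ‖1 - ρ‖) :
    ∃ mn : ℂ, ‖mn‖ ≤ ‖DirichletCharacter.LFunction χ₁ 1‖ * (Real.exp (10 * κ * MM M₀ Q T d)) ^ d
        / (‖1 - ρ‖ * GS (nuE x) ⌊Real.exp (2 * κ * MM M₀ Q T d)⌋₊) ∧
      ‖(∑ n ∈ Finset.Icc 1 ⌊Real.exp (10 * κ * MM M₀ Q T d)⌋₊,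
      (((∑ e ∈ n.divisors, w e) ^ 2 : ℝ) : ℂ) * (((fE x n : ℝ) : ℂ) * (χ₁ (n : ZMod q₁) * pw ρ n))) - mn‖
      ≤ 1 / 8 := by
  set M := MM M₀ Q T d with hM
  have hLL := LL_nonneg hQ hT
  have hlT := log_T_pos hT
  have hMM₀ : M₀ ≤ M := by
    have h2 : 0 ≤ Real.sqrt d * Real.log T := by positivity
    rw [hM]; unfold MM; linarith
  have hM1 : 1 ≤ M := hM₁.trans (hM₀1.trans hMM₀)
  have hM0 : 0 < M := by linarith
  have hκ0 : 0 < κ := by linarith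
  have hq₁0 : 0 < q₁ := Nat.pos_of_ne_zero (NeZero.ne q₁)
  have hq₁0R : (0:ℝ) < q₁ := by exact_mod_cast hq₁0
  have hρ1 : ρ.re ≤ 1 := by
    by_contra hcon
    exact DirichletCharacter.LFunction_ne_zero_of_one_le_re χ₁ (Or.inl hχ₁) (not_le.1 hcon).le hzero
  have hρne : ρ ≠ 1 := by
    intro h
    rw [h, sub_self, norm_zero] at hfar
    have : 0 < c₁ / (M + 3) := by positivity
    linarith
  have h1ρ : 0 < ‖1 - ρ‖ := norm_pos_iff.2 (sub_ne_zero.2 (Ne.symm hρne))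
  have hqQ2 : (q₁:ℝ) ≤ Q ^ 2 := hq₁.trans (by nlinarith)
  have key : ∀ s : ℂ, 1 - 2 * d ≤ s.re → s.re ≤ 2 → |s.im| ≤ 4 * T →
      ∀ t : ℝ, Real.exp (κ * M) ≤ t →
          ‖(∑ n ∈ Finset.Icc 1 ⌊t⌋₊, χ₁ (n : ZMod q₁) * pw s n) - DirichletCharacter.LFunction χ₁ s‖
            ≤ M ^ (-(20:ℝ)) * Real.exp (-20 * κ * d * M) := by
    intro s hs1 hs2 him t ht
    obtain ⟨ℓ, h1, h2⟩ := H M₀ hM₀1 Q T d hQ hT hd hdd q₁ hq₁0 hqQ2 (fun n => χ₁ (n : ZMod q₁))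
      (fun n => DirichletCharacter.norm_le_one χ₁ _) (fun n => by simp) s hs1 hs2 him
    have e : DirichletCharacter.LFunction χ₁ s = ℓ :=
      tendsto_nhds_unique (link_char hχ₁ (by linarith)) h1
    have h3 := h2 t ht
    rw [mean_char hχ₁, zero_mul, sub_zero, ← e] at h3
    exact h3
  obtain ⟨ℓ, h1, h2⟩ := H M₀ hM₀1 Q T d hQ hT hd hdd q₁ hq₁0 hqQ2 (prq q₁) (norm_prq_le q₁)
    (prq_per q₁) ρ (by linarith) (by linarith) (by linarith)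
  have HA : ∀ t : ℝ, Real.exp (κ * M) ≤ t →
      ‖(∑ n ∈ Finset.Icc 1 ⌊t⌋₊, prq q₁ n * pw ρ n) - (ℓ - (Nat.totient q₁ : ℂ) / q₁ / (1 - ρ))
        - ((Nat.totient q₁ : ℂ) / q₁ / (1 - ρ)) * pw (ρ - 1) t‖
        ≤ M ^ (-(20:ℝ)) * Real.exp (-20 * κ * d * M) := by
    intro t ht
    have h3 := h2 t ht
    have ht0 : 0 < t := (Real.exp_pos _).trans_le ht
    rw [mean_prq q₁, integral_pw hρne one_pos ht0] at h3
    refine le_of_eq_of_le (congrArg norm ?_) h3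
    have a1 : (1 - ρ) ≠ 0 := sub_ne_zero.2 (Ne.symm hρne)
    have a3 : pw (ρ - 1) 1 = 1 := by simp [pw]
    have a4 : (q₁:ℂ) ≠ 0 := by exact_mod_cast hq₁0.ne'
    rw [a3]
    field_simp
    ring
  have hκ₀n : ‖(Nat.totient q₁ : ℂ) / q₁ / (1 - ρ)‖ = (Nat.totient q₁ : ℝ) / q₁ / ‖1 - ρ‖ := by
    rw [norm_div, norm_div, Complex.norm_natCast, Complex.norm_natCast]
  have hφ1 : (Nat.totient q₁ : ℝ) / q₁ ≤ 1 := by
    rw [div_le_one hq₁0R]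
    exact_mod_cast Nat.totient_le q₁
  have hκ₀le : ‖(Nat.totient q₁ : ℂ) / q₁ / (1 - ρ)‖ ≤ (M + 3) / c₁ := by
    rw [hκ₀n]
    calc (Nat.totient q₁ : ℝ) / q₁ / ‖1 - ρ‖ ≤ 1 / ‖1 - ρ‖ := div_le_div_of_nonneg_right hφ1 h1ρ.le
      _ ≤ 1 / (c₁ / (M + 3)) := one_div_le_one_div_of_le (by positivity) hfar
      _ = (M + 3) / c₁ := by rw [one_div_div]
  have hN1 : 1 ≤ ⌊Real.exp (2 * κ * M)⌋₊ :=
    Nat.one_le_iff_ne_zero.2 (Nat.floor_pos.2 (Real.one_le_exp (by positivity))).ne'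
  have hNle : (⌊Real.exp (2 * κ * M)⌋₊ : ℝ) ≤ Real.exp (2 * κ * M) := Nat.floor_le (by positivity)
  have hqN : q₁ ≤ ⌊Real.exp (2 * κ * M)⌋₊ := by
    apply Nat.le_floor
    refine hq₁.trans ?_
    have hlogQ : Real.log Q ≤ M := by
      have h3 : 0 ≤ Real.sqrt d * Real.log T := by positivity
      have h4 : 0 ≤ Real.log T ^ (2 / 3 : ℝ) * Real.log (Real.log T) ^ (1 / 3 : ℝ) := by
        have := loglog_pos hT
        positivity
      have h5 : 0 ≤ M₀ := by linarith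
      have h6 : Real.log Q ≤ LL Q T := by unfold LL; linarith
      rw [hM]; unfold MM; linarith
    calc Q = Real.exp (Real.log Q) := (Real.exp_log (by linarith)).symm
      _ ≤ Real.exp (2 * κ * M) := by
          rw [Real.exp_le_exp]
          nlinarith
  have harith := err_numerics (A := 20) (κ := κ) (d := d) (M := M) (k := 10 * κ) (n₀ := 2 * κ) (c₁ := c₁)
    (X := Real.exp (10 * κ * M)) (N := ⌊Real.exp (2 * κ * M)⌋₊)
    (kap := ‖(Nat.totient q₁ : ℂ) / q₁ / (1 - ρ)‖) hM1 (by norm_num) hd (by positivity) (by positivity) hc₁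
    (by linarith) rfl hN1 hNle (norm_nonneg _) hκ₀le
  have harith2 : (3 + 2 * (10 * κ) + 8 / c₁) * (1 + 2 * (2 * κ)) ^ 16 / M ≤ 1 / 8 := by
    rw [div_le_iff₀ hM0]
    have e1 : (3 + 2 * (10 * κ) + 8 / c₁) * (1 + 2 * (2 * κ)) ^ 16
        = (3 + 20 * κ + 8 / c₁) * (1 + 4 * κ) ^ 16 := by ring
    rw [e1]
    linarith
  have hX4 : (⌊Real.exp (2 * κ * M)⌋₊ : ℝ) ^ 4 * Real.exp (κ * M) ^ 2 ≤ Real.exp (10 * κ * M) :=
    param_X4 (n₀ := 2 * κ) hM0 (by linarith) hNle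
  obtain ⟨mn, m1, m2⟩ := twist_cop_core' (κ₀ := (Nat.totient q₁ : ℂ) / q₁ / (1 - ρ))
    (α := ℓ - (Nat.totient q₁ : ℂ) / q₁ / (1 - ρ)) (x := x)
    (ε := M ^ (-(20:ℝ)) * Real.exp (-20 * κ * d * M)) (x₀ := Real.exp (κ * M))
    hX4 (by positivity) (eps_le_one hM1 (by norm_num) hκ0.le hd)
    (Real.one_le_exp (by positivity)) (Real.one_le_exp (by positivity)) hχ₁ hx.eq hqN hw hws hd
    (by linarith) hzero hre hκ₀n (key ρ (by linarith) (by linarith) (by linarith))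
    (key 1 (by simp; linarith) (by simp) (by simp; linarith)) HA (harith.trans harith2)
  refine ⟨mn, m1.trans (le_of_eq ?_), ?_⟩
  · rw [hG]
    have hGpos : 0 < GS (nuE x) ⌊Real.exp (2 * κ * M)⌋₊ := by
      have h3 := GS_pos (nuE x) (nuE_mult x) (fun p hp => nuE_pos hx.abs_le hp)
        (fun p hp => nuE_lt_one hx.abs_le hp) _ hN1
      linarith
    field_simp
  · refine le_of_eq_of_le (congrArg norm ?_) m2
    congr 1
    refine Finset.sum_congr rfl fun n _ => ?_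
    have h3 := char_mul_fE (n := n) hsq hx
    calc (((∑ e ∈ n.divisors, w e) ^ 2 : ℝ) : ℂ) * (((fE x n : ℝ) : ℂ) * (χ₁ (n : ZMod q₁) * pw ρ n))
        = (((∑ e ∈ n.divisors, w e) ^ 2 : ℝ) : ℂ) * ((χ₁ (n : ZMod q₁) * ((fE x n : ℝ) : ℂ)) * pw ρ n) := by
          ring
      _ = _ := by rw [h3]

end Vale.Agent.P026.H142
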